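import Vale.Agent.P182.H532.SSurj

/-!
# Generalised surjectivity

The same as `surj_gen` and `surj_genS` without the hypothesis that the operators `β_s` commute with
the residues: it is only needed that the variations of the residues pair trivially with the `β_s`.
-/

namespace Vale.Agent.P182.SPIN

open Module Matrix Vale.Agent.P182.H533 Vale.Agent.P182.B1 Vale.Agent.P182.H922
  Vale.Agent.P182.H578

section versal

variable {L V J : Type*} [Field L] [AddCommGroup V] [Module L V] [FiniteDimensional L V]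
  [Fintype J] [DecidableEq J] {𝒟 : Cfg L V J}

omit [FiniteDimensional L V] [DecidableEq J] in
theorem om_map (t : J → V) (β : End L V) (l : J) : 𝒟.om (fun l => β (t l)) l = β (𝒟.om t l) := by
  simp only [Cfg.om, map_sum, map_smul]

omit [FiniteDimensional L V] in
theorem opr_beta (hG : 𝒟.Good) (t : J → V) {β : End L V} (hβ : IsSA 𝒟.q β) (s : Fin 3) :
    opr 𝒟.q (Tt L t) (Gm 𝒟.arm 𝒟.Ω s) (Tt L fun l => β (t l)) = Res 𝒟 t s * β := by
  apply LinearMap.ext
  intro v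
  have h1 : ad 𝒟.q (Tt L fun l => β (t l)) v = ad 𝒟.q (Tt L t) (β v) := by
    funext k
    rw [ad_apply, ad_apply, Tt_single, Tt_single, hβ]
  show Tt L t (Gm 𝒟.arm 𝒟.Ω s *ᵥ ad 𝒟.q (Tt L fun l => β (t l)) v) = _
  rw [h1]
  rfl

/-- the contribution of the skew operators -/
def gY (𝒟 : Cfg L V J) (t : J → V) (β : Fin 3 → End L V) :
    ((Fin 3 → adj 𝒟.q (-1)) × skM L J × Cpi 𝒟 × Ppi 𝒟) →ₗ[L] L where
  toFun y := ∑ l, (𝒟.q ((y.1 (𝒟.arm l) : End L V) (𝒟.om t l)) (β (𝒟.arm l) (t l)) +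
    𝒟.q ((y.1 (𝒟.arm l) : End L V) (t l)) (β (𝒟.arm l) (𝒟.om t l)))
  map_add' x y := by
    simp only [Prod.fst_add, Pi.add_apply, Submodule.coe_add, map_add,
      LinearMap.add_apply, Finset.sum_add_distrib]
    abel
  map_smul' c x := by
    simp only [Prod.smul_fst, Pi.smul_apply, Submodule.coe_smul, map_smul,
      LinearMap.smul_apply, smul_eq_mul, RingHom.id_apply, Finset.mul_sum, mul_add]

/-- **Generalised surjectivity.** -/
theorem gsurj (h2 : (2 : L) ≠ 0) (hG : 𝒟.Good) (hV : 𝒟.Versal) {t : J → V} (ht : t ∈ 𝒟.K)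
    {β : Fin 3 → End L V} (hβ : ∀ s, IsSA 𝒟.q (β s))
    (hn : ∀ n : H533.Conn 𝒟.q, ∑ l, (𝒟.q (n.δ (𝒟.om t l)) (β (𝒟.arm l) (t l)) +
      𝒟.q (n.δ (t l)) (β (𝒟.arm l) (𝒟.om t l))) = 0)
    (htr : ∀ t' ∈ 𝒟.K, ∑ s, LinearMap.trace L V
      (β s * opr 𝒟.q (Tt L t) (Gm 𝒟.arm 𝒟.Ω s) (Tt L t')) = 0) :
    ∃ r : J → V, (∀ l k, 𝒟.q (t l) (r k) = 𝒟.q (r l) (t k)) ∧
      (∀ s, IsSA 𝒟.q (opr 𝒟.q (Tt L t) (Gm 𝒟.arm 𝒟.Ω s) (Tt L r) - Res 𝒟 t s * β s)) ∧
      ∀ l, β (𝒟.arm l) (t l) - r l ∈ 𝒟.C l ∧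
        β (𝒟.arm l) (𝒟.om t l) - 𝒟.om r l ∈ perp 𝒟.q (𝒟.C l) := by
  -- the compatibility
  have hcomp : ∀ y, ((famPair 𝒟) ∘ₗ Lam 𝒟 t) y = 0 →
      (Rhs 𝒟 (fun l => β (𝒟.arm l) (t l)) (fun l => β (𝒟.arm l) (𝒟.om t l)) +
        gY 𝒟 t β) y = 0 := by
    rintro ⟨Y, ⟨η, hη⟩, ⟨w, hw⟩, ⟨w', hw'⟩⟩ hy
    have h0 := famPair_inj hG hy
    have h1 : ∀ l, (Y (𝒟.arm l) : End L V) (𝒟.om t l) -
        𝒟.om (fun k => (Y (𝒟.arm k) : End L V) (t k)) l - ∑ k, η l k • t k +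
          (w' l - 𝒟.om w l) = 0 := fun l => congrFun h0 l
    show ∑ l, (𝒟.q (w' l) (β (𝒟.arm l) (t l)) + 𝒟.q (w l) (β (𝒟.arm l) (𝒟.om t l))) +
      ∑ l, (𝒟.q ((Y (𝒟.arm l) : End L V) (𝒟.om t l)) (β (𝒟.arm l) (t l)) +
        𝒟.q ((Y (𝒟.arm l) : End L V) (t l)) (β (𝒟.arm l) (𝒟.om t l))) = 0
    rw [mem_Cpi] at hw
    rw [mem_Ppi] at hw'
    have hYs : ∀ s, IsSk 𝒟.q (Y s : End L V) := fun s u v => by
      rw [(Y s).2 u v]; ring
    obtain ⟨n, hn', hd⟩ := hV (fun s => (Y s : End L V)) hYs η hη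
    -- the solution given by the connection
    let z : J → V := fun l => n.δ (t l) - (Y (𝒟.arm l) : End L V) (t l)
    have hz : ∀ l, z l ∈ 𝒟.C l := fun l => hn' _ _ _ (ht.1 l)
    have hz' : ∀ l, n.δ (𝒟.om t l) - (Y (𝒟.arm l) : End L V) (𝒟.om t l) ∈ perp 𝒟.q (𝒟.C l) :=
      fun l => conn_perp n (hYs _) (fun v hv => hn' _ _ v hv) _ (ht.2 l)
    have hom : ∀ l, 𝒟.om (w - z) l =
        w' l - (n.δ (𝒟.om t l) - (Y (𝒟.arm l) : End L V) (𝒟.om t l)) := by
      intro l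
      have h3 : 𝒟.om (w - z) l = 𝒟.om w l - (𝒟.om (fun k => n.δ (t k)) l -
          𝒟.om (fun k => (Y (𝒟.arm k) : End L V) (t k)) l) := by
        simp only [Cfg.om, z, Pi.sub_apply, smul_sub, Finset.sum_sub_distrib]
      rw [h3, conn_om n]
      simp only [hd]
      have h4 := h1 l
      have h5 : w' l = 𝒟.om w l - ((Y (𝒟.arm l) : End L V) (𝒟.om t l) -
        𝒟.om (fun k => (Y (𝒟.arm k) : End L V) (t k)) l - ∑ k, η l k • t k) := by
        rw [← sub_eq_zero, ← h4]; abel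
      rw [h5]
      abel
    have hκ : w - z ∈ 𝒟.K := by
      refine ⟨fun l => sub_mem (hw l) (hz l), fun l => ?_⟩
      rw [hom]
      exact sub_mem (hw' l) (hz' l)
    -- the three contributions
    have c1 := htr _ hκ
    simp only [trace_opr hG.skew] at c1
    have c2 := hn n
    have fib : ∀ f : Fin 3 → J → L, ∑ s, ∑ l with 𝒟.arm l = s, f s l = ∑ l, f (𝒟.arm l) l := by
      intro f
      rw [← Finset.sum_fiberwise (s := Finset.univ) (g := 𝒟.arm)]
      refine Finset.sum_congr rfl fun s _ => Finset.sum_congr rfl fun l hl => ?_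
      rw [(Finset.mem_filter.1 hl).2]
    rw [fib (fun s l => 𝒟.q (𝒟.om (w - z) l) (β s (t l)) + 𝒟.q ((w - z) l) (β s (𝒟.om t l)))] at c1
    have c4 : ∑ l, (𝒟.q (w' l) (β (𝒟.arm l) (t l)) + 𝒟.q (w l) (β (𝒟.arm l) (𝒟.om t l))) =
        ∑ l, (𝒟.q (𝒟.om (w - z) l) (β (𝒟.arm l) (t l)) +
          𝒟.q ((w - z) l) (β (𝒟.arm l) (𝒟.om t l))) +
        (∑ l, (𝒟.q (n.δ (𝒟.om t l)) (β (𝒟.arm l) (t l)) +
          𝒟.q (n.δ (t l)) (β (𝒟.arm l) (𝒟.om t l))) -
        ∑ l, (𝒟.q ((Y (𝒟.arm l) : End L V) (𝒟.om t l)) (β (𝒟.arm l) (t l)) +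
          𝒟.q ((Y (𝒟.arm l) : End L V) (t l)) (β (𝒟.arm l) (𝒟.om t l)))) := by
      rw [← Finset.sum_sub_distrib, ← Finset.sum_add_distrib]
      refine Finset.sum_congr rfl fun l _ => ?_
      rw [hom]
      simp only [z, Pi.sub_apply, map_sub, LinearMap.sub_apply]
      ring
    rw [c4, c1, c2]
    ring
  obtain ⟨r, hr⟩ := lin_sys ((famPair 𝒟) ∘ₗ Lam 𝒟 t) _ hcomp
  have hr' : ∀ (Y : Fin 3 → adj 𝒟.q (-1)) (η : skM L J) (w : Cpi 𝒟) (w' : Ppi 𝒟),
      ∑ l, 𝒟.q ((Y (𝒟.arm l) : End L V) (𝒟.om t l)) (r l) +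
        ∑ l, 𝒟.q ((Y (𝒟.arm l) : End L V) (t l)) (𝒟.om r l) -
        ∑ l, ∑ k, (η : Matrix J J L) l k * 𝒟.q (t k) (r l) +
        (∑ l, 𝒟.q ((w' : J → V) l) (r l) + ∑ l, 𝒟.q ((w : J → V) l) (𝒟.om r l)) =
      ∑ l, (𝒟.q ((w' : J → V) l) (β (𝒟.arm l) (t l)) +
        𝒟.q ((w : J → V) l) (β (𝒟.arm l) (𝒟.om t l))) +
      ∑ l, (𝒟.q ((Y (𝒟.arm l) : End L V) (𝒟.om t l)) (β (𝒟.arm l) (t l)) +
        𝒟.q ((Y (𝒟.arm l) : End L V) (t l)) (β (𝒟.arm l) (𝒟.om t l))) := by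
    intro Y η w w'
    have h1 := hr (Y, η, w, w')
    rw [LinearMap.comp_apply, famPair_apply] at h1
    refine Eq.trans ?_ h1
    simp only [Lam_apply, map_add, map_sub, LinearMap.add_apply, LinearMap.sub_apply,
      Finset.sum_add_distrib, Finset.sum_sub_distrib]
    have p1 : ∀ a : J → V, ∑ l, 𝒟.q (𝒟.om a l) (r l) = - ∑ l, 𝒟.q (a l) (𝒟.om r l) := by
      intro a
      rw [pair_om hG, neg_neg]
      exact Finset.sum_congr rfl fun l _ => hG.form.symm _ _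
    rw [p1, p1]
    simp only [map_sum, LinearMap.sum_apply, map_smul, LinearMap.smul_apply, smul_eq_mul]
    ring
  refine ⟨r, ?_, ?_, ?_⟩
  · -- F1
    intro i j
    by_cases hij : i = j
    · subst hij; rw [hG.form.symm]
    let η : Matrix J J L := Matrix.single i j 1 - Matrix.single j i 1
    have hη : ηᵀ = -η := by
      simp only [η, Matrix.transpose_sub, Matrix.transpose_single, neg_sub]
    have h3 := hr' 0 ⟨η, hη⟩ 0 0
    have h4 : ∀ l k, η l k * 𝒟.q (t k) (r l) =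
        (if l = i then (if k = j then 𝒟.q (t j) (r i) else 0) else 0) -
          (if l = j then (if k = i then 𝒟.q (t i) (r j) else 0) else 0) := by
      intro l k
      simp only [η, Matrix.sub_apply, sub_mul, Matrix.single_apply]
      congr 1
      · by_cases hl : l = i
        · by_cases hk : k = j
          · subst hl; subst hk; simp
          · simp [hl, hk, Ne.symm hk]
        · simp [hl, Ne.symm hl]
      · by_cases hl : l = j
        · by_cases hk : k = i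
          · subst hl; subst hk; simp
          · simp [hl, hk, Ne.symm hk]
        · simp [hl, Ne.symm hl]
    simp only [h4, Finset.sum_sub_distrib] at h3
    simp only [Finset.sum_ite_irrel, Finset.sum_const_zero, Finset.sum_ite_eq', Finset.mem_univ,
      if_true] at h3
    simp at h3
    rw [sub_eq_zero] at h3
    rw [h3, hG.form.symm]
  · -- F2
    intro s
    set T := opr 𝒟.q (Tt L t) (Gm 𝒟.arm 𝒟.Ω s) (Tt L r) with hT
    have hTβ := opr_beta hG t (hβ s) s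
    intro v w
    let X : End L V := (𝒟.q v).smulRight w - (𝒟.q w).smulRight v
    have hX : ∀ a, X a = 𝒟.q v a • w - 𝒟.q w a • v := fun a => rfl
    have hXs : X ∈ adj 𝒟.q (-1) := by
      intro a b
      rw [hX, hX]
      simp only [map_sub, map_smul, LinearMap.sub_apply, LinearMap.smul_apply, smul_eq_mul]
      rw [hG.form.symm a w, hG.form.symm a v]
      ring
    have h3 := hr' (fun s' => if s' = s then ⟨X, hXs⟩ else 0) 0 0 0
    have h5 : ∀ (x : J → V) (x' : J → V) (l : J), (if 𝒟.arm l = s then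
        (𝒟.q (x' l) (X (t l)) + 𝒟.q (x l) (X (𝒟.om t l))) else 0) =
        (𝒟.q (((if 𝒟.arm l = s then ⟨X, hXs⟩ else 0 : adj 𝒟.q (-1)) : End L V) (𝒟.om t l))
            (x l) +
          𝒟.q (((if 𝒟.arm l = s then ⟨X, hXs⟩ else 0 : adj 𝒟.q (-1)) : End L V) (t l))
            (x' l)) := by
      intro x x' l
      split_ifs
      · rw [hG.form.symm (x' l), hG.form.symm (x l)]; ring
      · simp
    have h4 : LinearMap.trace L V (X * (T - Res 𝒟 t s * β s)) = 0 := by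
      rw [mul_sub, map_sub, ← hTβ, hT, trace_opr hG.skew, trace_opr hG.skew, Finset.sum_filter,
        Finset.sum_filter, sub_eq_zero]
      rw [Finset.sum_congr rfl fun l _ => h5 r (𝒟.om r) l,
        Finset.sum_congr rfl fun l _ => h5 (fun l => β s (t l)) (𝒟.om fun l => β s (t l)) l]
      have h6 : ∀ l, (𝒟.q (((if 𝒟.arm l = s then ⟨X, hXs⟩ else 0 : adj 𝒟.q (-1)) : End L V)
            (𝒟.om t l)) (β s (t l)) +
          𝒟.q (((if 𝒟.arm l = s then ⟨X, hXs⟩ else 0 : adj 𝒟.q (-1)) : End L V) (t l))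
            (𝒟.om (fun l => β s (t l)) l)) =
          (𝒟.q (((if 𝒟.arm l = s then ⟨X, hXs⟩ else 0 : adj 𝒟.q (-1)) : End L V)
            (𝒟.om t l)) (β (𝒟.arm l) (t l)) +
          𝒟.q (((if 𝒟.arm l = s then ⟨X, hXs⟩ else 0 : adj 𝒟.q (-1)) : End L V) (t l))
            (β (𝒟.arm l) (𝒟.om t l))) := by
        intro l
        rw [om_map]
        split_ifs with hl
        · rw [hl]
        · simp
      rw [Finset.sum_congr rfl fun l _ => h6 l, Finset.sum_add_distrib]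
      simpa using h3
    have h6 : ∀ T' : End L V, X * T' = (𝒟.q v ∘ₗ T').smulRight w -
        (𝒟.q w ∘ₗ T').smulRight v := by
      intro T'
      apply LinearMap.ext
      intro a
      rfl
    rw [h6, map_sub, LinearMap.trace_smulRight, LinearMap.trace_smulRight, sub_eq_zero] at h4
    rw [hG.form.symm]
    exact h4.symm
  · intro l
    constructor
    · apply perp_perp_le hG.form
      intro c hc
      have h3 := hr' 0 0 0 ⟨Pi.single l c, by
        rw [mem_Ppi]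
        intro k
        by_cases hk : k = l
        · subst hk; rwa [Pi.single_eq_same]
        · rw [Pi.single_eq_of_ne hk]; exact zero_mem _⟩
      have h4 : 𝒟.q c (r l) = 𝒟.q c (β (𝒟.arm l) (t l)) := by
        have e1 : ∀ f : J → V, ∑ k, 𝒟.q ((Pi.single l c : J → V) k) (f k) = 𝒟.q c (f l) := by
          intro f
          rw [Finset.sum_eq_single l]
          · rw [Pi.single_eq_same]
          · intro k _ hk
            rw [Pi.single_eq_of_ne hk, map_zero, LinearMap.zero_apply]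
          · intro h; exact absurd (Finset.mem_univ _) h
        simp only [Finset.sum_add_distrib] at h3
        rw [e1, e1 (fun k => β (𝒟.arm k) (t k))] at h3
        simpa using h3
      rw [hG.form.symm, map_sub, h4, sub_self]
    · intro c hc
      have h3 := hr' 0 0 ⟨Pi.single l c, by
        rw [mem_Cpi]
        intro k
        by_cases hk : k = l
        · subst hk; rwa [Pi.single_eq_same]
        · rw [Pi.single_eq_of_ne hk]; exact zero_mem _⟩ 0
      have h4 : 𝒟.q c (𝒟.om r l) = 𝒟.q c (β (𝒟.arm l) (𝒟.om t l)) := by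
        have e1 : ∀ f : J → V, ∑ k, 𝒟.q ((Pi.single l c : J → V) k) (f k) = 𝒟.q c (f l) := by
          intro f
          rw [Finset.sum_eq_single l]
          · rw [Pi.single_eq_same]
          · intro k _ hk
            rw [Pi.single_eq_of_ne hk, map_zero, LinearMap.zero_apply]
          · intro h; exact absurd (Finset.mem_univ _) h
        simp only [Finset.sum_add_distrib] at h3
        rw [e1 (fun k => 𝒟.om r k), e1 (fun k => β (𝒟.arm k) (𝒟.om t k))] at h3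
        simpa using h3
      rw [hG.form.symm, map_sub, h4, sub_self]

end versal

section special

variable {L V J : Type*} [Field L] [AddCommGroup V] [Module L V] [FiniteDimensional L V]
  [Fintype J] [DecidableEq J] {𝒟 : Cfg L V J} {a b : J}

/-- the contribution of the skew operators -/
def gYS (𝒟 : Cfg L V J) (a b : J) (t : J → V) (β : Fin 3 → End L V) :
    ((Fin 3 → adj 𝒟.q (-1)) × spM L a b × Cpi 𝒟 × Ppi 𝒟 × V) →ₗ[L] L where
  toFun y := ∑ l, (𝒟.q ((y.1 (𝒟.arm l) : End L V) (𝒟.om t l)) (β (𝒟.arm l) (t l)) +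
    𝒟.q ((y.1 (𝒟.arm l) : End L V) (t l)) (β (𝒟.arm l) (𝒟.om t l)))
  map_add' x y := by
    simp only [Prod.fst_add, Pi.add_apply, Submodule.coe_add, map_add,
      LinearMap.add_apply, Finset.sum_add_distrib]
    abel
  map_smul' c x := by
    simp only [Prod.smul_fst, Pi.smul_apply, Submodule.coe_smul, map_smul,
      LinearMap.smul_apply, smul_eq_mul, RingHom.id_apply, Finset.mul_sum, mul_add]

/-- **Generalised surjectivity for special configurations.** -/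
theorem gsurjS (h2 : (2 : L) ≠ 0) (hG : 𝒟.Good) (h : Sp 𝒟 a b) (hV : H338.SVersal 𝒟 a b)
    {t : J → V} (ht : t ∈ H338.Ks 𝒟 a b)
    {β : Fin 3 → End L V} (hβ : ∀ s, IsSA 𝒟.q (β s))
    (hn : ∀ n : H533.Conn 𝒟.q, ∑ l, (𝒟.q (n.δ (𝒟.om t l)) (β (𝒟.arm l) (t l)) +
      𝒟.q (n.δ (t l)) (β (𝒟.arm l) (𝒟.om t l))) = 0)
    (htr : ∀ t' ∈ H338.Ks 𝒟 a b, ∑ s, LinearMap.trace L V
      (β s * opr 𝒟.q (Tt L t) (Gm 𝒟.arm 𝒟.Ω s) (Tt L t')) = 0) :
    ∃ r : J → V, ∑ l, u0 𝒟 a b l • r l = 0 ∧ (∀ l k, 𝒟.q (t l) (r k) = 𝒟.q (r l) (t k)) ∧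
      (∀ s, IsSA 𝒟.q (opr 𝒟.q (Tt L t) (Gm 𝒟.arm 𝒟.Ω s) (Tt L r) - Res 𝒟 t s * β s)) ∧
      ∀ l, β (𝒟.arm l) (t l) - r l ∈ 𝒟.C l ∧
        β (𝒟.arm l) (𝒟.om t l) - 𝒟.om r l ∈ perp 𝒟.q (𝒟.C l) := by
  have fib : ∀ f : Fin 3 → J → L, ∑ s, ∑ l with 𝒟.arm l = s, f s l = ∑ l, f (𝒟.arm l) l := by
    intro f
    rw [← Finset.sum_fiberwise (s := Finset.univ) (g := 𝒟.arm)]
    refine Finset.sum_congr rfl fun s _ => Finset.sum_congr rfl fun l hl => ?_
    rw [(Finset.mem_filter.1 hl).2]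
  -- the compatibility
  have hcomp : ∀ y, ((famPair 𝒟) ∘ₗ LamS 𝒟 a b t) y = 0 →
      (RhsS 𝒟 a b (fun l => β (𝒟.arm l) (t l)) (fun l => β (𝒟.arm l) (𝒟.om t l)) +
        gYS 𝒟 a b t β) y = 0 := by
    rintro ⟨Y, ⟨η, hη⟩, ⟨w, hw⟩, ⟨w', hw'⟩, v⟩ hy
    have h0 := famPair_inj hG hy
    have h1 : ∀ l, (Y (𝒟.arm l) : End L V) (𝒟.om t l) -
        𝒟.om (fun k => (Y (𝒟.arm k) : End L V) (t k)) l - ∑ k, η l k • t k +
          (w' l - 𝒟.om w l) + u0 𝒟 a b l • v = 0 := fun l => congrFun h0 l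
    show ∑ l, (𝒟.q (w' l) (β (𝒟.arm l) (t l)) + 𝒟.q (w l) (β (𝒟.arm l) (𝒟.om t l))) +
      ∑ l, (𝒟.q ((Y (𝒟.arm l) : End L V) (𝒟.om t l)) (β (𝒟.arm l) (t l)) +
        𝒟.q ((Y (𝒟.arm l) : End L V) (t l)) (β (𝒟.arm l) (𝒟.om t l))) = 0
    rw [mem_Cpi] at hw
    rw [mem_Ppi] at hw'
    have hYs : ∀ s, IsSk 𝒟.q (Y s : End L V) := fun s u v => by
      rw [(Y s).2 u v]; ring
    obtain ⟨n, hn', hd⟩ := hV (fun s => (Y s : End L V)) hYs η hη.1 hη.2
    -- the solution given by the connection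
    let z : J → V := fun l => n.δ (t l) - (Y (𝒟.arm l) : End L V) (t l)
    have hz : ∀ l, z l ∈ 𝒟.C l := fun l => hn' _ _ _ (ht.1.1 l)
    have hz' : ∀ l, n.δ (𝒟.om t l) - (Y (𝒟.arm l) : End L V) (𝒟.om t l) ∈ perp 𝒟.q (𝒟.C l) :=
      fun l => conn_perp n (hYs _) (fun v hv => hn' _ _ v hv) _ (ht.1.2 l)
    have hom : ∀ l, 𝒟.om (w - z) l =
        w' l - (n.δ (𝒟.om t l) - (Y (𝒟.arm l) : End L V) (𝒟.om t l)) + u0 𝒟 a b l • v := by
      intro l
      have h3 : 𝒟.om (w - z) l = 𝒟.om w l - 𝒟.om z l := by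
        simp only [Cfg.om, Pi.sub_apply, smul_sub, Finset.sum_sub_distrib]
      rw [h3, conn_om' n hd (fun s => (Y s : End L V)) t l]
      have h4 := h1 l
      have h5 : w' l = 𝒟.om w l - ((Y (𝒟.arm l) : End L V) (𝒟.om t l) -
        𝒟.om (fun k => (Y (𝒟.arm k) : End L V) (t k)) l - ∑ k, η l k • t k) -
          u0 𝒟 a b l • v := by
        rw [← sub_eq_zero, ← h4]; abel
      rw [h5]
      abel
    obtain ⟨R, hR, va, hva, vb, hvb, e1, e2⟩ := adjust h2 h hG (κ := w - z) (v := v)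
      (fun l => sub_mem (hw l) (hz l)) (fun l => by
        rw [hom, add_sub_cancel_right]
        exact sub_mem (hw' l) (hz' l))
    -- the contributions
    have c1 := htr _ hR
    simp only [trace_opr hG.skew] at c1
    have c2 := hn n
    have c5 := Finset.sum_eq_zero (s := Finset.univ) fun s (_ : s ∈ Finset.univ) =>
      sum_arm_zero h ht.2 (𝒟.q.compl₂ (β s)) va vb s
    rw [fib (fun s l => 𝒟.q (𝒟.om R l) (β s (t l)) + 𝒟.q (R l) (β s (𝒟.om t l)))] at c1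
    rw [fib (fun s l => (𝒟.q.compl₂ (β s)) (Zf a b va vb l) (𝒟.om t l) -
      (𝒟.q.compl₂ (β s)) (yy 𝒟 a b va vb l) (t l))] at c5
    have ew : ∀ l, w l = R l + Zf a b va vb l + (n.δ (t l) - (Y (𝒟.arm l) : End L V) (t l)) := by
      intro l
      have := congrFun e1 l
      rw [Pi.sub_apply, Pi.add_apply, sub_eq_iff_eq_add] at this
      exact this
    have ew' : ∀ l, w' l = 𝒟.om R l - yy 𝒟 a b va vb l +
        (n.δ (𝒟.om t l) - (Y (𝒟.arm l) : End L V) (𝒟.om t l)) := by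
      intro l
      have h5 := hom l
      rw [e2] at h5
      have h6 : w' l = (𝒟.om R l + (u0 𝒟 a b l • v - yy 𝒟 a b va vb l)) - u0 𝒟 a b l • v +
          (n.δ (𝒟.om t l) - (Y (𝒟.arm l) : End L V) (𝒟.om t l)) := by
        rw [h5]; abel
      rw [h6]
      abel
    have c4 : ∑ l, (𝒟.q (w' l) (β (𝒟.arm l) (t l)) + 𝒟.q (w l) (β (𝒟.arm l) (𝒟.om t l))) =
        ∑ l, (𝒟.q (𝒟.om R l) (β (𝒟.arm l) (t l)) +
          𝒟.q (R l) (β (𝒟.arm l) (𝒟.om t l))) +
        (∑ l, (𝒟.q (n.δ (𝒟.om t l)) (β (𝒟.arm l) (t l)) +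
          𝒟.q (n.δ (t l)) (β (𝒟.arm l) (𝒟.om t l))) -
        ∑ l, (𝒟.q ((Y (𝒟.arm l) : End L V) (𝒟.om t l)) (β (𝒟.arm l) (t l)) +
          𝒟.q ((Y (𝒟.arm l) : End L V) (t l)) (β (𝒟.arm l) (𝒟.om t l)))) +
        ∑ l, ((𝒟.q.compl₂ (β (𝒟.arm l))) (Zf a b va vb l) (𝒟.om t l) -
          (𝒟.q.compl₂ (β (𝒟.arm l))) (yy 𝒟 a b va vb l) (t l)) := by
      rw [← Finset.sum_sub_distrib, ← Finset.sum_add_distrib, ← Finset.sum_add_distrib]
      refine Finset.sum_congr rfl fun l _ => ?_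
      rw [ew, ew']
      simp only [map_add, map_sub, LinearMap.sub_apply, LinearMap.add_apply,
        LinearMap.compl₂_apply]
      ring
    rw [c4, c1, c2, c5]
    ring
  obtain ⟨r, hr⟩ := lin_sys ((famPair 𝒟) ∘ₗ LamS 𝒟 a b t) _ hcomp
  have hr' : ∀ (Y : Fin 3 → adj 𝒟.q (-1)) (η : spM L a b) (w : Cpi 𝒟) (w' : Ppi 𝒟) (v : V),
      ∑ l, 𝒟.q ((Y (𝒟.arm l) : End L V) (𝒟.om t l)) (r l) +
        ∑ l, 𝒟.q ((Y (𝒟.arm l) : End L V) (t l)) (𝒟.om r l) -
        ∑ l, ∑ k, (η : Matrix J J L) l k * 𝒟.q (t k) (r l) +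
        (∑ l, 𝒟.q ((w' : J → V) l) (r l) + ∑ l, 𝒟.q ((w : J → V) l) (𝒟.om r l)) +
        𝒟.q v (∑ l, u0 𝒟 a b l • r l) =
      ∑ l, (𝒟.q ((w' : J → V) l) (β (𝒟.arm l) (t l)) +
        𝒟.q ((w : J → V) l) (β (𝒟.arm l) (𝒟.om t l))) +
      ∑ l, (𝒟.q ((Y (𝒟.arm l) : End L V) (𝒟.om t l)) (β (𝒟.arm l) (t l)) +
        𝒟.q ((Y (𝒟.arm l) : End L V) (t l)) (β (𝒟.arm l) (𝒟.om t l))) := by
    intro Y η w w' v
    have h1 := hr (Y, η, w, w', v)
    rw [LinearMap.comp_apply, famPair_apply] at h1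
    refine Eq.trans ?_ h1
    have hLam : ∀ l, LamS 𝒟 a b t (Y, η, w, w', v) l = (Y (𝒟.arm l) : End L V) (𝒟.om t l) -
      𝒟.om (fun k => (Y (𝒟.arm k) : End L V) (t k)) l - ∑ k, (η : Matrix J J L) l k • t k +
      ((w' : J → V) l - 𝒟.om (w : J → V) l) + u0 𝒟 a b l • v := fun l => rfl
    simp only [hLam, map_add, map_sub, LinearMap.add_apply, LinearMap.sub_apply,
      Finset.sum_add_distrib, Finset.sum_sub_distrib]
    have p1 : ∀ a : J → V, ∑ l, 𝒟.q (𝒟.om a l) (r l) = - ∑ l, 𝒟.q (a l) (𝒟.om r l) := by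
      intro a
      rw [pair_om hG, neg_neg]
      exact Finset.sum_congr rfl fun l _ => hG.form.symm _ _
    rw [p1, p1]
    simp only [map_sum, LinearMap.sum_apply, map_smul, LinearMap.smul_apply, smul_eq_mul]
    ring
  have hru : ∑ l, u0 𝒟 a b l • r l = 0 := by
    apply hG.form.nondeg
    intro v
    have h3 := hr' 0 0 0 0 v
    rw [hG.form.symm]
    simpa using h3
  refine ⟨r, hru, ?_, ?_, ?_⟩
  · -- F1
    intro l k
    have h3 : ∀ η : Matrix J J L, SpM a b η →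
        ∑ l, ∑ k, η l k * 𝒟.q (r l) (t k) = 0 := by
      intro η hη
      have h4 := hr' 0 ⟨η, hη⟩ 0 0 0
      have h5 : ∑ l, ∑ k, η l k * 𝒟.q (t k) (r l) = 0 := by simpa using h4
      rw [← h5]
      exact Finset.sum_congr rfl fun l _ => Finset.sum_congr rfl fun k _ => by
        rw [hG.form.symm (r l)]
    rw [gram_sym h2 hG h hru ht.2 h3 l k, hG.form.symm]
  · -- F2
    intro s
    set T := opr 𝒟.q (Tt L t) (Gm 𝒟.arm 𝒟.Ω s) (Tt L r) with hT
    have hTβ := opr_beta hG t (hβ s) s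
    intro v w
    let X : End L V := (𝒟.q v).smulRight w - (𝒟.q w).smulRight v
    have hX : ∀ a, X a = 𝒟.q v a • w - 𝒟.q w a • v := fun a => rfl
    have hXs : X ∈ adj 𝒟.q (-1) := by
      intro a b
      rw [hX, hX]
      simp only [map_sub, map_smul, LinearMap.sub_apply, LinearMap.smul_apply, smul_eq_mul]
      rw [hG.form.symm a w, hG.form.symm a v]
      ring
    have h3 := hr' (fun s' => if s' = s then ⟨X, hXs⟩ else 0) 0 0 0 0
    have h5 : ∀ (x : J → V) (x' : J → V) (l : J), (if 𝒟.arm l = s then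
        (𝒟.q (x' l) (X (t l)) + 𝒟.q (x l) (X (𝒟.om t l))) else 0) =
        (𝒟.q (((if 𝒟.arm l = s then ⟨X, hXs⟩ else 0 : adj 𝒟.q (-1)) : End L V) (𝒟.om t l))
            (x l) +
          𝒟.q (((if 𝒟.arm l = s then ⟨X, hXs⟩ else 0 : adj 𝒟.q (-1)) : End L V) (t l))
            (x' l)) := by
      intro x x' l
      split_ifs
      · rw [hG.form.symm (x' l), hG.form.symm (x l)]; ring
      · simp
    have h4 : LinearMap.trace L V (X * (T - Res 𝒟 t s * β s)) = 0 := by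
      rw [mul_sub, map_sub, ← hTβ, hT, trace_opr hG.skew, trace_opr hG.skew, Finset.sum_filter,
        Finset.sum_filter, sub_eq_zero]
      rw [Finset.sum_congr rfl fun l _ => h5 r (𝒟.om r) l,
        Finset.sum_congr rfl fun l _ => h5 (fun l => β s (t l)) (𝒟.om fun l => β s (t l)) l]
      have h6 : ∀ l, (𝒟.q (((if 𝒟.arm l = s then ⟨X, hXs⟩ else 0 : adj 𝒟.q (-1)) : End L V)
            (𝒟.om t l)) (β s (t l)) +
          𝒟.q (((if 𝒟.arm l = s then ⟨X, hXs⟩ else 0 : adj 𝒟.q (-1)) : End L V) (t l))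
            (𝒟.om (fun l => β s (t l)) l)) =
          (𝒟.q (((if 𝒟.arm l = s then ⟨X, hXs⟩ else 0 : adj 𝒟.q (-1)) : End L V)
            (𝒟.om t l)) (β (𝒟.arm l) (t l)) +
          𝒟.q (((if 𝒟.arm l = s then ⟨X, hXs⟩ else 0 : adj 𝒟.q (-1)) : End L V) (t l))
            (β (𝒟.arm l) (𝒟.om t l))) := by
        intro l
        rw [om_map]
        split_ifs with hl
        · rw [hl]
        · simp
      rw [Finset.sum_congr rfl fun l _ => h6 l, Finset.sum_add_distrib]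
      simpa using h3
    have h6 : ∀ T' : End L V, X * T' = (𝒟.q v ∘ₗ T').smulRight w -
        (𝒟.q w ∘ₗ T').smulRight v := by
      intro T'
      apply LinearMap.ext
      intro a
      rfl
    rw [h6, map_sub, LinearMap.trace_smulRight, LinearMap.trace_smulRight, sub_eq_zero] at h4
    rw [hG.form.symm]
    exact h4.symm
  · intro l
    constructor
    · apply perp_perp_le hG.form
      intro c hc
      have h3 := hr' 0 0 0 ⟨Pi.single l c, by
        rw [mem_Ppi]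
        intro k
        by_cases hk : k = l
        · subst hk; rwa [Pi.single_eq_same]
        · rw [Pi.single_eq_of_ne hk]; exact zero_mem _⟩ 0
      have h4 : 𝒟.q c (r l) = 𝒟.q c (β (𝒟.arm l) (t l)) := by
        have e1 : ∀ f : J → V, ∑ k, 𝒟.q ((Pi.single l c : J → V) k) (f k) = 𝒟.q c (f l) := by
          intro f
          rw [Finset.sum_eq_single l]
          · rw [Pi.single_eq_same]
          · intro k _ hk
            rw [Pi.single_eq_of_ne hk, map_zero, LinearMap.zero_apply]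
          · intro h; exact absurd (Finset.mem_univ _) h
        simp only [Finset.sum_add_distrib] at h3
        rw [e1, e1 (fun k => β (𝒟.arm k) (t k))] at h3
        simpa using h3
      rw [hG.form.symm, map_sub, h4, sub_self]
    · intro c hc
      have h3 := hr' 0 0 ⟨Pi.single l c, by
        rw [mem_Cpi]
        intro k
        by_cases hk : k = l
        · subst hk; rwa [Pi.single_eq_same]
        · rw [Pi.single_eq_of_ne hk]; exact zero_mem _⟩ 0 0
      have h4 : 𝒟.q c (𝒟.om r l) = 𝒟.q c (β (𝒟.arm l) (𝒟.om t l)) := by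
        have e1 : ∀ f : J → V, ∑ k, 𝒟.q ((Pi.single l c : J → V) k) (f k) = 𝒟.q c (f l) := by
          intro f
          rw [Finset.sum_eq_single l]
          · rw [Pi.single_eq_same]
          · intro k _ hk
            rw [Pi.single_eq_of_ne hk, map_zero, LinearMap.zero_apply]
          · intro h; exact absurd (Finset.mem_univ _) h
        simp only [Finset.sum_add_distrib] at h3
        rw [e1 (fun k => 𝒟.om r k), e1 (fun k => β (𝒟.arm k) (𝒟.om t k))] at h3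
        simpa using h3
      rw [hG.form.symm, map_sub, h4, sub_self]

end special

end Vale.Agent.P182.SPIN
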