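import Vale.Agent.P182.H532.GSurjW
import Vale.Agent.P182.H588.Ctx

/-!
# Generalised surjectivity in a context, for operators with values in the core
-/

namespace Vale.Agent.P182.SPIN

open Module Matrix Vale.Agent.P182.H533 Vale.Agent.P182.B1 Vale.Agent.P182.H922
  Vale.Agent.P182.H578 Vale.Agent.P182.H588

variable {L V J : Type*} [Field L] [AddCommGroup V] [Module L V] [FiniteDimensional L V]
  [Fintype J] [DecidableEq J] {𝒟 : Cfg L V J} {u : J → L} {t : J → V}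

/-- **Generalised surjectivity**: self-adjoint `β_s` with values in the core, `∑ [S_s, β_s] = 0`,
commuting with `S_s` modulo the radical. -/
theorem gsurj_core (h2 : (2 : L) ≠ 0) (hC : Ctx 𝒟 u) (ht : t ∈ Ku 𝒟 u)
    (C : Core 𝒟.q (Res 𝒟 t)) {β : Fin 3 → End L V} (hβ : ∀ s, IsSA 𝒟.q (β s))
    (hβW : ∀ s v, β s v ∈ C.W) (hsum : ∑ s, (Res 𝒟 t s * β s - β s * Res 𝒟 t s) = 0)
    (hc : ∀ s, C.res hC.good.form (β s) * C.S1 hC.good.form s =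
      C.S1 hC.good.form s * C.res hC.good.form (β s)) :
    ∃ r ∈ Uu V u, (∀ l k, 𝒟.q (t l) (r k) = 𝒟.q (r l) (t k)) ∧
      (∀ s, IsSA 𝒟.q (opr 𝒟.q (Tt L t) (Gm 𝒟.arm 𝒟.Ω s) (Tt L r) - Res 𝒟 t s * β s)) ∧
      ∀ l, β (𝒟.arm l) (t l) - r l ∈ 𝒟.C l ∧
        β (𝒟.arm l) (𝒟.om t l) - 𝒟.om r l ∈ perp 𝒟.q (𝒟.C l) :=
  hC.gsurj t ht β hβ (hn_of_W h2 hC.good ht.1 C hβ hβW hsum hc) fun k hk =>
    htr_of_W hC.good ht.1 C hC.krel ⟨t, ht, rfl⟩ hβ hβW hc ⟨k, hk, rfl⟩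

end Vale.Agent.P182.SPIN
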