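import Vale.Agent.P182.H258.HIn
import Vale.Agent.P182.H338.SStar

/-!
# T-SPIN: the special input (H) over a configuration
-/

namespace Vale.Agent.P182.H588

open Module Matrix Vale.Agent.P182.H533 Vale.Agent.P182.B1 Vale.Agent.P182.H62
  Vale.Agent.P182.H338

universe u w

variable {L : Type u} {V : Type u} {J : Type w} [Field L] [AddCommGroup V] [Module L V]
  [Fintype J]

/-- **The special input (H).** -/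
structure HInS (𝒟 : Cfg L V J) (g : 𝒟.Good) (c0 c1 : J) (S : Submodule L V) (x : J → ↥S)
    (φ : J → SQ 𝒟.q S) : Prop where
  iso : 𝒟.Iso S
  xN : x ∈ H887.HomN 𝒟.Ω (objA 𝒟 S) (objB 𝒟 S)
  ux : ∑ l, uz 𝒟 c0 c1 l • x l = 0
  φK : φ ∈ Ks (sq 𝒟 g S) c0 c1
  φ_span : ∀ t ∈ Ks (sq 𝒟 g S) c0 c1, ∃ a : L, t = a • φ
  ext : ∀ Y : Fin 3 → (↥S →ₗ[L] SQ 𝒟.q S), ∃ (a : ↥S →ₗ[L] SQ 𝒟.q S)
    (b : Fin 3 → (↥S →ₗ[L] SQ 𝒟.q S)), (∀ s, Y s = a + b s) ∧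
      (∀ s i (v : ↥S), (v : V) ∈ 𝒟.F s i → b s v ∈ (sq 𝒟 g S).F s i) ∧
        ∀ s i (v : ↥S), (v : V) ∈ perp 𝒟.q (𝒟.F s i) →
          b s v ∈ perp (sq 𝒟 g S).q ((sq 𝒟 g S).F s i)
  c_ne : ∃ d ∈ H258.SkF 𝒟 S, d ≠ 0
  c_surj : ∀ z ∈ H887.HomD 𝒟.Ω (objA 𝒟 S) (objB 𝒟 S), ∑ l, uz 𝒟 c0 c1 l • z l = 0 →
    ∃ d ∈ H258.SkF 𝒟 S, ∀ l, z l = d (x l)
  c_inj : ∀ d ∈ H258.SkF 𝒟 S, (∀ l k, d (x l) (x k) = 0) → d = 0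
  alt : (∃ l k, (sq 𝒟 g S).q (φ l) (φ k) ≠ 0) ∨
    ∃ γ : Fin 2 → (SQ 𝒟.q S →ₗ[L] Dual L (SQ 𝒟.q S)), (∀ i u v, γ i u v = - γ i v u) ∧
      (∀ a b : L, (∀ l k, a * γ 0 (φ l) (φ k) + b * γ 1 (φ l) (φ k) = 0) → a = 0 ∧ b = 0) ∧
        ∀ i s n, ∀ u ∈ Submodule.span L (Set.range φ), ∀ v ∈ Submodule.span L (Set.range φ),
          u ∈ (sq 𝒟 g S).F s n → v ∈ perp (sq 𝒟 g S).q ((sq 𝒟 g S).F s n) → γ i u v = 0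

/-- the special input does not occur -/
def NoHInS (J : Type w) [Fintype J] [DecidableEq J] : Prop :=
  ∀ (L : Type u) [Field L] [IsAlgClosed L] [CharZero L] (V : Type u) [AddCommGroup V]
    [Module L V] [FiniteDimensional L V] (𝒟 : Cfg L V J) (g : 𝒟.Good) (c0 c1 : J),
    SpinC 𝒟 c0 c1 → SVersal 𝒟 c0 c1 → (∀ S, 𝒟.Iso S → thetaS 𝒟 c0 c1 S ≤ 0) →
    ∀ (S : Submodule L V) (x : J → ↥S) (φ : J → SQ 𝒟.q S), ¬ HInS 𝒟 g c0 c1 S x φ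

end Vale.Agent.P182.H588
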