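import Vale.Agent.P182.H532.SRad
import Vale.Agent.P182.H532.SHInD
import Vale.Agent.P182.H338.STFrame
import Vale.Agent.P182.H258.R1

/-!
# T-SPIN: the standing hypotheses and the situation (B2) for special configurations
-/

namespace Vale.Agent.P182.H588.SP

open Module Matrix TensorProduct Vale.Agent.P182.H533 Vale.Agent.P182.B1 Vale.Agent.P182.H62
open Vale.Agent.P182.H96 (ofCfg toCfg pp pp_eq om Rd)
open Vale.Agent.P182.H338 (SpinC SpinC1 SVersal uz uzM ExtZeroS UStrictS IHSs thetaS)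
open Vale.Agent.P182.H258 (famS mem_famS evf fam finrank_famS famS_mono famS_inf pp_bc f_M ofCfg_K
  K_bc E_bc fam_ne_zero span_fam qbc_one)

universe u w

section defs

variable {L : Type u} {V : Type u} {J : Type w} [Field L] [AddCommGroup V] [Module L V]
  [Fintype J]

/-- the situation (B2), special -/
structure B2S (𝒟 : Cfg L V J) (g : 𝒟.Good) (c0 c1 : J) (x y : J → V) (S : Submodule L V) :
    Prop where
  xK : x ∈ H338.Ks 𝒟 c0 c1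
  x0 : x ≠ 0
  xx : ∀ l k, 𝒟.q (x l) (x k) = 0
  dat : DatS (ofCfg 𝒟) c0 c1 (Submodule.span L (Set.range x)) S
  versal : SVersal (sq 𝒟 g S) c0 c1
  strict : UStrictS (sq 𝒟 g S) c0 c1
  dimK : finrank L (H338.Ks (sq 𝒟 g S) c0 c1) = 1
  yK : y ∈ H338.Ks 𝒟 c0 c1
  yS : ∀ l, y l ∈ perp 𝒟.q S
  yn : ¬ ∀ l, y l ∈ S

/-- all fields of `HInS` but `alt` -/
structure HPreS (𝒟 : Cfg L V J) (g : 𝒟.Good) (c0 c1 : J) (S : Submodule L V) (x : J → ↥S)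
    (φ : J → SQ 𝒟.q S) : Prop where
  iso : 𝒟.Iso S
  xN : x ∈ H887.HomN 𝒟.Ω (objA 𝒟 S) (objB 𝒟 S)
  ux : ∑ l, uz 𝒟 c0 c1 l • x l = 0
  φK : φ ∈ H338.Ks (sq 𝒟 g S) c0 c1
  φ_span : ∀ t ∈ H338.Ks (sq 𝒟 g S) c0 c1, ∃ a : L, t = a • φ
  ext : ∀ Y : Fin 3 → (↥S →ₗ[L] SQ 𝒟.q S), ∃ (a : ↥S →ₗ[L] SQ 𝒟.q S)
    (b : Fin 3 → (↥S →ₗ[L] SQ 𝒟.q S)), (∀ s, Y s = a + b s) ∧
      (∀ s i (v : ↥S), (v : V) ∈ 𝒟.F s i → b s v ∈ (sq 𝒟 g S).F s i) ∧
        ∀ s i (v : ↥S), (v : V) ∈ perp 𝒟.q (𝒟.F s i) →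
          b s v ∈ perp (sq 𝒟 g S).q ((sq 𝒟 g S).F s i)
  c_ne : ∃ d ∈ H258.SkF 𝒟 S, d ≠ 0
  c_surj : ∀ z ∈ H887.HomD 𝒟.Ω (objA 𝒟 S) (objB 𝒟 S), ∑ l, uz 𝒟 c0 c1 l • z l = 0 →
    ∃ d ∈ H258.SkF 𝒟 S, ∀ l, z l = d (x l)
  c_inj : ∀ d ∈ H258.SkF 𝒟 S, (∀ l k, d (x l) (x k) = 0) → d = 0

/-- the last field of `HInS` -/
def HAltS (𝒟 : Cfg L V J) (g : 𝒟.Good) (S : Submodule L V) (φ : J → SQ 𝒟.q S) : Prop :=
  (∃ l k, (sq 𝒟 g S).q (φ l) (φ k) ≠ 0) ∨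
    ∃ γ : Fin 2 → (SQ 𝒟.q S →ₗ[L] Dual L (SQ 𝒟.q S)), (∀ i u v, γ i u v = - γ i v u) ∧
      (∀ a b : L, (∀ l k, a * γ 0 (φ l) (φ k) + b * γ 1 (φ l) (φ k) = 0) → a = 0 ∧ b = 0) ∧
        ∀ i s n, ∀ u ∈ Submodule.span L (Set.range φ), ∀ v ∈ Submodule.span L (Set.range φ),
          u ∈ (sq 𝒟 g S).F s n → v ∈ perp (sq 𝒟 g S).q ((sq 𝒟 g S).F s n) → γ i u v = 0

theorem HPreS.hInS {𝒟 : Cfg L V J} {g : 𝒟.Good} {c0 c1 : J} {S : Submodule L V} {x : J → ↥S}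
    {φ : J → SQ 𝒟.q S} (h : HPreS 𝒟 g c0 c1 S x φ) (h' : HAltS 𝒟 g S φ) :
    HInS 𝒟 g c0 c1 S x φ :=
  ⟨h.iso, h.xN, h.ux, h.φK, h.φ_span, h.ext, h.c_ne, h.c_surj, h.c_inj, h'⟩

end defs

section main

variable {J : Type w} [Fintype J]

/-- the standing hypotheses, special -/
structure HypS {L : Type u} [Field L] [CharZero L] {V : Type u} [AddCommGroup V] [Module L V]
    [FiniteDimensional L V] (𝒟 : Cfg L V J) (c0 c1 : J) : Prop where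
  good : 𝒟.Good
  spin : SpinC1 𝒟 c0 c1
  versal : SVersal 𝒟 c0 c1
  strict : UStrictS 𝒟 c0 c1
  ih : IHSs.{u, w} J c0 c1 (finrank L V)
  dim : finrank L (H338.Ks 𝒟 c0 c1) = 2

variable (J) in
/-- the special situation (B2) does not occur -/
def HypB2S : Prop :=
  ∀ (L : Type u) [Field L] [CharZero L] (V : Type u) [AddCommGroup V] [Module L V]
    [FiniteDimensional L V] (𝒟 : Cfg L V J) (c0 c1 : J) (h : HypS.{u, w} 𝒟 c0 c1)
    (x y : J → V) (S : Submodule L V), ¬ B2S 𝒟 h.good c0 c1 x y S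

variable {L : Type u} [Field L] [CharZero L] {V : Type u} [AddCommGroup V] [Module L V]
  [FiniteDimensional L V] {𝒟 : Cfg L V J} {c0 c1 : J}

/-- the hypotheses are stable under base change -/
theorem HypS.bc (h : HypS 𝒟 c0 c1) (L' : Type u) [Field L'] [Algebra L L'] [CharZero L'] :
    HypS (bcC 𝒟 L') c0 c1 where
  good := good_bcC h.good
  spin := H338.spin1_bcC h.spin
  versal := H338.sversal_bcC h.good h.spin h.versal
  strict := H338.uStrictS_bc h.strict L'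
  ih := by
    rw [Module.finrank_baseChange]
    exact h.ih
  dim := by
    rw [H338.finrank_Ks_bcC]
    exact h.dim

theorem HypS.two (_ : HypS 𝒟 c0 c1) : (2 : L) ≠ 0 := two_ne_zero

theorem HypS.good' (h : HypS 𝒟 c0 c1) : (ofCfg 𝒟).Good := H96.good_ofCfg h.good

theorem HypS.spc (h : HypS 𝒟 c0 c1) : Spc (ofCfg 𝒟) c0 c1 := spc_ofCfg h.good h.spin

theorem HypS.versal' (h : HypS 𝒟 c0 c1) : SVers (ofCfg 𝒟) c0 c1 := svers_ofCfg h.versal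

variable [DecidableEq J]

theorem HypS.n1s (h : HypS 𝒟 c0 c1) : N1s (ofCfg 𝒟) c0 c1 :=
  n1s_ofCfg h.spin h.good h.versal (H338.uSemiS_of_uStrictS h.strict)

theorem HypS.dim' (h : HypS 𝒟 c0 c1) : finrank L (Ks (ofCfg 𝒟) c0 c1) = 2 := by
  rw [Ks_ofCfg h.good]
  exact h.dim

omit [CharZero L] [FiniteDimensional L V] in
theorem fam_mem_Ks (g : 𝒟.Good) {L' : Type u} [Field L'] [Algebra L L'] {x : J → V}
    (hx : x ∈ H338.Ks 𝒟 c0 c1) : fam L' x ∈ H338.Ks (bcC 𝒟 L') c0 c1 := by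
  rw [← Ks_ofCfg (good_bcC g), Ks_bc g, mem_famS]
  intro f
  have : evf f (fam (L := L) L' x) = f 1 • x := by
    funext l
    show ev f ((1 : L') ⊗ₜ[L] x l) = f 1 • x l
    rw [ev_tmul]
  rw [this, Ks_ofCfg g]
  exact Submodule.smul_mem _ _ hx

/-- the special kernel is orthogonal to an isotropic element -/
theorem HypS.K_perp (h : HypS 𝒟 c0 c1) {x : J → V} (hx : x ∈ H338.Ks 𝒟 c0 c1)
    (hxx : ∀ l k, 𝒟.q (x l) (x k) = 0) :
    Ks (ofCfg 𝒟) c0 c1 ≤ (ofCfg 𝒟).E (pp (ofCfg 𝒟).q (Submodule.span L (Set.range x))) := by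
  intro y hy
  have hx' : x ∈ Ks (ofCfg 𝒟) c0 c1 := by rw [Ks_ofCfg h.good]; exact hx
  exact N1K_s h.spc h.good' h.two h.versal' h.n1s hx' hy hxx

/-- the situation is stable under base change -/
theorem B2S.bc {g : 𝒟.Good} (hs : SpinC1 𝒟 c0 c1) {x y : J → V} {S : Submodule L V}
    (b : B2S 𝒟 g c0 c1 x y S) (L' : Type u)
    [Field L'] [Algebra L L'] : B2S (bcC 𝒟 L') (good_bcC g) c0 c1 (fam L' x) (fam L' y)
      (S.baseChange L') := by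
  obtain ⟨i⟩ := exists_cIsoBC (L' := L') g S
  have hiso : 𝒟.Iso S := by
    have := b.dat.iso
    rw [Cfg.Iso, ← pp_eq g.form]
    exact this
  have hc : CharZero L' := H258.charZero_ext (L := L) L'
  have g1 : (sq 𝒟 g S).Good := good_sq g hiso
  have hs1 : SpinC1 (sq 𝒟 g S) c0 c1 := H338.spin1_sq g hiso hs
  refine ⟨fam_mem_Ks g b.xK, fam_ne_zero b.x0, fun l k => ?_, ?_, ?_, ?_, ?_,
    fam_mem_Ks g b.yK, fun l => ?_, fun hall => b.yn fun l => ?_⟩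
  · show qbc L' 𝒟.q ((1 : L') ⊗ₜ[L] x l) ((1 : L') ⊗ₜ[L] x k) = 0
    rw [qbc_one, b.xx, map_zero]
  · rw [span_fam]
    exact datS_bc g b.dat
  · exact H338.sversal_ciso i (good_sq (good_bcC g) (iso_bcC hiso)) two_ne_zero
      (H338.spin1_bcC hs1) (H338.sversal_bcC g1 hs1 b.versal)
  · exact H338.cIso_uStrictS i (H338.uStrictS_bc b.strict L')
  · rw [H338.ciso_finrank_Ks i, H338.finrank_Ks_bcC]
    exact b.dimK
  · show fam L' y l ∈ perp (qbc L' 𝒟.q) (S.baseChange L')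
    rw [perp_bc]
    exact Submodule.tmul_mem_baseChange_of_mem 1 (b.yS l)
  · have h1 : ∀ f : L' →ₗ[L] L, ev f ((1 : L') ⊗ₜ[L] y l) ∈ S := mem_bc_iff.mp (hall l)
    obtain ⟨f, hf⟩ : ∃ f : L' →ₗ[L] L, f 1 ≠ 0 := by
      by_contra hcon
      push Not at hcon
      exact one_ne_zero (fun_sep (L := L) (L' := L') hcon)
    have h2 := h1 f
    rw [ev_tmul] at h2
    exact (S.smul_mem_iff hf).mp h2

end main

end Vale.Agent.P182.H588.SP
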