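import Vale.Agent.P182.H532.SNOne

/-!
# N1 for the bundle of a special configuration, constants form
-/

namespace Vale.Agent.P182.H588

open Polynomial Module LinearMap Vale.Agent.P182 Vale.Agent.P182.H430 Vale.Agent.P182.H668
  Vale.Agent.P182.H578 Vale.Agent.P182.H388 Vale.Agent.P182.H430.NData

variable {k : Type*} [Field k] {J : Type*} [Fintype J] [DecidableEq J] {X : NData k J}
variable {F : Type*} [Field F] [Algebra k[X] F] [IsFractionRing k[X] F]
  [Algebra k F] [IsScalarTower k k[X] F] {c0 c1 : J} {hn : 1 ≤ X.n} [IsAlgClosed k]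

/-- coefficients in the collapsed chain -/
theorem coef_mem {p : Option k} (hn : 1 ≤ X.n) (hp : Half X p) {i W t : ℤ}
    (ht : t < ph X.n (W + 1)) {c : F}
    (hc : c ∈ (linePl k F p).M (X.per p) (ph X.n i - t)) :
    c ∈ (linePl k F p).M (mS X p) (i - W) := by
  rcases hc with hc | hc
  · exact Or.inl hc
  right
  have h1 := (colS X F hn).per_mul p i (-(linePl k F p).ord c)
  have e1 : (colS X F hn).φ p = ph X.n := funext fun i => phS_half hp i
  rw [e1] at h1
  have e2 : (((X.cur F).per p : ℕ) : ℤ) = X.per p := rfl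
  rw [e2] at h1
  have e3 : ((colS X F hn).m p : ℤ) = mS X p := rfl
  rw [e3] at h1
  have h2 : ph X.n (i + mS X p * -(linePl k F p).ord c) < ph X.n (W + 1) := by
    rw [h1]
    have : (X.per p : ℤ) * -(linePl k F p).ord c = -((X.per p : ℤ) * (linePl k F p).ord c) := by
      ring
    rw [this]
    linarith
  have h3 := (ph_mono (n := X.n) (by exact_mod_cast hn)).lt_iff_lt.1 h2
  have : (mS X p : ℤ) * -(linePl k F p).ord c = -((mS X p : ℤ) * (linePl k F p).ord c) := by
    ring
  rw [this] at h3
  linarith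

open Classical in
/-- the collapsed weights -/
noncomputable def W2 (X : NData k J) (p : Option k) : J ⊕ J ⊕ J → ℤ
  | Sum.inl l => if p = some (X.z (X.arm l)) then 2 * X.n - X.c l else 0
  | Sum.inr (Sum.inl l) => if p = some (X.z (X.arm l)) then X.c l else 0
  | Sum.inr (Sum.inr _) => 0

open Classical in
theorem gw_W2 {X : NData k J} {p : Option k} (hn : 1 ≤ X.n)
    (hp : Half X p) (a : J ⊕ J ⊕ J) : X.gw p a + X.n < ph X.n (W2 X p a + 1) := by
  have hn' : (1 : ℤ) ≤ X.n := by exact_mod_cast hn
  have hw0 : X.w0 p = -X.n := by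
    rcases hp with rfl | rfl <;> exact X.w0_z _
  have h0 : X.w0 p + X.n < ph X.n (0 + 1) := by
    rw [hw0, ph_small hn' (by omega) (by omega)]
    omega
  rcases a with l | l | l
  · show X.wA p l + X.n <
      ph X.n ((if p = some (X.z (X.arm l)) then (2 * X.n - X.c l : ℤ) else 0) + 1)
    unfold wA
    by_cases h : p = some (X.z (X.arm l))
    · rw [if_pos h, if_pos h]
      have h1 := X.hc1 l
      have h2 := X.hcn l
      rw [ph_big hn' (by omega) (by omega)]
      omega
    · rw [if_neg h, if_neg h]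
      exact h0
  · show X.wB p l + X.n < ph X.n ((if p = some (X.z (X.arm l)) then (X.c l : ℤ) else 0) + 1)
    unfold wB
    by_cases h : p = some (X.z (X.arm l))
    · rw [if_pos h, if_pos h]
      have h1 := X.hc1 l
      have h2 := X.hcn l
      rcases Nat.lt_or_ge (X.c l) X.n with h3 | h3
      · rw [ph_small hn' (by omega) (by omega)]
        omega
      · rw [ph_big hn' (by omega) (by omega)]
        omega
    · rw [if_neg h, if_neg h]
      exact h0
  · exact h0

/-- classification of the generators with collapsed weights -/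
theorem gen_cases2 (s : Fin 3) (i : J ⊕ J ⊕ J) :
    (∃ l, X.arm l = s ∧ X.gx F i = cv F (Pi.single l (1 : k)) ∧
        W2 X (some (X.z s)) i = 2 * X.n - X.c l) ∨
      (∃ l, X.arm l = s ∧ X.gx F i = cv F (X.Ω l) ∧ W2 X (some (X.z s)) i = X.c l) ∨
      (∃ v : J → k, X.gx F i = cv F v ∧ W2 X (some (X.z s)) i = 0) := by
  have hz : ∀ l, X.arm l ≠ s → ¬ (some (X.z s) = some (X.z (X.arm l))) := fun l h e =>
    h (X.hz (Option.some_injective _ e)).symm
  rcases i with l | l | l
  · by_cases h : X.arm l = s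
    · exact Or.inl ⟨l, h, rfl, if_pos (by rw [h])⟩
    · exact Or.inr (Or.inr ⟨_, rfl, if_neg (hz l h)⟩)
  · by_cases h : X.arm l = s
    · exact Or.inr (Or.inl ⟨l, h, rfl, if_pos (by rw [h])⟩)
    · exact Or.inr (Or.inr ⟨_, rfl, if_neg (hz l h)⟩)
  · exact Or.inr (Or.inr ⟨_, rfl, rfl⟩)

omit [IsAlgClosed k] [IsFractionRing k[X] F] [Algebra k[X] F] [IsScalarTower k k[X] F]
  [DecidableEq J] in
theorem gform_sum {ι κ : Type*} [Fintype ι] [Fintype κ] (g : Matrix J J k) (c : ι → F)
    (d : κ → F) (x : ι → J → F) (y : κ → J → F) :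
    gform F g (∑ a, c a • x a) (∑ b, d b • y b) =
      ∑ a, ∑ b, c a * d b * gform F g (x a) (y b) := by
  rw [map_sum (gform F g), LinearMap.sum_apply]
  refine Finset.sum_congr rfl fun a _ => ?_
  rw [map_sum]
  refine Finset.sum_congr rfl fun b _ => ?_
  rw [map_smul, map_smul, LinearMap.smul_apply, smul_eq_mul, smul_eq_mul]
  ring

/-- integrality of the constant form on the special bundle -/
theorem gform2_mem (hn : 1 ≤ X.n) {g : Matrix J J k} (hg : ∀ l m, g l m = g m l)
    (h0 : ∀ l m, X.arm l = X.arm m → g l m = 0)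
    (h1 : ∀ l m, X.arm l = X.arm m → X.c l ≤ X.c m → ∑ j, g l j * X.Ω m j = 0)
    (h3 : ∀ l m, X.arm l = X.arm m → X.arm l ≠ 2 → X.c l = X.n → X.c m = X.n →
      ∑ i, ∑ j, X.Ω l i * X.Ω m j * g i j = 0)
    (p : Option k) {i j : ℤ} {x y : Hy F c0 c1} (hx : x ∈ ((N2 X F c0 c1 hn).ch p).L i)
    (hy : y ∈ ((N2 X F c0 c1 hn).ch p).L j) :
    gform F g (x : J → F) y ∈ (linePl k F p).M (mS X p) (i + j - k2 X F hn p) := by
  by_cases hp : Half X p
  swap
  · have h4 := X.gform_mem hg h0 h1 p (mem_N2.1 hx) (mem_N2.1 hy)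
    rw [phS_not hp, phS_not hp] at h4
    rw [mS_not hp, k2_not hp, ← X.tht_two]
    refine Place.M_anti _ (le_of_eq ?_) h4
    ring
  obtain ⟨c, hc, ex⟩ := mem_N2.1 hx
  obtain ⟨d, hd, ey⟩ := mem_N2.1 hy
  rw [ex, ey, gform_sum]
  refine Submodule.sum_mem _ fun a _ => Submodule.sum_mem _ fun b _ => ?_
  have hc' : c a ∈ (linePl k F p).M (mS X p) (i - W2 X p a) := by
    refine coef_mem hn hp (gw_W2 hn hp a) ?_
    have h4 := hc a
    rw [phS_half hp, tht_half hp] at h4
    refine Place.M_anti _ (le_of_eq ?_) h4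
    ring
  have hd' : d b ∈ (linePl k F p).M (mS X p) (j - W2 X p b) := by
    refine coef_mem hn hp (gw_W2 hn hp b) ?_
    have h4 := hd b
    rw [phS_half hp, tht_half hp] at h4
    refine Place.M_anti _ (le_of_eq ?_) h4
    ring
  rw [k2_half hp]
  -- the constants
  have key : gform F g (X.gx F a) (X.gx F b) = 0 ∨ W2 X p a + W2 X p b ≤ 2 * X.n - 1 := by
    have hee : ∀ l m, gform F g (cv F (Pi.single l (1 : k))) (cv F (Pi.single m (1 : k))) =
        algebraMap k F (g l m) := by
      intro l m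
      rw [gform_cv, Finset.sum_eq_single l, Finset.sum_eq_single m]
      · simp
      · intro j _ hj; rw [Pi.single_eq_of_ne hj]; ring
      · intro h; exact absurd (Finset.mem_univ _) h
      · intro j _ hj
        refine Finset.sum_eq_zero fun m _ => ?_
        rw [Pi.single_eq_of_ne hj]; ring
      · intro h; exact absurd (Finset.mem_univ _) h
    have hep : ∀ l m, gform F g (cv F (Pi.single l (1 : k))) (cv F (X.Ω m)) =
        algebraMap k F (∑ j, g l j * X.Ω m j) := by
      intro l m
      rw [gform_cv, Finset.sum_eq_single l]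
      · congr 1
        refine Finset.sum_congr rfl fun j _ => ?_
        rw [Pi.single_eq_same]; ring
      · intro j _ hj
        refine Finset.sum_eq_zero fun m _ => ?_
        rw [Pi.single_eq_of_ne hj]; ring
      · intro h; exact absurd (Finset.mem_univ _) h
    have hn' : (1 : ℤ) ≤ X.n := by exact_mod_cast hn
    obtain ⟨s, hs, hs2⟩ : ∃ s : Fin 3, p = some (X.z s) ∧ s ≠ 2 := by
      rcases hp with h | h
      · exact ⟨0, h, by decide⟩
      · exact ⟨1, h, by decide⟩
    subst hs
    have hB : ∀ l m, X.arm l = s → X.arm m = s →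
        gform F g (cv F (Pi.single l (1 : k))) (cv F (X.Ω m)) = 0 ∨
          (2 * X.n - X.c l : ℤ) + X.c m ≤ 2 * X.n - 1 := by
      intro l m hl hm
      by_cases hlm : X.c l ≤ X.c m
      · left
        rw [hep, h1 l m (hl.trans hm.symm) hlm, map_zero]
      · right
        omega
    rcases gen_cases2 (F := F) (X := X) s a with ⟨l, hl, hx, hw⟩ | ⟨l, hl, hx, hw⟩ | ⟨v, hx, hw⟩ <;>
      rcases gen_cases2 (F := F) (X := X) s b with
        ⟨m, hm, hy, hw'⟩ | ⟨m, hm, hy, hw'⟩ | ⟨v', hy, hw'⟩ <;>
      rw [hx, hy, hw, hw']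
    · left
      rw [hee, h0 l m (hl.trans hm.symm), map_zero]
    · exact hB l m hl hm
    · right
      have := X.hc1 l
      omega
    · rw [gform_symm hg]
      rcases hB m l hm hl with h4 | h4
      · exact Or.inl h4
      · right
        omega
    · have e1 := X.hcn l
      have e2 := X.hcn m
      by_cases h4 : X.c l = X.n ∧ X.c m = X.n
      · left
        rw [gform_cv, h3 l m (hl.trans hm.symm) (by rw [hl]; exact hs2) h4.1 h4.2, map_zero]
      · right
        omega
    · right
      have := X.hcn l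
      omega
    · right
      have := X.hc1 m
      omega
    · right
      have := X.hcn m
      omega
    · right
      omega
  rcases key with h4 | h4
  · rw [h4, mul_zero]
    exact Submodule.zero_mem _
  · obtain ⟨v, hv⟩ := X.gx_cv (F := F) a
    obtain ⟨v', hv'⟩ := X.gx_cv (F := F) b
    rw [hv, hv', gform_cv]
    exact mul3_mem hc' hd' (const_mem p _ _) (by linarith)

/-- **N1 FOR THE SPECIAL BUNDLE, CONSTANTS FORM** -/
theorem n1s {L : Type*} [Field L] [IsAlgClosed L] [CharZero L] : N1S L := by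
  intro J _ _ X c0 c1 h hV hdet g hgt hu h0 h1 h3 hnil
  have h2 : (2 : L) ≠ 0 := two_ne_zero
  have hn : 1 ≤ X.n := (X.hc1 c0).trans (X.hcn c0)
  have hg : ∀ l m, g l m = g m l := fun l m => by
    have := congrFun (congrFun hgt m) l
    simpa using this
  let F := FractionRing (Polynomial L)
  have hu' : ∀ y : J → F, gform F g (cv F (uv X c0 c1)) y = 0 := by
    intro y
    rw [gform_apply, Finset.sum_comm]
    refine Finset.sum_eq_zero fun m _ => ?_
    have e1 : ∑ l, uv X c0 c1 l * g l m = 0 := by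
      have e2 : ∀ l, uv X c0 c1 l * g l m = X.Ω c0 l * g l m -
          X.Ω c0 c1 * ((Pi.single c0 (1 : L) : J → L) l * g l m) := fun l => by
        rw [h.uv_eq0 h2]; ring
      simp only [e2]
      rw [Finset.sum_sub_distrib, ← Finset.mul_sum, hu, Finset.sum_eq_single c0]
      · rw [Pi.single_eq_same, one_mul, sub_self]
      · intro j _ hj
        rw [Pi.single_eq_of_ne hj, zero_mul]
      · intro h; exact absurd (Finset.mem_univ _) h
    have e3 : ∑ l, cv F (uv X c0 c1) l * y m * algebraMap L F (g l m) =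
        y m * algebraMap L F (∑ l, uv X c0 c1 l * g l m) := by
      rw [map_sum, Finset.mul_sum]
      refine Finset.sum_congr rfl fun l _ => ?_
      rw [map_mul]
      show algebraMap L F (uv X c0 c1 l) * y m * algebraMap L F (g l m) = _
      ring
    rw [e3, e1, map_zero, mul_zero]
  have hT : ∀ x, X.thg F g x ∈ Hy F c0 c1 := fun x => by
    refine h.mem_of_b h2 hdet ?_
    rw [X.b_symm, X.b_thg hdet hg, gform_symm hg, hu']
  let Θ : Hy F c0 c1 →ₗ[F] Hy F c0 c1 :=
    (X.thg F g ∘ₗ (Hy F c0 c1).subtype).codRestrict _ fun x => hT x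
  have hΘ : ∀ x, (Θ x : J → F) = X.thg F g x := fun x => rfl
  have hn' : IsNilpotent (X.thg F g) := hnil.map (Matrix.toLinAlgEquiv' (R := F) (n := J))
  have hΘn : IsNilpotent Θ := by
    obtain ⟨r, hr⟩ := hn'
    refine ⟨r, LinearMap.ext fun x => Subtype.ext ?_⟩
    have hpow : ∀ (r : ℕ) (x : Hy F c0 c1), ((Θ ^ r) x : J → F) = (X.thg F g ^ r) x := by
      intro r
      induction r with
      | zero => intro x; rfl
      | succ r ih =>
        intro x
        rw [pow_succ, pow_succ, Module.End.mul_apply, Module.End.mul_apply, ih, hΘ]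
    rw [hpow, hr]
    rfl
  have hb : ∀ x y : Hy F c0 c1, b2 X F c0 c1 (Θ x) y = gform F g (x : J → F) y := fun x y => by
    rw [b2_apply, hΘ, X.b_thg hdet hg]
  have ho := h.orth2 (F := F) (hn := hn) h2 hdet
  have hΘ0 : Θ = 0 := by
    refine h.noNil2 (hn := hn) h2 hdet hV ?_ ?_ hΘn
    · intro x y
      rw [ho.symm x, hb, hb, gform_symm hg]
    · intro p i x hx
      rw [ho.dual]
      intro j y hy
      rw [hb]
      refine Place.M_anti _ (le_of_eq ?_) (gform2_mem hn hg h0 h1 h3 p hx hy)
      ring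
  -- the form vanishes
  have hz : ∀ x y : J → F, gform F g x y = 0 := by
    intro x y
    have e1 : gform F g x y = gform F g (Pj X F c0 c1 x) (Pj X F c0 c1 y) := by
      rw [Pj_apply, Pj_apply]
      simp only [map_add, map_smul, LinearMap.add_apply, LinearMap.smul_apply, hu', smul_zero,
        add_zero]
      rw [gform_symm hg x (cv F (uv X c0 c1)), hu', smul_zero, add_zero]
    rw [e1]
    have e2 := hb (h.Pc h2 F x) (h.Pc h2 F y)
    rw [hΘ0, LinearMap.zero_apply, map_zero, LinearMap.zero_apply] at e2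
    exact e2.symm
  ext l m
  have h5 := hz (cv F (Pi.single l (1 : L))) (cv F (Pi.single m (1 : L)))
  rw [gform_cv, Finset.sum_eq_single l, Finset.sum_eq_single m] at h5
  · have h6 := (map_eq_zero_iff _ (algebraMap L F).injective).1 h5
    simpa using h6
  · intro j _ hj; rw [Pi.single_eq_of_ne hj]; ring
  · intro h; exact absurd (Finset.mem_univ _) h
  · intro j _ hj
    refine Finset.sum_eq_zero fun m _ => ?_
    rw [Pi.single_eq_of_ne hj]; ring
  · intro h; exact absurd (Finset.mem_univ _) h

end Vale.Agent.P182.H588
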