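import Vale.Agent.P182.H532.SNHom
import Vale.Agent.P182.H563.InpV
import Vale.Agent.P182.H361.InpOf

/-!
# Special input (H) in constants does not occur
-/

universe u

namespace Vale.Agent.P182.H588

open LinearMap Submodule Module TensorProduct Polynomial
open Vale.Agent.P182.H361 (one_form)
open Vale.Agent.P182 Vale.Agent.P182.H430 Vale.Agent.P182.H578 Vale.Agent.P182.H388
  Vale.Agent.P182.H668 Vale.Agent.P182.H430.NData

/-! ### `φ φ^* ≠ 0` from the alternative -/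

section phi

variable {k F P : Type*} [Field k] [Field F] [Algebra k F] {C : Curve k F P}
variable {E : Type*} [AddCommGroup E] [Module F E] [Module k E] [IsScalarTower k F E]
  [FiniteDimensional F E]
variable {W : Type*} [AddCommGroup W] [Module F W] [Module k W] [IsScalarTower k F W]
  [FiniteDimensional F W]
variable {κ : P → ℤ} {N : Bun C E} {b : LinearMap.BilinForm F E} {M : Bun C W}
  {q : LinearMap.BilinForm F W} {φ : E →ₗ[F] W}

theorem eq_zero_of_forall_M {Q : Place k F} {m : ℕ} {f : F}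
    (h : ∀ a : ℤ, f ∈ Q.M m a) : f = 0 := by
  by_contra h0
  have h1 := h (m * Q.ord f + 1)
  rw [Q.mem_M_of_ne h0] at h1
  omega

theorem phiphi_of_altV (p0 : P) (oN : Orth N b) (oM : OrthV κ M q)
    (nil : ∀ ε : F, (ε = 1 ∨ ε = -1) → ∀ Θ ∈ adj b ε, H735.KMor κ N N Θ → IsNilpotent Θ → Θ = 0)
    (mφ : Mor N M φ) (alt : AltV κ M q φ) (φs : W →ₗ[F] E)
    (hs : ∀ w e, b (φs w) e = q w (φ e)) : φ ∘ₗ φs ≠ 0 := by
  intro h0
  have h0' : ∀ w, φ (φs w) = 0 := fun w => LinearMap.congr_fun h0 w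
  rcases alt with ⟨u, v, huv⟩ | ⟨β, hsk, hlev, hli⟩
  · apply huv
    have hz : φs ∘ₗ φ = 0 := by
      refine nil 1 (Or.inl rfl) _ ?_ ?_ ?_
      · intro x y
        rw [LinearMap.comp_apply, hs, one_mul, LinearMap.comp_apply, oN.symm x, hs, oM.symm]
      · intro p a x hx
        rw [oN.dual]
        intro c y hy
        have h1 := (oM.dual p a (φ x)).1 (mφ p a x hx) c (φ y) (mφ p c y hy)
        rw [LinearMap.comp_apply, hs, show a - κ p + c = a + c - κ p by ring]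
        exact h1
      · refine ⟨2, ?_⟩
        rw [pow_two]
        apply LinearMap.ext
        intro x
        show φs (φ (φs (φ x))) = 0
        rw [h0', map_zero]
    have h1 : φs (φ u) = 0 := LinearMap.congr_fun hz u
    rw [← hs, h1, map_zero, LinearMap.zero_apply]
  · obtain ⟨h, hh⟩ := H735.exists_op oN.nd (β 0)
    have hker : ∀ u v, φ u = 0 → β 0 u v = 0 := by
      intro u v hu
      obtain ⟨c, hc⟩ := (M.ch p0).exhaust (φ v)
      refine eq_zero_of_forall_M (Q := C.pl p0) (m := C.per p0) fun a => ?_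
      have := hlev 0 p0 (a - c + κ p0) c u v (by rw [hu]; exact zero_mem _) hc
      rwa [show a - c + κ p0 + c - κ p0 = a by ring] at this
    have hker' : ∀ u, φ u = 0 → h u = 0 := fun u hu => oN.nd _ fun v => by
      rw [hh, hker u v hu]
    have hz : h = 0 := by
      refine nil (-1) (Or.inr rfl) _ ?_ ?_ ⟨2, ?_⟩
      · intro x y
        rw [hh, oN.symm x, hh, hsk]
        ring
      · intro p a x hx
        rw [oN.dual]
        intro c y hy
        rw [hh, show a - κ p + c = a + c - κ p by ring]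
        exact hlev 0 p a c x y (mφ p a x hx) (mφ p c y hy)
      · rw [pow_two]
        apply LinearMap.ext
        intro x
        rw [Module.End.mul_apply, LinearMap.zero_apply]
        have h3 : ∀ w, φ w = 0 → b (h x) w = 0 := by
          intro w hw
          rw [hh, hsk, hker w x hw, neg_zero]
        have h4 : h x ∈ LinearMap.range φs := by
          have hrefl : b.IsRefl := fun x y h => by rw [oN.symm]; exact h
          have hnd : b.Nondegenerate := by
            refine ⟨fun x hx => oN.nd x hx, fun x hx => oN.nd x fun y => ?_⟩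
            rw [oN.symm]
            exact hx y
          rw [← LinearMap.BilinForm.orthogonal_orthogonal (B := b) hnd hrefl
            (LinearMap.range φs), LinearMap.BilinForm.mem_orthogonal_iff]
          intro v hv
          rw [LinearMap.BilinForm.mem_orthogonal_iff] at hv
          show b v (h x) = 0
          rw [oN.symm]
          refine h3 v (oM.nd _ fun w => ?_)
          have h5 : b (φs w) v = 0 := hv (φs w) ⟨w, rfl⟩
          rw [oM.symm, ← hs, h5]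
        obtain ⟨w, hw⟩ := h4
        rw [← hw]
        exact hker' _ (h0' w)
    refine hli.ne_zero 0 ?_
    apply LinearMap.ext
    intro x
    apply LinearMap.ext
    intro y
    rw [← hh x y, hz]
    simp

end phi

/-! ### the special input in constants -/

section const

variable {k : Type*} [Field k] {J : Type*} [Fintype J] {S M : Type*} [AddCommGroup S]
  [Module k S] [AddCommGroup M] [Module k M]

/-- the special input (H) in constants, with levels, over the nonzero columns -/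
structure ConstInS (X : NData k J) (c0 c1 : J) (𝒢 : Fl3 k X.n S) (ℋ : Fl3 k X.n M)
    (q : M →ₗ[k] M →ₗ[k] k) (x : J → S) (φ : J → M) : Prop where
  flG : ∀ s, s ≠ 2 → 𝒢.G s 0 ≤ 𝒢.G s 1
  flH : ∀ s, s ≠ 2 → ℋ.G s 0 ≤ ℋ.G s 1
  symm : ∀ u v, q u v = q v u
  nd : ∀ u, (∀ v, q u v = 0) → u = 0
  dual : ∀ s a v, v ∈ ℋ.G s a ↔ ∀ w ∈ ℋ.G s (1 - a), q v w = 0
  mx : H361.InK X 𝒢.G x
  ux : ∑ l, uv X c0 c1 l • x l = 0
  mφ : H361.InK X ℋ.G φ
  uφ : ∑ l, uv X c0 c1 l • φ l = 0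
  hφ : ∀ t, H361.InK X ℋ.G t → ∑ l, uv X c0 c1 l • t l = 0 → ∃ a : k, ∀ l, t l = a • φ l
  ext : ∀ Y : Fin 3 → (S →ₗ[k] M), ∃ (a : S →ₗ[k] M) (b : Fin 3 → (S →ₗ[k] M)),
    (∀ s, Y s = a + b s) ∧ ∀ s c, ∀ v ∈ 𝒢.G s c, b s v ∈ ℋ.G s c
  hC : ∃ d, H361.LevSk 𝒢.G d ∧ d ≠ 0
  hz : ∀ z : J → Dual k S, (∑ l, uv X c0 c1 l • z l = 0) →
    (∀ l, ∀ v ∈ 𝒢.G (X.arm l) (X.c l - X.n), z l v = 0) →
    (∀ l, ∀ v ∈ 𝒢.G (X.arm l) (X.n + 1 - X.c l), ∑ m, X.Ω l m * z m v = 0) →
      ∃ d, H361.LevSk 𝒢.G d ∧ ∀ l, z l = d (x l)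
  inj : ∀ d, H361.LevSk 𝒢.G d → (∀ l m, d (x l) (x m) = 0) → d = 0
  alt : (∃ l m, q (φ l) (φ m) ≠ 0) ∨
    ∃ γ : Fin 2 → (M →ₗ[k] M →ₗ[k] k), (∀ i u v, γ i u v = - γ i v u) ∧
      (∀ a b : k, (∀ l m, a * γ 0 (φ l) (φ m) + b * γ 1 (φ l) (φ m) = 0) → a = 0 ∧ b = 0) ∧
      ∀ i s a b, 0 < a + b → ∀ u ∈ Submodule.span k (Set.range φ),
        ∀ v ∈ Submodule.span k (Set.range φ), u ∈ ℋ.G s a → v ∈ ℋ.G s b → γ i u v = 0

end const

section main

variable {k : Type*} [Field k] {J : Type*} [Fintype J] [DecidableEq J] {X : NData k J}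
variable {F : Type*} [Field F] [Algebra k[X] F] [IsFractionRing k[X] F]
  [Algebra k F] [IsScalarTower k k[X] F] {c0 c1 : J} {hn : 1 ≤ X.n} [IsAlgClosed k]
variable {S M : Type*} [AddCommGroup S] [Module k S] [AddCommGroup M] [Module k M]
  [FiniteDimensional k S] [FiniteDimensional k M]
  {𝒢 : Fl3 k X.n S} {ℋ : Fl3 k X.n M} {q : M →ₗ[k] M →ₗ[k] k} {x : J → S} {φ : J → M}

/-- a family killed by `u₀` factors through the projection -/
theorem SpinN.cmap_Pj {B : Type*} [AddCommGroup B] [Module k B] {t : J → B}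
    (hu : ∑ l, uv X c0 c1 l • t l = 0) (y : J → F) :
    cmap (k := k) F t (Pj X F c0 c1 y) = cmap (k := k) F t y := by
  rw [Pj_apply, map_add, map_smul, cmap_cv, hu, tmul_zero, smul_zero, add_zero]

/-- the map of the special bundle -/
noncomputable def cs (F : Type*) [Field F] [Algebra k F] (c0 c1 : J) {B : Type*}
    [AddCommGroup B] [Module k B] (t : J → B) : Hy F c0 c1 →ₗ[F] (F ⊗[k] B) :=
  cmap (k := k) F t ∘ₗ (Hy F c0 c1).subtype

theorem cs_apply {B : Type*} [AddCommGroup B] [Module k B] (t : J → B) (y : Hy F c0 c1) :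
    cs (k := k) F c0 c1 t y = cmap (k := k) F t (y : J → F) := rfl

theorem SpinN.cs_Pc (hS : SpinN X c0 c1) (h2 : (2 : k) ≠ 0) {B : Type*} [AddCommGroup B]
    [Module k B] {t : J → B} (hu : ∑ l, uv X c0 c1 l • t l = 0) (y : J → F) :
    cs (k := k) F c0 c1 t (hS.Pc h2 F y) = cmap (k := k) F t y := by
  rw [cs_apply, SpinN.Pc_coe, SpinN.cmap_Pj hu]

theorem kap_tht (p : Option k) : X.kap p = 2 * X.tht p := (X.tht_two p).symm

theorem orthV_cbt (hs : ∀ u v, q u v = q v u) (hnd : ∀ u, (∀ v, q u v = 0) → u = 0)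
    (hd : ∀ s a v, v ∈ ℋ.G s a ↔ ∀ w ∈ ℋ.G s (1 - a), q v w = 0) :
    OrthV X.kap (cbt X F ℋ) (LinearMap.BilinForm.baseChange F q) :=
  H563.orthV_tw (H361.orthS_of ℋ hs hnd hd) kap_tht X.tht_fin

theorem orthV_cb2 (hs : ∀ u v, q u v = q v u) (hnd : ∀ u, (∀ v, q u v = 0) → u = 0)
    (hd : ∀ s a v, v ∈ ℋ.G s a ↔ ∀ w ∈ ℋ.G s (1 - a), q v w = 0)
    (hfl : ∀ s, s ≠ 2 → ℋ.G s 0 ≤ ℋ.G s 1) :
    OrthV (k2 X F hn) (cb2 X F hn ℋ) (LinearMap.BilinForm.baseChange F q) :=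
  (colS X F hn).orthV (X.dualizing F) (flat2 hfl) (orthV_cbt hs hnd hd)

/-- skew forms on the collapsed bundle -/
theorem skV2_iff (hfl : ∀ s, s ≠ 2 → 𝒢.G s 0 ≤ 𝒢.G s 1)
    {c : LinearMap.BilinForm F (F ⊗[k] S)} :
    c ∈ H563.SkV (k2 X F hn) (cb2 X F hn 𝒢) ↔
      ∃ d : S →ₗ[k] S →ₗ[k] k, c = LinearMap.BilinForm.baseChange F d ∧
        H361.LevSk 𝒢.G d := by
  have h1 : c ∈ H563.SkV (k2 X F hn) (cb2 X F hn 𝒢) ↔ IsLam X.kap (cbt X F 𝒢) c := by
    rw [← (colS X F hn).isLam_iff (X.dualizing F) (flat2 hfl)]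
    exact ⟨fun h => ⟨h.1, h.2⟩, fun h => ⟨h.skew, h.level⟩⟩
  have h2 : IsLam X.kap (cbt X F 𝒢) c ↔ c ∈ H735.SkF (X.cb F 𝒢) := by
    rw [H735.mem_skF]
    constructor
    · intro h
      refine ⟨h.skew, fun p a b u v hu hv => ?_⟩
      have h3 := h.level p (a + X.tht p) (b + X.tht p) u v
        (by show u ∈ ((X.cb F 𝒢).ch p).L (a + X.tht p - X.tht p)
            rwa [show a + X.tht p - X.tht p = a by ring])
        (by show v ∈ ((X.cb F 𝒢).ch p).L (b + X.tht p - X.tht p)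
            rwa [show b + X.tht p - X.tht p = b by ring])
      rwa [show a + X.tht p + (b + X.tht p) - X.kap p = a + b by rw [kap_tht p]; ring] at h3
    · intro h
      refine ⟨h.1, fun p a b u v hu hv => ?_⟩
      have h3 := h.2 p (a - X.tht p) (b - X.tht p) u v hu hv
      rwa [show a - X.tht p + (b - X.tht p) = a + b - X.kap p by rw [kap_tht p]; ring] at h3
  rw [h1, h2, H361.form_iff 𝒢]
  rfl

theorem noExt2 (hG : ∀ s, s ≠ 2 → 𝒢.G s 0 ≤ 𝒢.G s 1) (hH : ∀ s, s ≠ 2 → ℋ.G s 0 ≤ ℋ.G s 1)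
    (h : ∀ Y : Fin 3 → (S →ₗ[k] M), ∃ (a : S →ₗ[k] M) (b : Fin 3 → (S →ₗ[k] M)),
      (∀ s, Y s = a + b s) ∧ ∀ s c, ∀ v ∈ 𝒢.G s c, b s v ∈ ℋ.G s c) :
    H735.NoExt (k2 X F hn) (cb2 X F hn 𝒢) (cb2 X F hn ℋ) := by
  have h1 := H361.noExt_of (F := F) 𝒢 ℋ h
  rw [H735.noExt_iff (X.dualizing F)] at h1
  rw [H735.noExt_iff (dual2 X F hn)]
  have h3 : ((cbt X F 𝒢).hom (cbt X F ℋ)).lat = ((X.cb F 𝒢).hom (X.cb F ℋ)).lat :=
    H563.lat_tw X.tht_fin _ _
  unfold cb2
  rw [(colS X F hn).hom_lat (flat2 hH), h3]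
  exact h1

/-- homomorphisms from the special bundle to the dual of a flagged space -/
theorem SpinN.homD2 (hS : SpinN X c0 c1) (h2 : (2 : k) ≠ 0)
    {z : Hy F c0 c1 →ₗ[F] (F ⊗[k] S) →ₗ[F] F}
    (hz : ∀ p a c e u, e ∈ ((N2 X F c0 c1 hn).ch p).L a → u ∈ ((cb2 X F hn 𝒢).ch p).L c →
      z e u ∈ ((colS X F hn).curve.pl p).M ((colS X F hn).curve.per p)
        (a + c - k2 X F hn p)) :
    ∃ y : J → Dual k S, (∀ l v, z (hS.Pc h2 F (NData.ev (k := k) F l)) ((1 : F) ⊗ₜ[k] v) =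
        algebraMap k F (y l v)) ∧ (∑ l, uv X c0 c1 l • y l = 0) ∧
      (∀ l, ∀ v ∈ 𝒢.G (X.arm l) (X.c l - X.n), y l v = 0) ∧
        ∀ l, ∀ v ∈ 𝒢.G (X.arm l) (X.n + 1 - X.c l), ∑ m, X.Ω l m * y m v = 0 := by
  have hz1 : z ∘ₗ hS.Pc h2 F ∈ HZ ((X.N F).hom (X.cb F 𝒢).dual).lat := by
    rw [mem_HZ]
    intro p a e he c u hu
    obtain ⟨i, hi, hi'⟩ := (colS X F hn).block p (a + X.tht p)
    obtain ⟨j, hj, hj'⟩ := (colS X F hn).block p (c + X.tht p)
    have h3 : hS.Pc h2 F e ∈ ((N2 X F c0 c1 hn).ch p).L i := by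
      refine hS.Pc_lev h2 p ?_
      show e ∈ ((X.N F).ch p).L ((colS X F hn).φ p i - X.tht p)
      exact ((X.N F).ch p).anti _ _ (by linarith) he
    have h4 : u ∈ ((cb2 X F hn 𝒢).ch p).L j := by
      show u ∈ ((X.cb F 𝒢).ch p).L ((colS X F hn).φ p j - X.tht p)
      exact ((X.cb F 𝒢).ch p).anti _ _ (by linarith) hu
    have h5 := (colS X F hn).mem_MV2 (X.dualizing F) (hz p i j _ _ h3 h4) hi' hj'
    rw [show a + X.tht p + (c + X.tht p) - X.kap p = a + c by rw [kap_tht p]; ring] at h5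
    rw [add_zero, add_comm]
    exact h5
  obtain ⟨y, hy, hy1, hy2⟩ := (X.hom_N_dual 𝒢).1 hz1
  refine ⟨y, hy, ?_, hy1, hy2⟩
  apply LinearMap.ext
  intro v
  rw [LinearMap.zero_apply, LinearMap.sum_apply]
  have h6 : hS.Pc h2 F (cv F (uv X c0 c1)) = 0 := Subtype.ext (hS.Pj_uv h2)
  have h7 : (z ∘ₗ hS.Pc h2 F) (cv F (uv X c0 c1)) ((1 : F) ⊗ₜ[k] v) = 0 := by
    rw [LinearMap.comp_apply, h6, map_zero, LinearMap.zero_apply]
  rw [cv_eq_sum, map_sum, LinearMap.sum_apply] at h7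
  apply (algebraMap k F).injective
  rw [map_sum, map_zero, ← h7]
  refine Finset.sum_congr rfl fun l _ => ?_
  rw [map_smul, LinearMap.smul_apply, LinearMap.smul_apply, hy, smul_eq_mul, smul_eq_mul,
    map_mul]

/-- the alternative for the special bundles -/
theorem SpinN.altV2 (hS : SpinN X c0 c1) (h2 : (2 : k) ≠ 0)
    (uφ : ∑ l, uv X c0 c1 l • φ l = 0)
    (halt : (∃ l m, q (φ l) (φ m) ≠ 0) ∨
    ∃ γ : Fin 2 → (M →ₗ[k] M →ₗ[k] k), (∀ i u v, γ i u v = - γ i v u) ∧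
      (∀ a b : k, (∀ l m, a * γ 0 (φ l) (φ m) + b * γ 1 (φ l) (φ m) = 0) → a = 0 ∧ b = 0) ∧
      ∀ i s a b, 0 < a + b → ∀ u ∈ Submodule.span k (Set.range φ),
        ∀ v ∈ Submodule.span k (Set.range φ), u ∈ ℋ.G s a → v ∈ ℋ.G s b → γ i u v = 0) :
    H668.AltV (fun _ => 0) (X.cb F ℋ)
      (LinearMap.BilinForm.baseChange F q : LinearMap.BilinForm F (F ⊗[k] M))
      (cs (k := k) F c0 c1 φ) := by
  rcases halt with ⟨l, m, hlm⟩ | ⟨γ, h1, h4, h5⟩
  · left
    refine ⟨hS.Pc h2 F (NData.ev (k := k) F l), hS.Pc h2 F (NData.ev (k := k) F m),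
      fun h0 => hlm ?_⟩
    rw [hS.cs_Pc h2 uφ, hS.cs_Pc h2 uφ, NData.cmap_ev, NData.cmap_ev, one_form] at h0
    exact (map_eq_zero_iff _ (algebraMap k F).injective).1 h0
  · right
    let R : Submodule k M := Submodule.span k (Set.range φ)
    let φR : J → ↥R := fun l => ⟨φ l, Submodule.subset_span ⟨l, rfl⟩⟩
    let γR : Fin 2 → (↥R →ₗ[k] ↥R →ₗ[k] k) := fun i => (γ i).domRestrict₁₂ R R
    have hγR : ∀ i, ∀ u v : ↥R, γR i u v = γ i u v := fun i u v => rfl
    have uφR : ∑ l, uv X c0 c1 l • φR l = 0 := by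
      apply Subtype.ext
      rw [Submodule.coe_sum]
      exact uφ
    let β : Fin 2 → LinearMap.BilinForm F (Hy F c0 c1) := fun i =>
      (LinearMap.BilinForm.baseChange F (γR i) :
        LinearMap.BilinForm F (F ⊗[k] ↥R)).compl₁₂ (cs (k := k) F c0 c1 φR)
          (cs (k := k) F c0 c1 φR)
    have hβ : ∀ i u v, β i u v =
      (LinearMap.BilinForm.baseChange F (γR i) : LinearMap.BilinForm F (F ⊗[k] ↥R))
        (cs (k := k) F c0 c1 φR u) (cs (k := k) F c0 c1 φR v) := fun i u v => rfl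
    have hβe : ∀ i l m, β i (hS.Pc h2 F (NData.ev (k := k) F l))
        (hS.Pc h2 F (NData.ev (k := k) F m)) = algebraMap k F (γ i (φ l) (φ m)) := by
      intro i l m
      rw [hβ, hS.cs_Pc h2 uφR, hS.cs_Pc h2 uφR, NData.cmap_ev, NData.cmap_ev, one_form, hγR]
    have hsub : ∀ u : Hy F c0 c1, R.subtype.baseChange F (cs (k := k) F c0 c1 φR u) =
        cs (k := k) F c0 c1 φ u := by
      intro u
      have : (R.subtype.baseChange F) ∘ₗ (NData.cmap (k := k) F φR) =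
          NData.cmap (k := k) F φ := by
        refine NData.ext_ev (k := k) fun l => ?_
        rw [LinearMap.comp_apply, NData.cmap_ev, NData.cmap_ev, LinearMap.baseChange_tmul]
        rfl
      exact LinearMap.congr_fun this (u : J → F)
    refine ⟨β, fun i u v => ?_, fun i p a b u v hu hv => ?_, ?_⟩
    · have key : (LinearMap.BilinForm.baseChange F (γR i) : LinearMap.BilinForm F (F ⊗[k] ↥R)) =
          - (LinearMap.BilinForm.baseChange F (γR i)).flip := by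
        refine ext_one fun u => ext_one fun v => ?_
        rw [one_form]
        show _ = -(LinearMap.BilinForm.baseChange F (γR i)) ((1 : F) ⊗ₜ[k] v) ((1 : F) ⊗ₜ[k] u)
        rw [one_form, hγR, hγR, h1, map_neg]
      rw [hβ, hβ]
      exact LinearMap.congr_fun (LinearMap.congr_fun key _) _
    · rw [hβ]
      rw [← hsub, ← H361.mem_cb_res] at hu hv
      rw [sub_zero]
      refine ((X.fl F (H361.fl3Res ℋ R)).bil_mem_iff (hw := X.w0_fin)).2 ?_ a b _ _ hu hv
      intro a b hab u hu v hv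
      rw [X.fl_G F, H361.Gp_res, Submodule.mem_comap] at hu hv
      rw [hγR]
      by_cases hp : X.Marked p
      · obtain ⟨s, rfl⟩ := hp
        rw [X.Gp_z] at hu hv
        exact h5 i s a b hab _ u.2 _ v.2 hu hv
      · rw [X.Gp_unmarked ℋ hp] at hu hv
        by_cases h3 : a ≤ 0
        · rw [if_neg (by omega), Submodule.mem_bot] at hv
          rw [Submodule.subtype_apply] at hv
          rw [hv, map_zero]
        · rw [if_neg h3, Submodule.mem_bot] at hu
          rw [Submodule.subtype_apply] at hu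
          rw [hu, map_zero]
          rfl
    · rw [Fintype.linearIndependent_iffₛ]
      intro c c' hc
      rw [Fin.sum_univ_two, Fin.sum_univ_two] at hc
      have h6 : ∀ l m, (c 0 - c' 0) * γ 0 (φ l) (φ m) + (c 1 - c' 1) * γ 1 (φ l) (φ m) = 0 := by
        intro l m
        have e1 := LinearMap.congr_fun (LinearMap.congr_fun hc
          (hS.Pc h2 F (NData.ev (k := k) F l))) (hS.Pc h2 F (NData.ev (k := k) F m))
        simp only [LinearMap.add_apply, LinearMap.smul_apply, hβe, Algebra.smul_def,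
          ← map_mul, ← map_add] at e1
        have e2 := (algebraMap k F).injective e1
        linear_combination e2
      obtain ⟨h7, h8⟩ := h4 _ _ h6
      intro i
      fin_cases i
      · exact sub_eq_zero.1 h7
      · exact sub_eq_zero.1 h8

theorem ConstInS.altC (h : ConstInS X c0 c1 𝒢 ℋ q x φ) (hS : SpinN X c0 c1)
    (h2 : (2 : k) ≠ 0) :
    H668.AltV (k2 X F hn) (cb2 X F hn ℋ)
      (LinearMap.BilinForm.baseChange F q : LinearMap.BilinForm F (F ⊗[k] M))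
      (cs (k := k) F c0 c1 φ) :=
  ((hS.altV2 h2 h.uφ h.alt).tw0 kap_tht X.tht_fin).col (colS X F hn) (flat2 h.flH)
    (X.dualizing F)

/-- **THE SPECIAL INPUT FOR THE BUNDLES** -/
theorem ConstInS.inp (h : ConstInS X c0 c1 𝒢 ℋ q x φ) (hS : SpinN X c0 c1)
    (h2 : (2 : k) ≠ 0) (hdet : IsUnit X.Om'.det) (hV : VersS X c0 c1) :
    H563.InpV (k2 X F hn) (N2 X F c0 c1 hn) (b2 X F c0 c1) (cb2 X F hn ℋ)
      (LinearMap.BilinForm.baseChange F q : LinearMap.BilinForm F (F ⊗[k] M))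
      (cb2 X F hn 𝒢) (cs (k := k) F c0 c1 x) (cs (k := k) F c0 c1 φ) := by
  have oN := hS.orth2 (F := F) (hn := hn) h2 hdet
  have oM : OrthV (k2 X F hn) (cb2 X F hn ℋ)
    (LinearMap.BilinForm.baseChange F q : LinearMap.BilinForm F (F ⊗[k] M)) :=
    orthV_cb2 h.symm h.nd h.dual h.flH
  have hnil : ∀ ε : F, (ε = 1 ∨ ε = -1) → ∀ Θ ∈ adj (b2 X F c0 c1) ε,
      H735.KMor (k2 X F hn) (N2 X F c0 c1 hn) (N2 X F c0 c1 hn) Θ → IsNilpotent Θ → Θ = 0 :=
    fun ε hε Θ hΘ hk hnl => hS.nil2 h2 hdet hV ε hε Θ hΘ (H563.higgs_iff_kMor.2 hk) hnl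
  have mφ : Mor (N2 X F c0 c1 hn) (cb2 X F hn ℋ) (cs (k := k) F c0 c1 φ) :=
    mor_iff.2 ((hS.hom2 h2 h.flH).2 ⟨φ, rfl, h.uφ, h.mφ.1, h.mφ.2⟩)
  refine
    { hκ := dual2 X F hn
      oN := oN
      oM := oM
      nil := hnil
      mx := mor_iff.2 ((hS.hom2 h2 h.flG).2 ⟨x, rfl, h.ux, h.mx.1, h.mx.2⟩)
      mφ := mφ
      hφ := fun f hf => ?_
      φφ := phiphi_of_altV none oN oM hnil mφ (h.altC hS h2)
      ext := noExt2 h.flG h.flH h.ext
      hC := ?_
      hz := fun z hz => ?_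
      inj := fun c hc h0 => ?_ }
  · obtain ⟨t, rfl, hu, ht1, ht2⟩ := (hS.hom2 h2 h.flH).1 (mor_iff.1 hf)
    obtain ⟨a, ha⟩ := h.hφ t ⟨ht1, ht2⟩ hu
    refine ⟨a, ?_⟩
    have e : NData.cmap (k := k) F t = a • NData.cmap (k := k) F φ :=
      NData.ext_ev (k := k) fun l => by
        rw [LinearMap.smul_apply, NData.cmap_ev, NData.cmap_ev, ha l, tmul_smul]
    apply LinearMap.ext
    intro y
    exact LinearMap.congr_fun e (y : J → F)
  · obtain ⟨d, hd, hd0⟩ := h.hC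
    refine ⟨LinearMap.BilinForm.baseChange F d, (skV2_iff h.flG).2 ⟨d, rfl, hd⟩, ?_⟩
    intro h0
    apply hd0
    ext u v
    apply (algebraMap k F).injective
    rw [← one_form, h0, LinearMap.zero_apply, LinearMap.zero_apply, LinearMap.zero_apply,
      LinearMap.zero_apply, map_zero]
  · obtain ⟨y, hy, hu, hy1, hy2⟩ := hS.homD2 h2 hz
    obtain ⟨d, hd, hyd⟩ := h.hz y hu hy1 hy2
    refine ⟨LinearMap.BilinForm.baseChange F d, (skV2_iff h.flG).2 ⟨d, rfl, hd⟩, ?_⟩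
    have key : z ∘ₗ hS.Pc h2 F =
        (LinearMap.BilinForm.baseChange F d : LinearMap.BilinForm F (F ⊗[k] S)) ∘ₗ
        (NData.cmap (k := k) F x) := by
      refine NData.ext_ev (k := k) fun l => ext_one fun v => ?_
      rw [LinearMap.comp_apply, hy, LinearMap.comp_apply, NData.cmap_ev, one_form, hyd]
    intro e u
    have h3 := LinearMap.congr_fun (LinearMap.congr_fun key (e : J → F)) u
    rw [LinearMap.comp_apply, hS.Pc_sub h2] at h3
    exact h3
  · obtain ⟨d, rfl, hd⟩ := (skV2_iff h.flG).1 hc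
    have : d = 0 := by
      refine h.inj d hd fun l m => ?_
      have h3 := h0 (hS.Pc h2 F (NData.ev (k := k) F l)) (hS.Pc h2 F (NData.ev (k := k) F m))
      rw [hS.cs_Pc h2 h.ux, hS.cs_Pc h2 h.ux, NData.cmap_ev, NData.cmap_ev, one_form] at h3
      exact (map_eq_zero_iff _ (algebraMap k F).injective).1 h3
    rw [this]
    refine ext_one fun u => ext_one fun v => ?_
    rw [one_form]
    simp

end main

/-- **THE SPECIAL INPUT DOES NOT OCCUR** -/
theorem ConstInS.elim {k : Type u} [Field k] [IsAlgClosed k] {J : Type u} [Fintype J]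
    [DecidableEq J] {S M : Type u} [AddCommGroup S] [Module k S] [AddCommGroup M] [Module k M]
    [FiniteDimensional k S] [FiniteDimensional k M] {Y : NData k J} {c0 c1 : J}
    {𝒢 : Fl3 k Y.n S} {ℋ : Fl3 k Y.n M} {q : M →ₗ[k] M →ₗ[k] k} {x : J → S} {φ : J → M}
    (h : ConstInS Y c0 c1 𝒢 ℋ q x φ) (hS : SpinN Y c0 c1) (h2 : (2 : k) ≠ 0)
    (hdet : IsUnit Y.Om'.det) (hV : VersS Y c0 c1) : False :=
  H668.endgame_inpV' (H388.two_ne (FractionRing k[X]) h2)
    (h.inp (F := FractionRing k[X]) (hn := hS.one_le) hS h2 hdet hV)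
    (hS.vv2 (F := FractionRing k[X]) (hn := hS.one_le) h2 hdet hV)
    (h.altC (F := FractionRing k[X]) (hn := hS.one_le) hS h2)

end Vale.Agent.P182.H588
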