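import Vale.Agent.P182.H532.SHInD
import Vale.Agent.P182.H532.SInp
import Vale.Agent.P182.H588.SF1
import Vale.Agent.P182.H361.Obj
import Vale.Agent.P182.H361.NoHIn1

/-!
# T-SPIN: the special input (H) does not occur
-/

namespace Vale.Agent.P182.H588

open Module Matrix Vale.Agent.P182.H533 Vale.Agent.P182.B1 Vale.Agent.P182.H62
  Vale.Agent.P182.H338 Vale.Agent.P182.H361
open Vale.Agent.P182.H430 (NData Fl3)

universe u w

section obj

variable {L : Type u} {V : Type u} {J : Type w} [Field L] [AddCommGroup V] [Module L V]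
  {𝒟 : Cfg L V J} {S : Submodule L V} {c0 c1 : J}
variable [FiniteDimensional L V] [Fintype J] [CharZero L] {g : 𝒟.Good} {n : ℕ} (hn : Bd 𝒟 n)
  {x : J → ↥S} {φ : J → SQ 𝒟.q S} (h0 : 𝒟.C c0 ≠ ⊥) (h1 : 𝒟.C c1 ≠ ⊥)

omit [FiniteDimensional L V] in
theorem uv_nD (l : {l // 𝒟.C l ≠ ⊥}) : uv (nD g hn) ⟨c0, h0⟩ ⟨c1, h1⟩ l = uz 𝒟 c0 c1 l := rfl

omit [FiniteDimensional L V] in
theorem sum_uv {B : Type*} [AddCommGroup B] [Module L B] (t : J → B)
    (ht : ∀ l, 𝒟.C l = ⊥ → t l = 0) :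
    ∑ l, uv (nD g hn) ⟨c0, h0⟩ ⟨c1, h1⟩ l • t l = ∑ l, uz 𝒟 c0 c1 l • t l := by
  rw [sum_nz (𝒟 := 𝒟) (fun l => uz 𝒟 c0 c1 l • t l) fun l hl => by rw [ht l hl, smul_zero]]
  rfl

omit [FiniteDimensional L V] in
theorem sum_uv_ext0 {B : Type*} [AddCommGroup B] [Module L B] (t : {l // 𝒟.C l ≠ ⊥} → B) :
    ∑ l, uz 𝒟 c0 c1 l • ext0 𝒟 t l = ∑ l, uv (nD g hn) ⟨c0, h0⟩ ⟨c1, h1⟩ l • t l := by
  rw [← sum_uv hn h0 h1 (ext0 𝒟 t) fun l hl => ext0_zero t hl]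
  exact Finset.sum_congr rfl fun l _ => by rw [ext0_val]

/-- data with special columns of full length -/
theorem spinN_nD (hs : SpinC 𝒟 c0 c1) (l0 : 𝒟.c c0 = n) (l1 : 𝒟.c c1 = n) :
    SpinN (nD g hn) ⟨c0, h0⟩ ⟨c1, h1⟩ where
  arm0 := hs.arm0
  arm1 := hs.arm1
  len0 := l0
  len1 := l1
  sp l a0 a1 := hs.sp l (fun h => a0 (Subtype.ext h)) (fun h => a1 (Subtype.ext h))
  ne := hs.ne

open Classical in
omit [FiniteDimensional L V] in
theorem versS_nD (hV : SVersal 𝒟 c0 c1) : VersS (nD g hn) ⟨c0, h0⟩ ⟨c1, h1⟩ := by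
  intro η hη hηs
  let η' : Matrix J J L := Matrix.of fun l m =>
    if h : 𝒟.C l ≠ ⊥ ∧ 𝒟.C m ≠ ⊥ then η ⟨l, h.1⟩ ⟨m, h.2⟩ else 0
  have hη0 : ∀ l m, η' l m = if h : 𝒟.C l ≠ ⊥ ∧ 𝒟.C m ≠ ⊥ then η ⟨l, h.1⟩ ⟨m, h.2⟩ else 0 :=
    fun l m => rfl
  have hη' : η'ᵀ = -η' := by
    ext l m
    rw [Matrix.transpose_apply, Matrix.neg_apply, hη0, hη0]
    by_cases h : 𝒟.C l ≠ ⊥ ∧ 𝒟.C m ≠ ⊥
    · rw [dif_pos h, dif_pos h.symm, hη]
    · rw [dif_neg h, dif_neg (fun h' => h h'.symm), neg_zero]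
  obtain ⟨c, -, hd⟩ := hV (fun _ => 0) (fun s u v => by simp) η' hη' (by
    intro m
    rw [hη0, hη0]
    by_cases h : 𝒟.C m ≠ ⊥
    · rw [dif_pos ⟨h0, h⟩, dif_pos ⟨h1, h⟩, hηs]
    · rw [dif_neg (fun h' => h h'.2), dif_neg (fun h' => h h'.2)])
  have hd1 : c.d 1 = 0 := by
    have := c.leib 1 1
    rw [mul_one, mul_one, one_mul] at this
    exact left_eq_add.1 this
  let δ : Derivation ℤ L L := Derivation.mk' c.d.toIntLinearMap (fun a b => by
    show c.d (a * b) = a • c.d b + b • c.d a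
    rw [c.leib, smul_eq_mul, smul_eq_mul]
    ring)
  refine ⟨⟨δ, ?_⟩, ?_⟩
  · intro s
    fin_cases s
    · exact map_zero c.d
    · exact hd1
    · show c.d (-1) = 0
      rw [map_neg, hd1, neg_zero]
  · intro l m
    show c.d (𝒟.Ω l m) = η l m
    rw [hd, hη0, dif_pos ⟨l.2, m.2⟩]

include h0 h1 in
open Classical in
theorem det_nD (hs : SpinC 𝒟 c0 c1) (hV : SVersal 𝒟 c0 c1) (l0 : 𝒟.c c0 = n)
    (l1 : 𝒟.c c1 = n) (hS : ∀ S, 𝒟.Iso S → thetaS 𝒟 c0 c1 S ≤ 0) :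
    IsUnit (nD g hn).Om'.det := by
  have hcard := card_of_semistableS hs g hS h0 h1
  have e1 : Fintype.card {l // 𝒟.C l ≠ ⊥} = (Finset.univ.filter fun l => 𝒟.C l ≠ ⊥).card :=
    Fintype.card_subtype _
  have e2 : ∀ s : Fin 3, (Finset.univ.filter fun l => (nD g hn).arm l = s).card =
      (Finset.univ.filter fun l => 𝒟.C l ≠ ⊥ ∧ 𝒟.arm l = s).card := by
    intro s
    rw [← Fintype.card_subtype, ← Fintype.card_subtype]
    exact Fintype.card_congr (Equiv.subtypeSubtypeEquivSubtypeInter (fun l => 𝒟.C l ≠ ⊥)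
      (fun l => 𝒟.arm l = s))
  refine det_unit_s two_ne_zero (spinN_nD hn h0 h1 hs l0 l1) (versS_nD hn h0 h1 hV) ?_ ?_ ?_
  · rw [e1, e2]; exact hcard.1
  · rw [e1, e2]; exact hcard.2.1
  · rw [e1, e2]; exact hcard.2.2

/-- the flags of a special configuration have no middle term at the first two arms -/
theorem lvl_zero_one (hs : SpinC 𝒟 c0 c1) (l0 : 𝒟.c c0 = n) (l1 : 𝒟.c c1 = n) (s : Fin 3)
    (h2 : s ≠ 2) : lvl 𝒟 n s 0 ≤ lvl 𝒟 n s 1 := by
  rw [lvl_neg le_rfl, lvl_pos le_rfl, show ((0 : ℤ) + n).toNat = n by omega,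
    show ((n : ℤ) + 1 - 1).toNat = n by omega]
  rcases (show ∀ s : Fin 3, s ≠ 2 → s = 0 ∨ s = 1 by decide) s h2 with h | h
  · subst h
    have h3 := hs.lag0
    rw [Cfg.C, hs.arm0, l0] at h3
    exact h3.le
  · subst h
    have h3 := hs.lag1
    rw [Cfg.C, hs.arm1, l1] at h3
    exact h3.le

theorem HInS.x_zero (h : HInS 𝒟 g c0 c1 S x φ) {l : J} (hl : 𝒟.C l = ⊥) : x l = 0 := by
  have := (H887.mem_HomN.1 h.xN).1 l
  rwa [objA_bot hl, Submodule.mem_bot] at this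

theorem HInS.φ_zero (h : HInS 𝒟 g c0 c1 S x φ) {l : J} (hl : 𝒟.C l = ⊥) : φ l = 0 := by
  have := h.φK.1.1 l
  rwa [sqC_bot hl, Submodule.mem_bot] at this

/-- the special input over the nonzero columns, with levels -/
theorem constInS_of_hInS (hs : SpinC 𝒟 c0 c1) (l0 : 𝒟.c c0 = n) (l1 : 𝒟.c c1 = n)
    (h : HInS 𝒟 g c0 c1 S x φ) :
    ConstInS (nD g hn) ⟨c0, h0⟩ ⟨c1, h1⟩ (flS g n S) (flM g h.iso n) (sq 𝒟 g S).q
      (fun l => x l) (fun l => φ l) where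
  flG s h2 := Submodule.comap_mono (lvl_zero_one hs l0 l1 s h2)
  flH s h2 := lvl_zero_one (𝒟 := sq 𝒟 g S) (spin_sq g h.iso hs) l0 l1 s h2
  symm := (good_sq g h.iso).form.symm
  nd := (good_sq g h.iso).form.nondeg
  dual s a v := mem_lvl_dual (good_sq g h.iso)
  mx := inK_of_homN g hn (fun l _ => objA_eq hn l) (fun l _ => objB_eq hn l)
    (fun _ h => objA_bot h) h.xN
  ux := by rw [sum_uv hn h0 h1 x fun l hl => h.x_zero hl]; exact h.ux
  mφ := by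
    refine inK_of_homN g hn (A := fun l => (sq 𝒟 g S).C l)
      (A' := fun l => perp (sq 𝒟 g S).q ((sq 𝒟 g S).C l)) (fun l _ => ?_) (fun l _ => ?_)
      (fun l h => sqC_bot h) ?_
    · exact lvl_F (𝒟 := sq 𝒟 g S) (s := 𝒟.arm l) (hn.c l)
    · exact lvl_perp (𝒟 := sq 𝒟 g S) (s := 𝒟.arm l) (hn.c l)
    · exact mem_K_iff'.1 h.φK.1
  uφ := by rw [sum_uv hn h0 h1 φ fun l hl => h.φ_zero hl]; exact h.φK.2
  hφ t ht hu := by
    have h2 := homN_of_inK g hn (A := fun l => (sq 𝒟 g S).C l)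
      (A' := fun l => perp (sq 𝒟 g S).q ((sq 𝒟 g S).C l))
      (fun l _ => lvl_F (𝒟 := sq 𝒟 g S) (s := 𝒟.arm l) (hn.c l))
      (fun l _ => lvl_perp (𝒟 := sq 𝒟 g S) (s := 𝒟.arm l) (hn.c l))
      (fun l h => by rw [sqC_bot h]; exact perp_bot') ht
    have h3 : ∑ l, uz (sq 𝒟 g S) c0 c1 l • ext0 𝒟 t l = 0 := by
      rw [← hu]
      exact sum_uv_ext0 hn h0 h1 t
    obtain ⟨a, ha⟩ := h.φ_span _ ⟨mem_K_iff'.2 h2, h3⟩
    refine ⟨a, fun l => ?_⟩
    rw [← ext0_val t l, ha]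
    rfl
  ext Y := by
    obtain ⟨a, b, e1, e2, e3⟩ := h.ext Y
    refine ⟨a, b, e1, fun s c v hv => ?_⟩
    change v ∈ lvlS 𝒟 n S s c at hv
    show b s v ∈ lvl (sq 𝒟 g S) n s c
    rw [mem_lvlS] at hv
    rcases le_or_gt 1 c with hc | hc
    · rw [lvl_pos hc] at hv ⊢
      exact e2 s _ v hv
    · have hc' : c ≤ 0 := by omega
      rw [lvl_neg hc'] at hv ⊢
      exact e3 s _ v hv
  hC := by
    obtain ⟨d, hd, hd0⟩ := h.c_ne
    exact ⟨d, (skF_iff g hn).1 hd, hd0⟩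
  hz z hu z1 z2 := by
    have hz : InK (nD g hn) (lvlD 𝒟 n S) z := by
      refine ⟨fun l => ?_, fun l => ?_⟩
      · rw [lvlD, Submodule.mem_dualAnnihilator]
        intro v hv
        refine z1 l v ?_
        have e : (1 : ℤ) - ((nD g hn).n + 1 - (nD g hn).c l) = (nD g hn).c l - (nD g hn).n := by
          ring
        rw [e] at hv
        exact hv
      · rw [lvlD, Submodule.mem_dualAnnihilator]
        intro v hv
        have e : (1 : ℤ) - ((nD g hn).c l - (nD g hn).n) = (nD g hn).n + 1 - (nD g hn).c l := by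
          ring
        rw [e] at hv
        have h3 := z2 l v hv
        rw [LinearMap.sum_apply]
        exact h3
    have h2 := homN_of_inK g hn (A := fun l => (objB 𝒟 S l).dualAnnihilator)
      (A' := fun l => (objA 𝒟 S l).dualAnnihilator) (fun l _ => ?_) (fun l _ => ?_)
      (fun l h => ?_) hz
    · obtain ⟨d, hd, hd'⟩ := h.c_surj _ h2 (by rw [sum_uv_ext0 hn h0 h1 z]; exact hu)
      refine ⟨d, (skF_iff g hn).1 hd, fun l => ?_⟩
      rw [← hd' l, ext0_val]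
    · rw [lvlD, show (1 : ℤ) - (n + 1 - 𝒟.c l) = 𝒟.c l - n by ring, objB_eq hn]
    · rw [lvlD, show (1 : ℤ) - (𝒟.c l - n) = n + 1 - 𝒟.c l by ring, objA_eq hn]
    · rw [objA_bot h, Submodule.dualAnnihilator_bot]
  inj d hd hd0 := by
    refine h.c_inj d ((skF_iff g hn).2 hd) fun l k => ?_
    by_cases hl : 𝒟.C l = ⊥
    · rw [h.x_zero hl, map_zero]; rfl
    by_cases hk : 𝒟.C k = ⊥
    · rw [h.x_zero hk, map_zero]
    exact hd0 ⟨l, hl⟩ ⟨k, hk⟩
  alt := by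
    rcases h.alt with ⟨l, m, hlm⟩ | ⟨γ, e1, e3, e5⟩
    · left
      have hl : 𝒟.C l ≠ ⊥ := fun h0 => hlm (by rw [h.φ_zero h0, map_zero]; rfl)
      have hm : 𝒟.C m ≠ ⊥ := fun h0 => hlm (by rw [h.φ_zero h0, map_zero])
      exact ⟨⟨l, hl⟩, ⟨m, hm⟩, hlm⟩
    · right
      have hsp : Submodule.span L (Set.range fun l : {l // 𝒟.C l ≠ ⊥} => φ l) ≤
          Submodule.span L (Set.range φ) := by
        refine Submodule.span_mono ?_
        rintro _ ⟨l, rfl⟩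
        exact ⟨l, rfl⟩
      have gs := good_sq g h.iso
      have key : ∀ i s a b, 0 < a + b → 1 ≤ a →
          ∀ u ∈ Submodule.span L (Set.range fun l : {l // 𝒟.C l ≠ ⊥} => φ l),
            ∀ v ∈ Submodule.span L (Set.range fun l : {l // 𝒟.C l ≠ ⊥} => φ l),
              u ∈ lvl (sq 𝒟 g S) n s a → v ∈ lvl (sq 𝒟 g S) n s b → γ i u v = 0 := by
        intro i s a b hab ha u hu v hv hu' hv'
        have hv2 := lvl_le_perp gs hab ha hv'
        rw [lvl_pos ha] at hu' hv2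
        exact e5 i s _ u (hsp hu) v (hsp hv) hu' hv2
      refine ⟨γ, e1, fun a b hab => e3 a b fun l m => ?_,
        fun i s a b hab u hu v hv hu' hv' => ?_⟩
      · by_cases hl : 𝒟.C l = ⊥
        · rw [h.φ_zero hl, map_zero, map_zero]
          simp
        by_cases hm : 𝒟.C m = ⊥
        · rw [h.φ_zero hm, map_zero, map_zero]
          simp
        exact hab ⟨l, hl⟩ ⟨m, hm⟩
      · change u ∈ lvl (sq 𝒟 g S) n s a at hu'
        change v ∈ lvl (sq 𝒟 g S) n s b at hv'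
        rcases le_or_gt 1 a with ha | ha
        · exact key i s a b hab ha u hu v hv hu' hv'
        · rw [e1, key i s b a (by omega) (by omega) v hv u hu hv' hu', neg_zero]

end obj

/-! ### lengthening the special columns -/

section withC

variable {L : Type u} {V : Type u} {J : Type w} [Field L] [AddCommGroup V] [Module L V]

/-- other names for the columns -/
def wc (𝒟 : Cfg L V J) (c' : J → ℕ) : Cfg L V J := { 𝒟 with c := c' }

variable {𝒟 : Cfg L V J} {S : Submodule L V} {c0 c1 : J} {c' : J → ℕ}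

theorem wc_good (g : 𝒟.Good) : (wc 𝒟 c').Good where
  form := g.form
  zero := g.zero
  mono := g.mono
  iso := g.iso
  step := g.step
  skew := g.skew

theorem wc_spin (hs : SpinC 𝒟 c0 c1) (hC : ∀ l, (wc 𝒟 c').C l = 𝒟.C l) :
    SpinC (wc 𝒟 c') c0 c1 where
  arm0 := hs.arm0
  arm1 := hs.arm1
  lag0 := by rw [hC]; exact hs.lag0
  lag1 := by rw [hC]; exact hs.lag1
  sp := hs.sp
  ne := hs.ne

variable [Fintype J]

theorem wc_K (hC : ∀ l, (wc 𝒟 c').C l = 𝒟.C l) : (wc 𝒟 c').K = 𝒟.K := by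
  ext t
  constructor
  · rintro ⟨h1, h2⟩
    exact ⟨fun l => by rw [← hC]; exact h1 l, fun l => by rw [← hC]; exact h2 l⟩
  · rintro ⟨h1, h2⟩
    exact ⟨fun l => by rw [hC]; exact h1 l, fun l => by rw [hC]; exact h2 l⟩

theorem wc_Ks (hC : ∀ l, (wc 𝒟 c').C l = 𝒟.C l) : Ks (wc 𝒟 c') c0 c1 = Ks 𝒟 c0 c1 := by
  unfold Ks
  rw [wc_K hC]
  rfl

theorem wc_thetaS (hC : ∀ l, (wc 𝒟 c').C l = 𝒟.C l) (S : Submodule L V) :
    thetaS (wc 𝒟 c') c0 c1 S = thetaS 𝒟 c0 c1 S := by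
  have h1 : (wc 𝒟 c').theta S = 𝒟.theta S := by
    unfold Cfg.theta
    refine Finset.sum_congr rfl fun l _ => ?_
    unfold Cfg.th
    have h2 : (wc 𝒟 c').F ((wc 𝒟 c').arm l) ((wc 𝒟 c').c l) = 𝒟.F (𝒟.arm l) (𝒟.c l) := hC l
    rw [h2]
    rfl
  rw [thetaS, thetaS, h1, hC, hC]

theorem HInS.wc [FiniteDimensional L V] {g : 𝒟.Good} {x : J → ↥S} {φ : J → SQ 𝒟.q S}
    (h : HInS 𝒟 g c0 c1 S x φ) (hC : ∀ l, (wc 𝒟 c').C l = 𝒟.C l) :
    HInS (H588.wc 𝒟 c') (wc_good g) c0 c1 S x φ := by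
  have eA : objA (H588.wc 𝒟 c') S = objA 𝒟 S := by
    funext l
    unfold objA
    rw [hC]
  have eB : objB (H588.wc 𝒟 c') S = objB 𝒟 S := by
    funext l
    unfold objB
    rw [hC]
    rfl
  have eK : Ks (sq (H588.wc 𝒟 c') (wc_good g) S) c0 c1 = Ks (sq 𝒟 g S) c0 c1 := by
    refine wc_Ks (𝒟 := sq 𝒟 g S) (c' := c') fun l => ?_
    show SQim S ((H588.wc 𝒟 c').C l) = SQim S (𝒟.C l)
    rw [hC]
  exact
    { iso := h.iso
      xN := by rw [eA, eB]; exact h.xN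
      ux := h.ux
      φK := by rw [eK]; exact h.φK
      φ_span := fun t ht => h.φ_span t (by rw [← eK]; exact ht)
      ext := h.ext
      c_ne := h.c_ne
      c_surj := fun z hz hu => h.c_surj z (by rw [eA, eB] at hz; exact hz) hu
      c_inj := h.c_inj
      alt := h.alt }

end withC

/-- the determinant does not depend on the instances -/
theorem det_instS {m R : Type*} [CommRing R] (i₁ i₂ : Fintype m) (d₁ d₂ : DecidableEq m)
    (A : Matrix m m R) : @Matrix.det m d₁ i₁ R _ A = @Matrix.det m d₂ i₂ R _ A := by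
  cases Subsingleton.elim i₁ i₂
  cases Subsingleton.elim d₁ d₂
  rfl

/-- **THE SPECIAL INPUT (H) DOES NOT OCCUR** -/
theorem noHInS (J : Type u) [Fintype J] [DecidableEq J] : NoHInS.{u, u} J := by
  intro L _ _ _ V _ _ _ 𝒟 g c0 c1 hs hV hS S x φ h
  -- the columns are not zero
  obtain ⟨d, -, hd0⟩ := h.c_ne
  have hV0 : ∃ v : V, v ≠ 0 := by
    by_contra hcon
    push Not at hcon
    apply hd0
    apply LinearMap.ext
    intro v
    have : v = 0 := Subtype.ext (hcon v)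
    rw [this, map_zero, map_zero]
  have hlag : ∀ l, perp 𝒟.q (𝒟.C l) = 𝒟.C l → 𝒟.C l ≠ ⊥ := by
    intro l hl hb
    rw [hb] at hl
    obtain ⟨v, hv⟩ := hV0
    apply hv
    have h3 : v ∈ perp 𝒟.q (⊥ : Submodule L V) := fun w hw => by
      rw [(Submodule.mem_bot L).1 hw, map_zero]
    rw [hl] at h3
    exact (Submodule.mem_bot L).1 h3
  have h0 := hlag c0 hs.lag0
  have h1 := hlag c1 hs.lag1
  obtain ⟨n, hn⟩ := exists_bd g
  classical
  let c' : J → ℕ := fun l => if l = c0 ∨ l = c1 then n else 𝒟.c l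
  have hlen : ∀ l, perp 𝒟.q (𝒟.C l) = 𝒟.C l → 𝒟.F (𝒟.arm l) n = 𝒟.C l := by
    intro l hl
    refine le_antisymm ?_ (g.mono _ (hn.c l))
    refine (g.iso _ _).trans ?_
    rw [← hl]
    exact perp_anti (g.mono _ (hn.c l))
  have hC : ∀ l, (wc 𝒟 c').C l = 𝒟.C l := by
    intro l
    show 𝒟.F (𝒟.arm l) (if l = c0 ∨ l = c1 then n else 𝒟.c l) = 𝒟.C l
    split_ifs with hl
    · rcases hl with rfl | rfl
      · exact hlen _ hs.lag0
      · exact hlen _ hs.lag1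
    · rfl
  have h' := h.wc hC
  have hs' : SpinC (wc 𝒟 c') c0 c1 := wc_spin hs hC
  have hV' : SVersal (wc 𝒟 c') c0 c1 := hV
  have hS' : ∀ S, (wc 𝒟 c').Iso S → thetaS (wc 𝒟 c') c0 c1 S ≤ 0 := by
    intro S' hi
    rw [wc_thetaS hC]
    exact hS S' hi
  have hn' : Bd (wc 𝒟 c') n := by
    refine ⟨fun l => ?_, hn.F⟩
    show (if l = c0 ∨ l = c1 then n else 𝒟.c l) ≤ n
    split_ifs
    · exact le_rfl
    · exact hn.c l
  have l0 : (wc 𝒟 c').c c0 = n := if_pos (Or.inl rfl)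
  have l1 : (wc 𝒟 c').c c1 = n := if_pos (Or.inr rfl)
  have h0' : (wc 𝒟 c').C c0 ≠ ⊥ := by rw [hC]; exact h0
  have h1' : (wc 𝒟 c').C c1 ≠ ⊥ := by rw [hC]; exact h1
  have hdet : IsUnit (nD (wc_good g) hn').Om'.det :=
    (congrArg IsUnit (det_instS _ _ _ _ _)).mp (det_nD hn' h0' h1' hs' hV' l0 l1 hS')
  exact (constInS_of_hInS hn' h0' h1' hs' l0 l1 h').elim
    (spinN_nD hn' h0' h1' hs' l0 l1) two_ne_zero hdet (versS_nD hn' h0' h1' hV')

end Vale.Agent.P182.H588
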