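import Vale.Agent.P182.H532.SDesc
import Vale.Agent.P182.H588.SRed

/-!
# T-SPIN: case (g) for special configurations

In a strict versal special configuration with two-dimensional special kernel every isotropic
element of the special kernel is zero, provided that the situation (B2) does not occur.
-/

namespace Vale.Agent.P182.H588.SP

open Module Matrix TensorProduct Vale.Agent.P182.H533 Vale.Agent.P182.B1 Vale.Agent.P182.H62
open Vale.Agent.P182.H96 (ofCfg toCfg pp pp_eq om Rd)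
open Vale.Agent.P182.H338 (SpinC SpinC1 SVersal uz uzM ExtZeroS UStrictS IHSs thetaS STRS)
open Vale.Agent.P182.H258 (famS mem_famS evf fam qbc_one qbc_zero isX_bc famS_mono span_fam
  E_bc finrank_famS span_iso span_ne fam_ne_zero rdIso fam_indep exists_tau)
open Vale.Agent.P182.H388.S (UUs mem_UUs UUs_induction FAs TypeIs thS kapS ds_K_le mem_of_rd
  mem_Esh' fas_typeI fas_dat theta_ge_s)

universe u w

section unfold

variable {L : Type u} {V : Type u} {J : Type w} [Field L] [AddCommGroup V] [Module L V]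
  [Fintype J] [FiniteDimensional L V] [CharZero L]

theorem str_unfold_s {𝒟 : Cfg L V J} {c0 c1 : J} (g : 𝒟.Good) (hs : SpinC1 𝒟 c0 c1)
    {R : Submodule L V} (hR : 𝒟.Iso R) (h : STRS (sq 𝒟 g R) (good_sq g hR) c0 c1) :
    ∃ (L' : Type u) (_ : Field L') (_ : Algebra L L') (S : Submodule L' (L' ⊗[L] V)),
      R.baseChange L' ≤ S ∧ (bcC 𝒟 L').Iso S ∧
        ExtZeroS (sq (bcC 𝒟 L') (good_bcC g) (R.baseChange L')) c0 c1
          (SQim (R.baseChange L') S) ∧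
          SVersal (sq (bcC 𝒟 L') (good_bcC g) S) c0 c1 ∧
            UStrictS (sq (bcC 𝒟 L') (good_bcC g) S) c0 c1 ∧
              finrank L' (H338.Ks (sq (bcC 𝒟 L') (good_bcC g) S) c0 c1) ≤ 1 := by
  obtain ⟨L', i1, i2, h⟩ := h
  have hc : CharZero L' := H258.charZero_ext (L := L) L'
  refine ⟨L', i1, i2, ?_⟩
  have hR' : (bcC 𝒟 L').Iso (R.baseChange L') := iso_bcC hR
  obtain ⟨i⟩ := exists_cIsoBC (L' := L') g R
  have gR : (sq (bcC 𝒟 L') (good_bcC g) (R.baseChange L')).Good := good_sq _ hR'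
  have hsR : SpinC1 (bcC (sq 𝒟 g R) L') c0 c1 := H338.spin1_bcC (H338.spin1_sq g hR hs)
  have hsR' : SpinC1 (sq (bcC 𝒟 L') (good_bcC g) (R.baseChange L')) c0 c1 :=
    H338.spin1_sq _ hR' (H338.spin1_bcC hs)
  obtain ⟨T, hT, hE, hV, hU, hK⟩ := H338.cIso_ResS i gR hsR h
  obtain ⟨e⟩ := exists_cIsoIter (good_bcC g) hR' gR T
  have hS' : (bcC 𝒟 L').Iso (SQpre (R.baseChange L') T) := iso_SQpre _ hR' hT
  refine ⟨SQpre (R.baseChange L') T, le_SQpre _ hR' T, hS', ?_,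
    H338.sversal_ciso e (good_sq _ hS') two_ne_zero (H338.spin1_sq gR hT hsR') hV,
    H338.cIso_uStrictS e hU, (H338.ciso_finrank_Ks e).trans_le hK⟩
  have e1 : SQim (R.baseChange L') (SQpre (R.baseChange L') T) = T := SQim_SQpre _ T
  rw [e1]
  exact hE

end unfold

/-- the image in the subquotient of an element of the special kernel -/
theorem mk_mem_Ks {L : Type u} [Field L] {V : Type u} [AddCommGroup V] [Module L V]
    [FiniteDimensional L V] {J : Type w} [Fintype J] {𝒟 : Cfg L V J} {c0 c1 : J} (g : 𝒟.Good)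
    {S : Submodule L V} (hS : 𝒟.Iso S) {y : J → V} (hy : y ∈ H338.Ks 𝒟 c0 c1)
    (hyp : ∀ l, y l ∈ perp 𝒟.q S) :
    (fun l => SQmk S ⟨y l, hyp l⟩) ∈ H338.Ks (sq 𝒟 g S) c0 c1 := by
  rw [H338.mem_Ks] at hy ⊢
  refine ⟨?_, ?_⟩
  · have hyk := hy.1
    rw [Cfg.mem_K] at hyk ⊢
    refine ⟨fun l => SQmk_mem_SQim S (hyk.1 l), fun l => ?_⟩
    rw [perp_sq_C g hS]
    have e1 : 𝒟.om y l ∈ perp 𝒟.q S :=
      Submodule.sum_mem _ fun k _ => Submodule.smul_mem _ _ (hyp k)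
    have e2 : (sq 𝒟 g S).om (fun l => SQmk S ⟨y l, hyp l⟩) l = SQmk S ⟨𝒟.om y l, e1⟩ := by
      have e3 : (⟨𝒟.om y l, e1⟩ : ↥(perp 𝒟.q S)) = ∑ k, 𝒟.Ω l k • ⟨y k, hyp k⟩ := by
        apply Subtype.ext
        rw [Submodule.coe_sum]
        rfl
      rw [e3, map_sum, Cfg.om]
      refine Finset.sum_congr rfl fun k _ => ?_
      rw [map_smul]
      rfl
    rw [e2]
    exact SQmk_mem_SQim S (hyk.2 l)
  · show ∑ l, uz 𝒟 c0 c1 l • SQmk S ⟨y l, hyp l⟩ = 0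
    have e3 : (∑ l, uz 𝒟 c0 c1 l • (⟨y l, hyp l⟩ : ↥(perp 𝒟.q S))) = 0 := by
      apply Subtype.ext
      rw [Submodule.coe_sum]
      exact hy.2
    rw [← map_zero (SQmk S), ← e3, map_sum]
    exact Finset.sum_congr rfl fun k _ => (map_smul _ _ _).symm

section main

variable {J : Type w} [Fintype J] [DecidableEq J] {L : Type u} [Field L] [CharZero L] {V : Type u}
  [AddCommGroup V] [Module L V] [FiniteDimensional L V] {𝒟 : Cfg L V J} {c0 c1 : J}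

/-- the data at a point -/
structure DatKs (𝒟 : Cfg L V J) (c0 c1 : J) (x : J → V) (S : Submodule L V) : Prop where
  dat : DatS (ofCfg 𝒟) c0 c1 (Submodule.span L (Set.range x)) S
  K_le : Ks (ofCfg 𝒟) c0 c1 ≤ (ofCfg 𝒟).E S
  rad : finrank L (Esh (ofCfg 𝒟) c0 c1 (pp (ofCfg 𝒟).q S) ⊓
    (ofCfg 𝒟).perp (Esh (ofCfg 𝒟) c0 c1 (pp (ofCfg 𝒟).q S)) : Submodule L (J → V)) ≤
      1 + finrank L ((ofCfg 𝒟).E S ⊔ KS (ofCfg 𝒟) c0 c1 : Submodule L (J → V))

/-- the data at a point are stable under base change -/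
theorem DatKs.bc (g : 𝒟.Good) (hne : c0 ≠ c1) {x : J → V} {S : Submodule L V}
    (D : DatKs 𝒟 c0 c1 x S) (L' : Type u) [Field L'] [Algebra L L'] [CharZero L'] :
    DatKs (bcC 𝒟 L') c0 c1 (fam L' x) (S.baseChange L') where
  dat := by
    rw [span_fam]
    exact datS_bc g D.dat
  K_le := by
    rw [Ks_bc g, E_bc]
    exact famS_mono D.K_le
  rad := by
    rw [rad_bc_s g, EK_bc hne]
    exact D.rad

theorem mem_E_of_Ks (h : HypS 𝒟 c0 c1) {R S : Submodule L V}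
    (D : DatS (ofCfg 𝒟) c0 c1 R S) (hKR : Ks (ofCfg 𝒟) c0 c1 ≤ (ofCfg 𝒟).E (pp (ofCfg 𝒟).q R)) :
    Ks (ofCfg 𝒟) c0 c1 ≤ (ofCfg 𝒟).E (pp (ofCfg 𝒟).q S) := by
  intro y hy
  have h1 : (ofCfg 𝒟).K ≤ Esh (ofCfg 𝒟) c0 c1 (pp (ofCfg 𝒟).q R) :=
    K_le_Esh h.spc h.good' h.two (hKR.trans (E_le_Esh _))
  have h2 := ds_K_le D h1 (Ks_le hy)
  rw [mem_Esh' h.spc.ne] at h2
  have h3 : UM (ofCfg 𝒟) c0 c1 y ∈ pp (ofCfg 𝒟).q S := by
    rw [(mem_Ks.mp hy).2]
    exact Submodule.zero_mem _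
  have h4 := mem_of_rd h.spc h.good' h.two h2.2 h3
  exact H96.Cf.mem_E.mpr fun l => ⟨h2.1 l, h4 l⟩

/-- the data at a point over the given field -/
theorem HypS.datKs (hB : HypB2S.{u, w} J) (h : HypS 𝒟 c0 c1) {x : J → V}
    (hx : x ∈ H338.Ks 𝒟 c0 c1) (hx0 : x ≠ 0) (hxx : ∀ l k, 𝒟.q (x l) (x k) = 0)
    {S : Submodule L V} (hD : DatS (ofCfg 𝒟) c0 c1 (Submodule.span L (Set.range x)) S)
    (h2 : 𝒟.Iso S) (h4 : SVersal (sq 𝒟 h.good S) c0 c1) (h5 : UStrictS (sq 𝒟 h.good S) c0 c1)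
    (h6 : finrank L (H338.Ks (sq 𝒟 h.good S) c0 c1) ≤ 1) : DatKs 𝒟 c0 c1 x S := by
  refine ⟨hD, ?_, rad_le_s h.good h.two h.spin h2 h6⟩
  -- otherwise (B2) occurs
  by_contra hcon
  have hK2 := mem_E_of_Ks h hD (h.K_perp hx hxx)
  obtain ⟨y, hy, hyS⟩ := SetLike.not_le_iff_exists.mp hcon
  have hy' : y ∈ H338.Ks 𝒟 c0 c1 := by
    rw [← Ks_ofCfg h.good]; exact hy
  have hyp : ∀ l, y l ∈ perp 𝒟.q S := fun l => by
    have := (H96.Cf.mem_E.mp (hK2 hy) l).2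
    rw [← pp_eq h.good.form]
    exact this
  have hyn : ¬ ∀ l, y l ∈ S := fun hall => hyS (H96.Cf.mem_E.mpr fun l =>
    ⟨(H96.Cf.mem_K'.mp (Ks_le hy)).1 l, hall l⟩)
  have hyK := mk_mem_Ks h.good h2 hy' hyp
  have hK1 : finrank L (H338.Ks (sq 𝒟 h.good S) c0 c1) = 1 := by
    refine le_antisymm h6 ?_
    rw [Nat.one_le_iff_ne_zero]
    intro h0
    apply hyn
    intro l
    rw [Submodule.finrank_eq_zero] at h0
    rw [h0, Submodule.mem_bot] at hyK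
    exact (SQmk_eq_zero S).mp (congrFun hyK l)
  exact hB L V 𝒟 c0 c1 h x y S ⟨hx, hx0, hxx, hD, h4, h5, hK1, hy', hyp, hyn⟩

/-- **The alternative at an isotropic element with versal reduction.** -/
theorem HypS.alt (hB : HypB2S.{u, w} J) (h : HypS 𝒟 c0 c1) {x : J → V}
    (hx : x ∈ H338.Ks 𝒟 c0 c1) (hx0 : x ≠ 0)
    (hxx : ∀ l k, 𝒟.q (x l) (x k) = 0)
    (hv : SVersal (sq 𝒟 h.good (Submodule.span L (Set.range x))) c0 c1) :
    ∃ (L' : Type u) (_ : Field L') (_ : Algebra L L') (_ : CharZero L')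
      (S : Submodule L' (L' ⊗[L] V)), DatKs (bcC 𝒟 L') c0 c1 (fam L' x) S := by
  have hR : 𝒟.Iso (Submodule.span L (Set.range x)) := span_iso h.good hxx
  have hlt : finrank L (SQ 𝒟.q (Submodule.span L (Set.range x))) < finrank L V :=
    finrank_SQ_lt _ h.good.form hR (span_ne hx0)
  obtain ⟨L', _, _, S, h1, h2, h3, h4, h5, h6⟩ := str_unfold_s h.good h.spin hR
    (h.ih L _ (sq 𝒟 h.good _) (good_sq h.good hR) hlt (H338.spin1_sq h.good hR h.spin) hv)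
  have hc : CharZero L' := H258.charZero_ext (L := L) L'
  have h' := h.bc L'
  have hxx' : ∀ l k, (bcC 𝒟 L').q (fam L' x l) (fam L' x k) = 0 := fun l k => by
    show qbc L' 𝒟.q ((1 : L') ⊗ₜ[L] x l) ((1 : L') ⊗ₜ[L] x k) = 0
    rw [qbc_one, hxx, map_zero]
  have hD : DatS (ofCfg (bcC 𝒟 L')) c0 c1 (Submodule.span L' (Set.range (fam L' x))) S := by
    rw [span_fam]
    exact datS_of_ext (good_bcC h.good) two_ne_zero h'.spin h1 h2 h3
  exact ⟨L', _, _, hc, S, h'.datKs hB (fam_mem_Ks h.good hx) (fam_ne_zero hx0) hxx' hD h2 h4 h5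
    h6⟩

/-- a point which is not of type (i) has a versal reduction -/
theorem HypS.versal_of_not (h : HypS 𝒟 c0 c1) {x : J → V} (hx : x ∈ H338.Ks 𝒟 c0 c1)
    (hxx : ∀ l k, 𝒟.q (x l) (x k) = 0)
    (hmov : ∀ y ∈ Ks (ofCfg 𝒟) c0 c1, ∀ b, (ofCfg 𝒟).Eps (Submodule.span L (Set.range x)) b →
      (∀ l, y l - b ((ofCfg 𝒟).arm l) (x l) ∈ Submodule.span L (Set.range x)) →
      ∃ c : Conn (ofCfg 𝒟).q, (ofCfg 𝒟).IsD0 c ∧
        ∀ l, c.δ (x l) - y l ∈ Submodule.span L (Set.range x)) :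
    SVersal (sq 𝒟 h.good (Submodule.span L (Set.range x))) c0 c1 := by
  have hR0 : 𝒟.Iso (Submodule.span L (Set.range x)) := span_iso h.good hxx
  have hR : Submodule.span L (Set.range x) ≤ pp 𝒟.q (Submodule.span L (Set.range x)) := by
    rw [pp_eq h.good.form]
    exact hR0
  obtain ⟨D⟩ := H96.exists_rd h.good.form hR
  have hx' : x ∈ Ks (ofCfg 𝒟) c0 c1 := by rw [Ks_ofCfg h.good]; exact hx
  have h1 := versal_red_s h.spc h.good' h.two h.versal' h.n1s hx' rfl hR D hmov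
  have g2 : (sq 𝒟 h.good (Submodule.span L (Set.range x))).Good := good_sq h.good hR0
  exact H338.sversal_ciso (rdIso h.good D) g2 h.two
    (H338.spin1_ciso (cIsoSymm (rdIso h.good D)) (H338.spin1_sq h.good hR0 h.spin))
    (sversal_toCfg h1)

theorem HypS.versal_of_not_typeI (h : HypS 𝒟 c0 c1) {x : J → V} (hx : x ∈ H338.Ks 𝒟 c0 c1)
    (hxx : ∀ l k, 𝒟.q (x l) (x k) = 0) (hI : ¬ TypeIs (ofCfg 𝒟) c0 c1 x) :
    SVersal (sq 𝒟 h.good (Submodule.span L (Set.range x))) c0 c1 := by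
  refine h.versal_of_not hx hxx fun y hy b hb hyb => ⟨H96.zeroConn _, H96.Cf.isD0_zero,
    fun l => ?_⟩
  have e1 : (H96.zeroConn (ofCfg 𝒟).q).δ (x l) = 0 := rfl
  rw [e1, zero_sub]
  by_contra hcon
  exact hI ⟨y, hy, b, hb, hyb, fun hall => hcon (Submodule.neg_mem _ (hall l))⟩

/-- all elements of the special kernel are isotropic and mutually orthogonal -/
theorem HypS.all_iso (hB : HypB2S.{u, w} J) (h : HypS 𝒟 c0 c1) {w : J → V}
    (hw : w ∈ H338.Ks 𝒟 c0 c1) (hw0 : w ≠ 0)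
    (hww : ∀ l k, 𝒟.q (w l) (w k) = 0) {x y : J → V} (hx : x ∈ Ks (ofCfg 𝒟) c0 c1)
    (hy : y ∈ Ks (ofCfg 𝒟) c0 c1) (l k : J) : 𝒟.q (x l) (y k) = 0 := by
  have hw' : w ∈ Ks (ofCfg 𝒟) c0 c1 := by rw [Ks_ofCfg h.good]; exact hw
  -- orthogonality to an isotropic element
  have horth : ∀ t ∈ Ks (ofCfg 𝒟) c0 c1, (∀ l k, 𝒟.q (t l) (t k) = 0) →
      ∀ l k, 𝒟.q (x l) (t k) = 0 := by
    intro t ht htt l k
    have ht' : t ∈ H338.Ks 𝒟 c0 c1 := by rw [← Ks_ofCfg h.good]; exact ht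
    have h1 := (H96.Cf.mem_E.mp (h.K_perp ht' htt hx) l).2 (t k)
      (Submodule.subset_span ⟨k, rfl⟩)
    rw [h.good.form.symm]
    exact h1
  by_cases hI : TypeIs (ofCfg 𝒟) c0 c1 w
  · obtain ⟨z, hz, b, hb, hzb, hzR⟩ := hI
    have hR : Submodule.span L (Set.range w) ≤
        pp (ofCfg 𝒟).q (Submodule.span L (Set.range w)) := by
      show _ ≤ pp 𝒟.q _
      rw [pp_eq h.good.form]
      exact span_iso h.good hww
    have hwR : ∀ l, w l ∈ Submodule.span L (Set.range w) := fun l =>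
      Submodule.subset_span ⟨l, rfl⟩
    have hzz := typeI_s h.spc h.good' h.two h.versal' h.n1s hw' hz rfl hR hb hzb
    have hzw : ∀ c : L, z ≠ c • w := by
      rintro c rfl
      exact hzR fun l => Submodule.smul_mem _ c (hwR l)
    obtain ⟨α, β, hαβ⟩ := H96.exists_coord h.dim' hw' hz hw0 hzw y hy
    have e1 : 𝒟.q (x l) (w k) = 0 := horth w hw' hww l k
    have e2 : 𝒟.q (x l) (z k) = 0 := horth z hz hzz l k
    rw [hαβ, Pi.add_apply, Pi.smul_apply, Pi.smul_apply, map_add, map_smul, map_smul,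
      e1, e2, smul_zero, smul_zero, add_zero]
  · obtain ⟨L', _, _, _, S, D⟩ := h.alt hB hw hw0 hww (h.versal_of_not_typeI hw hww hI)
    have h1 : ∀ t ∈ Ks (ofCfg 𝒟) c0 c1, ∀ l, fam L' t l ∈ S := by
      intro t ht l
      have h2 : fam L' t ∈ Ks (ofCfg (bcC 𝒟 L')) c0 c1 := by
        rw [Ks_ofCfg (good_bcC h.good)]
        rw [Ks_ofCfg h.good] at ht
        exact fam_mem_Ks h.good ht
      exact (H96.Cf.mem_E.mp (D.K_le h2) l).2
    have h3 : qbc L' 𝒟.q ((1 : L') ⊗ₜ[L] x l) ((1 : L') ⊗ₜ[L] y k) = 0 :=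
      D.dat.iso (h1 y hy k) _ (h1 x hx l)
    rw [qbc_one, map_eq_zero] at h3
    exact h3

/-- (5a) at every element of the special kernel -/
theorem HypS.fa (hB : HypB2S.{u, w} J) (h : HypS 𝒟 c0 c1)
    (hH : ∀ x ∈ Ks (ofCfg 𝒟) c0 c1, ∀ y ∈ Ks (ofCfg 𝒟) c0 c1, ∀ l k,
      (ofCfg 𝒟).q (x l) (y k) = 0)
    {x : J → V} (hx : x ∈ Ks (ofCfg 𝒟) c0 c1) (hx0 : x ≠ 0) : FAs (ofCfg 𝒟) c0 c1 x := by
  by_cases hI : TypeIs (ofCfg 𝒟) c0 c1 x
  · exact fas_typeI h.spc h.good' h.two h.versal' h.n1s h.dim' hH hx hx0 hI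
  · have hx' : x ∈ H338.Ks 𝒟 c0 c1 := by rw [← Ks_ofCfg h.good]; exact hx
    obtain ⟨L', _, _, _, S, D⟩ := h.alt hB hx' hx0 (hH x hx x hx)
      (h.versal_of_not_typeI hx' (hH x hx x hx) hI)
    have h' := h.bc L'
    have hx1 : fam L' x ∈ Ks (ofCfg (bcC 𝒟 L')) c0 c1 := by
      rw [Ks_ofCfg (good_bcC h.good)]
      exact fam_mem_Ks h.good hx'
    refine fas_desc h.good (H388.dExt L L') ?_
    refine fas_dat h'.spc h'.good' h'.two h'.dim' (fun a ha b hb l k => ?_) hx1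
      (fam_ne_zero hx0) D.dat D.K_le
    exact D.dat.iso (H96.Cf.mem_E.mp (D.K_le hb) k).2 _ (H96.Cf.mem_E.mp (D.K_le ha) l).2

/-- after a field extension there is a movable element of the special kernel -/
theorem HypS.exists_movable (h : HypS 𝒟 c0 c1) :
    ∃ (L' : Type u) (_ : Field L') (_ : Algebra L L') (_ : CharZero L') (_ : IsAlgClosed L'),
      ∃ x ∈ Ks (ofCfg (bcC 𝒟 L')) c0 c1, ∃ c : Conn (ofCfg (bcC 𝒟 L')).q,
        (ofCfg (bcC 𝒟 L')).IsD0 c ∧ ∀ μ : L', (fun l => c.δ (x l)) ≠ μ • x := by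
  obtain ⟨L', i1, i2, i3, d, τ, hd, hd0, hdτ⟩ := exists_tau L
  have hc : CharZero L' := H258.charZero_ext (L := L) L'
  refine ⟨L', i1, i2, hc, i3, ?_⟩
  have hfin : FiniteDimensional L (Ks (ofCfg 𝒟) c0 c1) :=
    FiniteDimensional.of_finrank_pos (by rw [h.dim']; norm_num)
  obtain ⟨x, hx, hx0⟩ : ∃ x ∈ Ks (ofCfg 𝒟) c0 c1, x ≠ 0 := by
    by_contra hall
    push Not at hall
    have h1 : Ks (ofCfg 𝒟) c0 c1 = ⊥ := (Submodule.eq_bot_iff _).mpr hall
    have h2 := h.dim'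
    rw [h1, finrank_bot] at h2
    omega
  obtain ⟨y, hy, hyx⟩ := H96.exists_compl h.dim' (x := x)
  have hxy : ∀ a b : L, a • x + b • y = 0 → a = 0 ∧ b = 0 := by
    intro s t hst
    have ht : t = 0 := by
      by_contra ht
      apply hyx (-(t⁻¹ * s))
      have h1 : t • y = -(s • x) := eq_neg_of_add_eq_zero_right hst
      rw [neg_smul, mul_smul, ← smul_neg, ← h1, smul_smul, inv_mul_cancel₀ ht, one_smul]
    subst ht
    rw [zero_smul, add_zero] at hst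
    exact ⟨(smul_eq_zero.mp hst).resolve_right hx0, rfl⟩
  have hmem : ∀ t ∈ Ks (ofCfg 𝒟) c0 c1, fam L' t ∈ Ks (ofCfg (bcC 𝒟 L')) c0 c1 := by
    intro t ht
    rw [Ks_ofCfg (good_bcC h.good)]
    rw [Ks_ofCfg h.good] at ht
    exact fam_mem_Ks h.good ht
  let n : Conn 𝒟.q := cnZero 𝒟.q
  have hn : (ofCfg 𝒟).IsX n := fun s i v _ => zero_mem _
  have hdn : ∀ a, d (algebraMap L L' a) = algebraMap L L' (n.d a) := by
    intro a
    rw [hd0]
    show (0 : L') = algebraMap L L' 0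
    rw [map_zero]
  let c := bcConn n d hd hdn
  have hd1 : d 1 = 0 := by
    have := hd 1 1
    simpa using this
  have hδ : ∀ v : V, c.δ ((1 : L') ⊗ₜ[L] v) = 0 := by
    intro v
    show d 1 ⊗ₜ[L] v + (1 : L') ⊗ₜ[L] (0 : V) = _
    rw [hd1, zero_tmul, tmul_zero, add_zero]
  refine ⟨fam L' x + τ • fam L' y, Submodule.add_mem _ (hmem x hx)
    (Submodule.smul_mem _ _ (hmem y hy)), c, ⟨isX_bc hn d hd hdn, fun l k => hd0 _⟩,
    fun μ hμ => ?_⟩
  have h1 : (fun l => c.δ ((fam (L := L) L' x + τ • fam (L := L) L' y) l)) =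
      fam (L := L) L' y := by
    funext l
    rw [Pi.add_apply, Pi.smul_apply, map_add, c.smul]
    show c.δ ((1 : L') ⊗ₜ[L] x l) + (d τ • ((1 : L') ⊗ₜ[L] y l) +
      τ • c.δ ((1 : L') ⊗ₜ[L] y l)) = _
    rw [hδ, hδ, hdτ, one_smul, smul_zero, add_zero, zero_add]
    rfl
  rw [h1] at hμ
  have h2 := fam_indep hxy (L' := L') μ (μ * τ - 1) (by
    have e1 : μ • fam (L := L) L' x + (μ * τ - 1) • fam (L := L) L' y =
        μ • (fam (L := L) L' x + τ • fam (L := L) L' y) - fam (L := L) L' y := by module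
    rw [e1, ← hμ, sub_self])
  rw [h2.1, zero_mul, zero_sub] at h2
  exact one_ne_zero (neg_eq_zero.mp h2.2)

/-- connections of `D0` preserve the special kernel -/
theorem D0_Ks {L V J : Type*} [Field L] [AddCommGroup V] [Module L V] [Fintype J]
    {a : H96.Cf L V J (Fin 3)} {c0 c1 : J} (h : a.Good) {c : Conn a.q} (hc : a.IsD0 c)
    {x : J → V} (hx : x ∈ Ks a c0 c1) : (fun l => c.δ (x l)) ∈ Ks a c0 c1 := by
  refine mem_Ks.mpr ⟨h.D0_K hc (Ks_le hx), ?_⟩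
  have h1 : UM a c0 c1 x = 0 := (mem_Ks.mp hx).2
  have hd : ∀ l, c.d (uu a c0 c1 l) = 0 := fun l => by
    rw [uu]
    split_ifs
    · exact hc.2 _ _
    · exact hc.2 _ _
  have h2 := congrArg c.δ h1
  rw [UM_apply, map_sum, map_zero] at h2
  rw [UM_apply, ← h2]
  exact Finset.sum_congr rfl fun l _ => by rw [c.smul, hd, zero_smul, zero_add]

theorem hmov_s {L V J : Type*} [Field L] [AddCommGroup V] [Module L V] [Fintype J]
    {a : H96.Cf L V J (Fin 3)} {c0 c1 : J} (h : a.Good) (hK : finrank L (Ks a c0 c1) = 2)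
    {x : J → V} (hx : x ∈ Ks a c0 c1) (hx0 : x ≠ 0) {c : Conn a.q} (hc : a.IsD0 c)
    (hcx : ∀ μ : L, (fun l => c.δ (x l)) ≠ μ • x) {R : Submodule L V} (hxR : ∀ l, x l ∈ R) :
    ∀ y ∈ Ks a c0 c1, ∃ c : Conn a.q, a.IsD0 c ∧ ∀ l, c.δ (x l) - y l ∈ R := by
  intro y hy
  obtain ⟨α, β, hαβ⟩ := H96.exists_coord hK hx (D0_Ks h hc hx) hx0 hcx y hy
  refine ⟨H96.comb (H96.zeroConn a.q) c (-β), H96.Cf.isD0_zero.comb hc _, fun l => ?_⟩
  have h1 : y l = α • x l + β • c.δ (x l) := congrFun hαβ l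
  rw [H96.comb_δ, h1]
  have h2 : (H96.zeroConn a.q).δ (x l) - -β • c.δ (x l) - (α • x l + β • c.δ (x l)) =
      (-α) • x l := by
    have : (H96.zeroConn a.q).δ (x l) = 0 := rfl
    rw [this]
    module
  rw [h2]
  exact R.smul_mem _ (hxR l)

/-- the count over an algebraically closed field -/
theorem HypS.theta_ge (hB : HypB2S.{u, w} J) [IsAlgClosed L] (h : HypS 𝒟 c0 c1) {x : J → V}
    (hx : x ∈ H338.Ks 𝒟 c0 c1) (hx0 : x ≠ 0) {S : Submodule L V} (D : DatKs 𝒟 c0 c1 x S) :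
    1 ≤ thetaS 𝒟 c0 c1 S := by
  have hx' : x ∈ Ks (ofCfg 𝒟) c0 c1 := by rw [Ks_ofCfg h.good]; exact hx
  have hH : ∀ a ∈ Ks (ofCfg 𝒟) c0 c1, ∀ b ∈ Ks (ofCfg 𝒟) c0 c1, ∀ l k,
      (ofCfg 𝒟).q (a l) (b k) = 0 :=
    fun a ha b hb l k => D.dat.iso (H96.Cf.mem_E.mp (D.K_le hb) k).2 _
      (H96.Cf.mem_E.mp (D.K_le ha) l).2
  have h4 := theta_ge_s h.spc h.good' h.two h.versal' h.n1s h.dim' hH
    (fun t ht ht0 => h.fa hB hH ht ht0) hx' hx0 D.dat D.K_le (m := 1) D.rad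
  have h5 : thS (ofCfg 𝒟) c0 c1 S = thetaS 𝒟 c0 c1 S := by
    rw [thS, thetaS, H96.θ_ofCfg h.good]
    rfl
  rw [h5] at h4
  have : ((1 : ℕ) : ℤ) = 1 := rfl
  omega

/-- **(R1_s).** If (B2) does not occur then there is no nonzero isotropic element in the special
kernel of a strict versal special configuration with two-dimensional special kernel. -/
theorem HypS.iso_eq_zero (hB : HypB2S.{u, w} J) (h : HypS 𝒟 c0 c1) {w : J → V}
    (hw : w ∈ H338.Ks 𝒟 c0 c1) (hww : ∀ l k, 𝒟.q (w l) (w k) = 0) : w = 0 := by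
  by_contra hw0
  -- a movable element
  obtain ⟨L1, _, _, _, _, x, hx, c, hc, hcx⟩ := h.exists_movable
  have h1 := h.bc L1
  have hH1 : ∀ x ∈ Ks (ofCfg (bcC 𝒟 L1)) c0 c1, ∀ y ∈ Ks (ofCfg (bcC 𝒟 L1)) c0 c1, ∀ l k,
      (ofCfg (bcC 𝒟 L1)).q (x l) (y k) = 0 := fun x hx y hy l k =>
    h1.all_iso hB (fam_mem_Ks h.good hw) (fam_ne_zero hw0) (fun l k => by
      show qbc L1 𝒟.q ((1 : L1) ⊗ₜ[L] w l) ((1 : L1) ⊗ₜ[L] w k) = 0
      rw [qbc_one, hww, map_zero]) hx hy l k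
  have hx0 : x ≠ 0 := by
    rintro rfl
    apply hcx 0
    funext l
    simp
  have hx' : x ∈ H338.Ks (bcC 𝒟 L1) c0 c1 := by rw [← Ks_ofCfg h1.good]; exact hx
  have hver := h1.versal_of_not hx' (hH1 x hx x hx) fun y hy b _ _ =>
    hmov_s h1.good' h1.dim' hx hx0 hc hcx
      (R := Submodule.span L1 (Set.range x))
      (fun l => Submodule.subset_span (Set.mem_range_self l)) y hy
  obtain ⟨L2, _, _, _, S, D⟩ := h1.alt hB hx' hx0 (hH1 x hx x hx) hver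
  -- the algebraic closure
  have h2 := h1.bc L2
  have hc3 : CharZero (AlgebraicClosure L2) := H258.charZero_ext (L := L2) _
  have h3 := h2.bc (AlgebraicClosure L2)
  have D3 := D.bc h2.good h2.spc.ne (AlgebraicClosure L2)
  have hx2 : fam L2 x ∈ H338.Ks (bcC (bcC 𝒟 L1) L2) c0 c1 := fam_mem_Ks h1.good hx'
  have hx3 := fam_mem_Ks (L' := AlgebraicClosure L2) h2.good hx2
  have hx30 := fam_ne_zero (L := L2) (L' := AlgebraicClosure L2)
    (fam_ne_zero (L := L1) (L' := L2) hx0)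
  have h4 := h3.theta_ge hB hx3 hx30 D3
  -- strictness
  have hS : (bcC (bcC (bcC 𝒟 L1) L2) (AlgebraicClosure L2)).Iso
      (S.baseChange (AlgebraicClosure L2)) := by
    have := D3.dat.iso
    rw [Cfg.Iso, ← pp_eq h3.good.form]
    exact this
  have hS0 : S.baseChange (AlgebraicClosure L2) ≠ ⊥ := by
    intro h0
    apply hx30
    funext l
    have h5 : fam (AlgebraicClosure L2) (fam L2 x) l ∈ S.baseChange (AlgebraicClosure L2) :=
      D3.dat.le (Submodule.subset_span (Set.mem_range_self l))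
    rw [h0, Submodule.mem_bot] at h5
    exact h5
  have h5 := h2.strict (AlgebraicClosure L2) _ hS hS0
  omega

end main

end Vale.Agent.P182.H588.SP
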