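import Vale.Agent.P182.H983.GDef
import Vale.Agent.P182.H746.Twist
import Vale.Agent.P182.H55.NullU

/-!
# The two-parameter base `x t + y t'` of a glued core

Off finitely many lines `(x, y)` the stable image of `x t + y t'` is again `W`, and the operators
commuting with its residues modulo `I` commute with the residues of `t` modulo `I`.
-/

namespace Vale.Agent.P182.SPIN.BaseW

open Module Matrix Vale.Agent.P182.H533 Vale.Agent.P182.B1 Vale.Agent.P182.H922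
  Vale.Agent.P182.H578 Vale.Agent.P182.H588 Vale.Agent.P182.H181 Vale.Agent.P182.H983

universe u v w

variable {L : Type u} {V : Type v} {J : Type w} [Field L] [AddCommGroup V] [Module L V]
  [FiniteDimensional L V] [Fintype J] [DecidableEq J] {𝒟 : Cfg L V J} {u : J → L} {t t' : J → V}
  {W I : Submodule L V} {n : ℕ} {U : Fin n → Submodule L V} {d : Fin n → L} {p : Fin 3 → ℕ}

section blk

variable (hC : Ctx 𝒟 u) (hB : Blk 𝒟 u t t' W I U d p)

include hB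

theorem tm_mem (x y : L) : tm t t' x y ∈ Ku 𝒟 u :=
  Submodule.add_mem _ (Submodule.smul_mem _ _ hB.ht) (Submodule.smul_mem _ _ hB.ht')

theorem Uk_le (k : Fin n) : U k ≤ W := by
  rw [← hB.supU]; exact le_iSup U k

theorem stab {k : Fin n} {w : V} (hw : w ∈ U k) (a : Fin 3) : Res 𝒟 t a w ∈ U k := by
  have : Res 𝒟 t a w ∈ ⨆ a, (U k).map (Res 𝒟 t a) :=
    Submodule.mem_iSup_of_mem a (Submodule.mem_map_of_mem hw)
  rwa [hB.sumU] at this

/-- `opr r G t'` on a block -/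
theorem opr_t' {k : Fin n} {w : V} (hw : w ∈ U k) (r : (J → L) →ₗ[L] V) (a : Fin 3) :
    opr 𝒟.q r (Gm 𝒟.arm 𝒟.Ω a) (Tt L t') w = d k • opr 𝒟.q r (Gm 𝒟.arm 𝒟.Ω a) (Tt L t) w := by
  have h1 : ad 𝒟.q (Tt L t') w = d k • ad 𝒟.q (Tt L t) w := by
    funext l
    rw [ad_apply, Pi.smul_apply, ad_apply, Tt_single, Tt_single, smul_eq_mul]
    exact hB.star k w hw l
  rw [opr_apply, opr_apply, h1, Matrix.mulVec_smul, map_smul]

/-- `opr r G (x t + y t')` on a block -/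
theorem opr_tm {k : Fin n} {w : V} (hw : w ∈ U k) (r : (J → L) →ₗ[L] V) (x y : L) (a : Fin 3) :
    opr 𝒟.q r (Gm 𝒟.arm 𝒟.Ω a) (Tt L (tm t t' x y)) w =
      (x + y * d k) • opr 𝒟.q r (Gm 𝒟.arm 𝒟.Ω a) (Tt L t) w := by
  have e1 : Tt L (tm t t' x y) = x • Tt L t + y • Tt L t' := by
    rw [tm, Tt_add, Tt_smul, Tt_smul]
  rw [e1, opr_add_right, opr_smul_right, opr_smul_right, LinearMap.add_apply,
    LinearMap.smul_apply, LinearMap.smul_apply, opr_t' hB hw, smul_smul, ← add_smul]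

/-- `q w (x t + y t')` on a block -/
theorem q_tm (hq : IsForm 𝒟.q) {k : Fin n} {w : V} (hw : w ∈ U k) (x y : L) (l : J) :
    𝒟.q w (tm t t' x y l) = (x + y * d k) * 𝒟.q w (t l) := by
  have h1 := hB.star k w hw l
  rw [hq.symm (t' l), hq.symm (t l)] at h1
  rw [tm, Pi.add_apply, Pi.smul_apply, Pi.smul_apply, map_add, map_smul, map_smul, h1,
    smul_eq_mul, smul_eq_mul]
  ring

include hC

theorem rel : Rel 𝒟 t t' := _root_.Vale.Agent.P182.H578.U.rel_of_krel hC.krel hB.ht hB.ht'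

/-- **The residues of `x t + y t'` on a block.** -/
theorem res_tm {k : Fin n} {w : V} (hw : w ∈ U k) (x y : L) (a : Fin 3) :
    Res 𝒟 (tm t t' x y) a w = (x + y * d k) ^ 2 • Res 𝒟 t a w := by
  show opr 𝒟.q (Tt L (tm t t' x y)) (Gm 𝒟.arm 𝒟.Ω a) (Tt L (tm t t' x y)) w = _
  have e1 : Tt L (tm t t' x y) = x • Tt L t + y • Tt L t' := by
    rw [tm, Tt_add, Tt_smul, Tt_smul]
  have e2 : opr 𝒟.q (Tt L t') (Gm 𝒟.arm 𝒟.Ω a) (Tt L t) w = d k • Res 𝒟 t a w := by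
    rw [← (rel hC hB).swap hC.good a, opr_t' hB hw]
    rfl
  rw [opr_tm hB hw, e1, opr_add_left, opr_smul_left, opr_smul_left, LinearMap.add_apply,
    LinearMap.smul_apply, LinearMap.smul_apply, e2]
  change (x + y * d k) • (x • Res 𝒟 t a w + y • d k • Res 𝒟 t a w) = _
  module

theorem sumU_tm {x y : L} (hu : ∀ k, x + y * d k ≠ 0) (k : Fin n) :
    ⨆ a, (U k).map (Res 𝒟 (tm t t' x y) a) = U k := by
  conv_rhs => rw [← hB.sumU k]
  refine iSup_congr fun a => le_antisymm ?_ ?_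
  · rintro _ ⟨w, hw, rfl⟩
    rw [res_tm hC hB hw]
    exact Submodule.smul_mem _ _ (Submodule.mem_map_of_mem hw)
  · rintro _ ⟨w, hw, rfl⟩
    refine ⟨((x + y * d k) ^ 2)⁻¹ • w, Submodule.smul_mem _ _ hw, ?_⟩
    rw [res_tm hC hB (Submodule.smul_mem _ _ hw), map_smul, smul_smul,
      mul_inv_cancel₀ (pow_ne_zero 2 (hu k)), one_smul]

theorem sumW_tm {x y : L} (hu : ∀ k, x + y * d k ≠ 0) :
    ⨆ a, W.map (Res 𝒟 (tm t t' x y) a) = W := by
  have h1 : ∀ a, W.map (Res 𝒟 (tm t t' x y) a) = ⨆ k, (U k).map (Res 𝒟 (tm t t' x y) a) := by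
    intro a
    conv_lhs => rw [← hB.supU]
    rw [Submodule.map_iSup]
  rw [iSup_congr h1, iSup_comm]
  conv_rhs => rw [← hB.supU]
  exact iSup_congr fun k => sumU_tm hC hB hu k

theorem map_W_tm {x y : L} (a : Fin 3) {w : V} (hw : w ∈ W) :
    Res 𝒟 (tm t t' x y) a w ∈ W := by
  rw [← hB.supU] at hw
  refine Submodule.iSup_induction U (motive := fun w => Res 𝒟 (tm t t' x y) a w ∈ W) hw
    (fun k w hw => ?_) (by rw [map_zero]; exact zero_mem _) fun v w hv hw => by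
      rw [map_add]; exact add_mem hv hw
  rw [res_tm hC hB hw]
  exact Submodule.smul_mem _ _ (Uk_le hB k (stab hB hw a))

theorem W_le_words_tm {x y : L} (hu : ∀ k, x + y * d k ≠ 0) (m : ℕ) :
    W ≤ words (Res 𝒟 (tm t t' x y)) m := by
  have h1 := sumW_tm hC hB hu
  induction m with
  | zero => exact le_top
  | succ m ih =>
    rw [words_succ]
    conv_lhs => rw [← h1]
    exact iSup_mono fun s => Submodule.map_mono ih

end blk

section core

variable (hC : Ctx 𝒟 u) (C : Core 𝒟.q (Res 𝒟 t))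
  (hB : Blk 𝒟 u t t' C.W C.I U d p)

include hC hB

/-- **The stable image of `x t + y t'` is `W`**, by maximality. -/
theorem nil_tm {x y : L} (hu : ∀ k, x + y * d k ≠ 0)
    (hmax : ∀ C' : Core 𝒟.q (Res 𝒟 (tm t t' x y)), finrank L C'.V1 ≤ finrank L C.V1) :
    ∃ N, words (Res 𝒟 (tm t t' x y)) N ≤ C.W := by
  have hG := hC.good
  have hq := hG.form
  have hSA : ∀ s, IsSA 𝒟.q (Res 𝒟 (tm t t' x y) s) :=
    Sop_SA 𝒟.arm hq (Tt L (tm t t' x y)) hG.skew
  obtain ⟨C'⟩ := exists_core 𝒟.q (Res 𝒟 (tm t t' x y))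
  have hWW : C.W ≤ C'.W := by
    rw [C'.hN]
    exact W_le_words_tm hC hB hu _
  have hV1 : ∀ v : C.V1, (v : V) ∈ C'.W := fun v => hWW (C.V1_le v.2)
  set g : C.V1 →ₗ[L] C'.V1 := C'.P hq ∘ₗ C.V1.subtype with hg
  have hginj : Function.Injective g := by
    rw [← LinearMap.ker_eq_bot, LinearMap.ker_eq_bot']
    intro v hv
    apply (C.isForm hq).nondeg
    intro w
    have h1 := C'.sub_P_mem_I hq (hV1 v)
    have h2 : C'.P hq (v : V) = 0 := hv
    rw [h2, Submodule.coe_zero, sub_zero] at h1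
    exact h1.2 _ (hV1 w)
  have hgsurj : Function.Surjective g := by
    have h1 : finrank L C.V1 = finrank L C'.V1 :=
      le_antisymm (LinearMap.finrank_le_finrank_of_injective hginj) (hmax C')
    exact (LinearMap.injective_iff_surjective_of_finrank_eq_finrank h1).mp hginj
  refine ⟨C'.N, ?_⟩
  rw [← C'.hN]
  refine H55.W_le_of hq hSA C' (fun s v hv => map_W_tm hC hB s hv) fun w hw => ?_
  obtain ⟨v, hv⟩ := hgsurj (C'.P hq w)
  have h1 := C'.sub_P_mem_I hq hw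
  have h2 := C'.sub_P_mem_I hq (hV1 v)
  have h3 : C'.P hq (v : V) = C'.P hq w := hv
  have h4 : w - v ∈ perp 𝒟.q C'.W := by
    have h5 := Submodule.sub_mem _ h1 h2
    rw [h3, sub_sub_sub_cancel_right] at h5
    exact h5.2
  have h6 : (v : V) + (w - v) = w := by abel
  rw [← h6]
  exact Submodule.add_mem_sup (C.V1_le v.2) h4

/-- the core of `x t + y t'` -/
noncomputable def coreT {x y : L} (hu : ∀ k, x + y * d k ≠ 0)
    (hn : ∃ N, words (Res 𝒟 (tm t t' x y)) N ≤ C.W) : Core 𝒟.q (Res 𝒟 (tm t t' x y)) where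
  N := hn.choose
  W := C.W
  hN := le_antisymm (W_le_words_tm hC hB hu _) hn.choose_spec
  hW := sumW_tm hC hB hu
  V1 := C.V1
  sup := C.sup
  disj := C.disj

@[simp] theorem coreT_W {x y : L} (hu : ∀ k, x + y * d k ≠ 0)
    (hn : ∃ N, words (Res 𝒟 (tm t t' x y)) N ≤ C.W) : (coreT hC C hB hu hn).W = C.W := rfl

@[simp] theorem coreT_I {x y : L} (hu : ∀ k, x + y * d k ≠ 0)
    (hn : ∃ N, words (Res 𝒟 (tm t t' x y)) N ≤ C.W) : (coreT hC C hB hu hn).I = C.I := rfl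

@[simp] theorem coreT_V1 {x y : L} (hu : ∀ k, x + y * d k ≠ 0)
    (hn : ∃ N, words (Res 𝒟 (tm t t' x y)) N ≤ C.W) : (coreT hC C hB hu hn).V1 = C.V1 := rfl

variable {D : End L C.V1}
  (hD1 : ∀ s, C.res hC.good.form (opr 𝒟.q (Tt L t) (Gm 𝒟.arm 𝒟.Ω s) (Tt L t')) =
    C.S1 hC.good.form s * D)

include hD1

/-- `D` on the blocks -/
theorem D_P {k : Fin n} {w : V} (hw : w ∈ U k) :
    D (C.P hC.good.form w) = d k • C.P hC.good.form w := by
  have hG := hC.good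
  have hq := hG.form
  have hSA : ∀ s, IsSA 𝒟.q (Res 𝒟 t s) := Sop_SA 𝒟.arm hq (Tt L t) hG.skew
  have hwW := Uk_le hB k hw
  have hc := compat_of_rel hG (rel hC hB)
  have key : ∀ a, C.S1 hq a (D (C.P hq w) - d k • C.P hq w) = 0 := by
    intro a
    have h1 := C.P_eq_zero hq (hc.map_perp C a (C.I_le_perp (C.sub_P_mem_I hq hwW)))
    rw [map_sub, map_sub, sub_eq_zero] at h1
    have h2 : C.S1 hq a (D (C.P hq w)) =
        C.P hq (opr 𝒟.q (Tt L t) (Gm 𝒟.arm 𝒟.Ω a) (Tt L t') (C.P hq w)) := by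
      rw [← C.res_apply, hD1]
      rfl
    rw [map_sub, h2, ← h1, hB.op k a w hw, map_smul, map_smul,
      C.P_S hq hSA a (C.W_le_perp hq hwW), sub_self]
  rw [← sub_eq_zero]
  apply (C.isForm hq).nondeg
  intro v
  have hv : v ∈ ⨆ s, LinearMap.range (C.S1 hq s) := by
    rw [C.S1_span hq hSA]; trivial
  refine Submodule.iSup_induction (fun s => LinearMap.range (C.S1 hq s))
    (motive := fun v => C.q1 (D (C.P hq w) - d k • C.P hq w) v = 0) hv ?_ ?_ ?_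
  · rintro s _ ⟨v, rfl⟩
    rw [← C.S1_SA hq hSA s, key, map_zero, LinearMap.zero_apply]
  · rw [map_zero]
  · intro x y hx hy
    rw [map_add, hx, hy, add_zero]

/-- the residues of `x t + y t'` modulo `I` -/
theorem P_res_tm (x y : L) (a : Fin 3) {w : V} (hw : w ∈ C.W) :
    C.P hC.good.form (Res 𝒟 (tm t t' x y) a w) =
      ((x • (1 : End L C.V1) + y • D) ^ 2 * C.S1 hC.good.form a) (C.P hC.good.form w) := by
  have hG := hC.good
  have hq := hG.form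
  have hSA : ∀ s, IsSA 𝒟.q (Res 𝒟 t s) := Sop_SA 𝒟.arm hq (Tt L t) hG.skew
  have hw' : w ∈ ⨆ k, U k := by rw [hB.supU]; exact hw
  refine Submodule.iSup_induction U (motive := fun w =>
    C.P hC.good.form (Res 𝒟 (tm t t' x y) a w) =
      ((x • (1 : End L C.V1) + y • D) ^ 2 * C.S1 hC.good.form a) (C.P hC.good.form w)) hw'
    (fun k w hw => ?_) (by simp only [map_zero]) fun v w hv hw => by
      simp only [map_add] at hv hw ⊢; rw [hv, hw]
  have h1 := stab hB hw a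
  have h2 : ∀ z ∈ U k, (x • (1 : End L C.V1) + y • D) (C.P hq z) =
      (x + y * d k) • C.P hq z := by
    intro z hz
    rw [LinearMap.add_apply, LinearMap.smul_apply, LinearMap.smul_apply, Module.End.one_apply,
      D_P hC C hB hD1 hz, smul_smul, ← add_smul]
  have h3 : C.S1 hq a (C.P hq w) = C.P hq (Res 𝒟 t a w) :=
    (C.P_S hq hSA a (C.W_le_perp hq (Uk_le hB k hw))).symm
  rw [res_tm hC hB hw, map_smul, Module.End.mul_apply, pow_two (x • (1 : End L C.V1) + y • D),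
    Module.End.mul_apply, h3, h2 _ h1, map_smul, h2 _ h1, smul_smul, ← pow_two]

/-- `S₁` at the base `x t + y t'` -/
theorem S1_coreT {x y : L} (hu : ∀ k, x + y * d k ≠ 0)
    (hn : ∃ N, words (Res 𝒟 (tm t t' x y)) N ≤ C.W) (a : Fin 3) :
    (coreT hC C hB hu hn).S1 hC.good.form a =
      (x • (1 : End L C.V1) + y • D) ^ 2 * C.S1 hC.good.form a := by
  refine LinearMap.ext fun (v : C.V1) => ?_
  have h1 := P_res_tm hC C hB hD1 x y a (C.V1_le v.2)
  rw [C.P_coe] at h1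
  exact h1

/-- **Centrality off finitely many lines**: an operator commuting with the residues of `x t + y t'`
modulo `I` commutes with the residues of `t` modulo `I`. -/
theorem cen_tm (hD2 : ∀ s, C.res hC.good.form
      (opr 𝒟.q (Tt L t) (Gm 𝒟.arm 𝒟.Ω s) (Tt L t')) = D * C.S1 hC.good.form s)
    (hDs : IsSA C.q1 D) (hS : H89.StructS C.q1 (C.S1 hC.good.form)) :
    ∃ B : Set (L × L), B.Finite ∧ (∀ b ∈ B, b ≠ 0) ∧ ∀ x y : L,
      (∀ b ∈ B, b.1 * x + b.2 * y ≠ 0) → (∀ k, x + y * d k ≠ 0) ∧ ∀ M : End L V,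
        (∀ w ∈ C.W, M w ∈ C.W) → (∀ w ∈ C.I, M w ∈ C.I) →
        (∀ a, ∀ w ∈ C.W, M (Res 𝒟 (tm t t' x y) a w) - Res 𝒟 (tm t t' x y) a (M w) ∈ C.I) →
        ∀ a, ∀ w ∈ C.W, M (Res 𝒟 t a w) - Res 𝒟 t a (M w) ∈ C.I := by
  have hG := hC.good
  have hq := hG.form
  have hSA : ∀ s, IsSA 𝒟.q (Res 𝒟 t s) := Sop_SA 𝒟.arm hq (Tt L t) hG.skew
  have hDc : ∀ s, D * C.S1 hq s = C.S1 hq s * D := fun s => by rw [← hD2, ← hD1]
  obtain ⟨⟨m, e, hes, hec, hem, he1, hspan⟩, -⟩ := hS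
  obtain ⟨κ, hκ⟩ := hspan D hDs hDc
  obtain ⟨n', P, d', hPS, hPc, hPP, hP1, hP0, hd, hDP⟩ := H55.group_idem hes hec hem he1 hκ
  have hDiag : Diag D P d' := ⟨fun i => by rw [hPP, if_pos rfl],
    fun i j hij => by rw [hPP, if_neg hij], hP1, hd, hDP⟩
  have hker : ∀ v : C.V1, (∀ a, C.S1 hq a v = 0) → v = 0 := by
    intro v hv
    apply (C.isForm hq).nondeg
    intro w
    have hw : w ∈ ⨆ s, LinearMap.range (C.S1 hq s) := by
      rw [C.S1_span hq hSA]; trivial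
    refine Submodule.iSup_induction (fun s => LinearMap.range (C.S1 hq s))
      (motive := fun w => C.q1 v w = 0) hw ?_ ?_ ?_
    · rintro s _ ⟨w, rfl⟩
      rw [← C.S1_SA hq hSA s, hv, map_zero, LinearMap.zero_apply]
    · rw [map_zero]
    · intro x y hx hy
      rw [map_add, hx, hy, add_zero]
  obtain ⟨B, hBf, hB0, hBc⟩ := H746.central_lines hker hDiag hPc
  refine ⟨B ∪ Set.range fun k : Fin n => ((1 : L), d k), hBf.union (Set.finite_range _), ?_, ?_⟩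
  · rintro b (hb | ⟨k, rfl⟩)
    · exact hB0 b hb
    · exact fun h => one_ne_zero (congrArg Prod.fst h)
  intro x y hxy
  refine ⟨fun k h0 => hxy (1, d k) (Or.inr ⟨k, rfl⟩) (by rw [← h0]; ring), ?_⟩
  intro M hMW hMI hMc
  obtain ⟨-, hunit, hcen⟩ := hBc x y fun b hb => hxy b (Or.inl hb)
  set M1 : End L C.V1 := C.res hq M with hM1
  set g : End L C.V1 := x • 1 + y • D with hg
  -- `P M = M1 P` on `W`
  have hPM : ∀ w ∈ C.W, C.P hq (M w) = M1 (C.P hq w) := by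
    intro w hw
    rw [hM1, C.res_apply, ← sub_eq_zero, ← map_sub, ← map_sub]
    exact C.P_eq_zero hq (C.I_le_perp (hMI _ (C.sub_P_mem_I hq hw)))
  have hcomm : ∀ a, M1 * (g ^ 2 * C.S1 hq a) = g ^ 2 * C.S1 hq a * M1 := by
    intro a
    refine LinearMap.ext fun v => ?_
    have hv := C.V1_le v.2
    have h1 := C.P_eq_zero hq (C.I_le_perp (hMc a v hv))
    rw [map_sub, sub_eq_zero, hPM _ (map_W_tm hC hB a hv), P_res_tm hC C hB hD1 x y a hv,
      P_res_tm hC C hB hD1 x y a (hMW _ hv), hPM _ hv, C.P_coe] at h1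
    exact h1
  have hMD := hcen M1 hcomm
  have hMg : Commute M1 (g ^ 2) := by
    have h1 : Commute M1 g := ((Commute.one_right M1).smul_right x).add_right
      (Commute.smul_right hMD y)
    exact h1.pow_right 2
  have hMS : ∀ a, M1 * C.S1 hq a = C.S1 hq a * M1 := by
    intro a
    apply (hunit.pow 2).mul_left_cancel
    have h1 := hcomm a
    rw [← mul_assoc, hMg.eq, mul_assoc] at h1
    rw [h1, mul_assoc]
  intro a w hw
  have h1 : M (Res 𝒟 t a w) - Res 𝒟 t a (M w) ∈ C.W :=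
    sub_mem (hMW _ (C.map_W hw)) (C.map_W (hMW _ hw))
  have h2 : C.P hq (M (Res 𝒟 t a w) - Res 𝒟 t a (M w)) = 0 := by
    rw [map_sub, hPM _ (C.map_W hw), C.P_S hq hSA a (C.W_le_perp hq hw),
      C.P_S hq hSA a (C.W_le_perp hq (hMW _ hw)), hPM _ hw, ← Module.End.mul_apply,
      ← Module.End.mul_apply, hMS, sub_self]
  have h3 := C.sub_P_mem_I hq h1
  rwa [h2, Submodule.coe_zero, sub_zero] at h3

end core

/-- good parameters `(x, y)` -/
structure GoodT (𝒟 : Cfg L V J) (t t' : J → V) (W I : Submodule L V) {n : ℕ}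
    (U : Fin n → Submodule L V) (d : Fin n → L) (x y : L) : Prop where
  ne : ∀ k, x + y * d k ≠ 0
  /-- the stable image of `x t + y t'` is `W` -/
  nil : ∃ N, words (Res 𝒟 (tm t t' x y)) N ≤ W
  /-- centrality -/
  cen : ∀ M : End L V, (∀ w ∈ W, M w ∈ W) → (∀ w ∈ I, M w ∈ I) →
    (∀ a, ∀ w ∈ W, M (Res 𝒟 (tm t t' x y) a w) - Res 𝒟 (tm t t' x y) a (M w) ∈ I) →
    ∀ a, ∀ w ∈ W, M (Res 𝒟 t a w) - Res 𝒟 t a (M w) ∈ I
  /-- self-adjoint commuting operators are scalars on the blocks -/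
  scal : ∀ M : End L V, (∀ w ∈ W, M w ∈ W) → (∀ w ∈ I, M w ∈ I) →
    (∀ v ∈ W, ∀ w ∈ W, 𝒟.q (M v) w = 𝒟.q v (M w)) →
    (∀ a, ∀ w ∈ W, M (Res 𝒟 (tm t t' x y) a w) - Res 𝒟 (tm t t' x y) a (M w) ∈ I) →
    ∃ c : Fin n → L, ∀ k, ∀ w ∈ U k, M w - c k • w ∈ I

/-- **Almost all parameters are good.** -/
theorem exists_goodT (hC : Ctx 𝒟 u) (hmax : MaxCoreU 𝒟 u t) (C : Core 𝒟.q (Res 𝒟 t))
    (hB : Blk 𝒟 u t t' C.W C.I U d p) {D : End L C.V1}
    (hD1 : ∀ s, C.res hC.good.form (opr 𝒟.q (Tt L t) (Gm 𝒟.arm 𝒟.Ω s) (Tt L t')) =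
      C.S1 hC.good.form s * D)
    (hD2 : ∀ s, C.res hC.good.form (opr 𝒟.q (Tt L t) (Gm 𝒟.arm 𝒟.Ω s) (Tt L t')) =
      D * C.S1 hC.good.form s)
    (hDs : IsSA C.q1 D) (hS : H89.StructS C.q1 (C.S1 hC.good.form)) :
    ∃ B : Set (L × L), B.Finite ∧ (∀ b ∈ B, b ≠ 0) ∧ ∀ x y : L,
      (∀ b ∈ B, b.1 * x + b.2 * y ≠ 0) → GoodT 𝒟 t t' C.W C.I U d x y := by
  obtain ⟨B, hB1, hB2, hB3⟩ := cen_tm hC C hB hD1 hD2 hDs hS
  refine ⟨B, hB1, hB2, fun x y hxy => ?_⟩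
  obtain ⟨hu, hc⟩ := hB3 x y hxy
  exact ⟨hu, nil_tm hC C hB hu fun C' => hmax.2 _ (tm_mem hB x y) C C', hc,
    fun M h1 h2 h3 h4 => hB.scal M h1 h2 h3 (hc M h1 h2 h4)⟩

end Vale.Agent.P182.SPIN.BaseW
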