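import Vale.Agent.P182.H532.Pres
import Vale.Agent.P182.H578.Der

/-!
# Generalised surjectivity, second part: operators with values in the core

For self-adjoint `β_s` with values in `C.W`, `∑ [S_s, β_s] = 0` and `β_s` commuting with `S_s` on
the core, the hypotheses `hn` and `htr` of `gsurj` are satisfied.
-/

namespace Vale.Agent.P182.SPIN

open Module Matrix Vale.Agent.P182.H533 Vale.Agent.P182.B1 Vale.Agent.P182.H922
  Vale.Agent.P182.H578

section trace

variable {L V : Type*} [Field L] [AddCommGroup V] [Module L V] [FiniteDimensional L V]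
  {q : V →ₗ[L] V →ₗ[L] L} {S : Fin 3 → End L V}

omit [FiniteDimensional L V] in
/-- a self-adjoint operator with values in `W` kills the orthogonal space -/
theorem kills_perp (hq : IsForm q) {β : End L V} (hβ : IsSA q β) {W : Submodule L V}
    (hW : ∀ v, β v ∈ W) {v : V} (hv : v ∈ perp q W) : β v = 0 := by
  apply hq.nondeg
  intro w
  rw [hβ]
  exact hv _ (hW w)

/-- the trace of an operator with values in `W` which kills the radical -/
theorem trace_W (hq : IsForm q) (C : Core q S) {f : End L V} (h1 : ∀ v, f v ∈ C.W)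
    (h2 : ∀ v ∈ C.I, f v = 0) : LinearMap.trace L V f = LinearMap.trace L C.V1 (C.res hq f) := by
  set e : End L V := C.V1.subtype ∘ₗ C.P hq with he
  have e1 : f = (f ∘ₗ C.V1.subtype) ∘ₗ C.P hq + f * (1 - e) := by
    refine LinearMap.ext fun v => ?_
    rw [LinearMap.add_apply, Module.End.mul_apply, LinearMap.sub_apply, map_sub,
      Module.End.one_apply]
    show f v = f (e v) + (f v - f (e v))
    abel
  have e2 : LinearMap.trace L V (f * (1 - e)) = 0 := by
    refine (LinearMap.isNilpotent_trace_of_isNilpotent ⟨2, ?_⟩).eq_zero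
    refine LinearMap.ext fun v => ?_
    rw [sq, Module.End.mul_apply, Module.End.mul_apply, LinearMap.zero_apply]
    exact h2 _ (C.sub_P_mem_I hq (h1 _))
  conv_lhs => rw [e1]
  rw [map_add, e2, add_zero, LinearMap.trace_comp_comm']
  rfl

/-- the trace of a product -/
theorem trace_W_mul (hq : IsForm q) (C : Core q S) {β B : End L V} (hβ : IsSA q β)
    (hβW : ∀ v, β v ∈ C.W) (hB : ∀ v ∈ C.W, B v ∈ C.W) (hB' : ∀ v ∈ perp q C.W, B v ∈ perp q C.W) :
    LinearMap.trace L V (β * B) = LinearMap.trace L C.V1 (C.res hq β * C.res hq B) := by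
  rw [trace_W hq C (f := β * B) (fun v => hβW _) fun v hv =>
    kills_perp hq hβ hβW (hB' v (C.I_le_perp hv))]
  congr 1
  exact C.res_mul hq (fun v hv => by rw [kills_perp hq hβ hβW hv]; exact zero_mem _)
    fun w hw => C.W_le_perp hq (hB w hw)

end trace

section main

variable {L V J : Type*} [Field L] [AddCommGroup V] [Module L V] [FiniteDimensional L V]
  [Fintype J] [DecidableEq J] {𝒟 : Cfg L V J} {t : J → V}

/-- the pairing as a trace -/
theorem pair_brk (hG : 𝒟.Good) (n : H533.Conn 𝒟.q) (s : Fin 3) {β : End L V}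
    (hβ : IsSA 𝒟.q β) :
    (2 : L) * ∑ l with 𝒟.arm l = s,
      (𝒟.q (n.δ (𝒟.om t l)) (β (t l)) + 𝒟.q (n.δ (t l)) (β (𝒟.om t l))) =
      LinearMap.trace L V (β * brk n (Res 𝒟 t s)) := by
  have h3 : brk n (Res 𝒟 t s) = ∑ l with 𝒟.arm l = s,
      ((𝒟.q (n.δ (𝒟.om t l))).smulRight (t l) + (𝒟.q (𝒟.om t l)).smulRight (n.δ (t l)) +
        ((𝒟.q (n.δ (t l))).smulRight (𝒟.om t l) + (𝒟.q (t l)).smulRight (n.δ (𝒟.om t l)))) := by
    apply LinearMap.ext
    intro v
    rw [brk_apply, Res_apply 𝒟 hG.skew, Res_apply 𝒟 hG.skew, map_sum, ← Finset.sum_sub_distrib,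
      LinearMap.sum_apply]
    refine Finset.sum_congr rfl fun l _ => ?_
    rw [map_add, n.smul, n.smul, n.metric, n.metric]
    simp only [LinearMap.add_apply, LinearMap.smulRight_apply, add_smul]
    abel
  rw [h3, Finset.mul_sum, Finset.mul_sum, map_sum]
  refine Finset.sum_congr rfl fun l _ => ?_
  have e : ∀ a b, 𝒟.q a (β b) = 𝒟.q b (β a) := fun a b => by rw [hG.form.symm, hβ]
  simp only [mul_add, map_add, trace_rank_one]
  rw [e (𝒟.om t l), e (t l)]
  ring

/-- a connection minus a skew operator -/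
def subConn {q : V →ₗ[L] V →ₗ[L] L} (n : H533.Conn q) {Z : End L V} (hZ : IsSk q Z) :
    H533.Conn q where
  d := n.d
  δ := n.δ - Z.toAddMonoidHom
  leib := n.leib
  smul a v := by
    show n.δ (a • v) - Z (a • v) = n.d a • v + a • (n.δ v - Z v)
    rw [n.smul, map_smul, smul_sub]
    abel
  metric u v := by
    show n.d (q u v) = q (n.δ u - Z u) v + q u (n.δ v - Z v)
    rw [n.metric, map_sub, LinearMap.sub_apply, map_sub, hZ]
    ring

omit [FiniteDimensional L V] in
theorem subConn_δ {q : V →ₗ[L] V →ₗ[L] L} (n : H533.Conn q) {Z : End L V} (hZ : IsSk q Z) (v : V) :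
    (subConn n hZ).δ v = n.δ v - Z v := rfl

/-- the core part of the pairing -/
theorem core_pair (h2 : (2 : L) ≠ 0) (hG : 𝒟.Good) (ht : t ∈ 𝒟.K) (C : Core 𝒟.q (Res 𝒟 t))
    (n : H533.Conn 𝒟.q) (hnW : ∀ w ∈ C.W, n.δ w ∈ C.W) (s : Fin 3) {β : End L V}
    (hβ : IsSA 𝒟.q β) (hβW : ∀ v, β v ∈ C.W)
    (hc : C.res hG.form β * C.S1 hG.form s = C.S1 hG.form s * C.res hG.form β) :
    LinearMap.trace L V (β * brk n (Res 𝒟 t s)) = 0 := by
  have hq := hG.form
  have hSA : ∀ a, IsSA 𝒟.q (Res 𝒟 t a) := fun a => Sop_SA 𝒟.arm hq (Tt L t) hG.skew a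
  have hnp : ∀ v ∈ perp 𝒟.q C.W, n.δ v ∈ perp 𝒟.q C.W := by
    intro v hv w hw
    have h1 := n.metric v w
    rw [hv w hw, map_zero, hv _ (hnW w hw), add_zero] at h1
    exact h1.symm
  rw [trace_W_mul hq C hβ hβW (fun v hv => ?_) (fun v hv => ?_)]
  · set n1 := connCore hG C n with hn1
    have e1 : C.res hq (brk n (Res 𝒟 t s)) = brk n1 (C.S1 hq s) := by
      refine LinearMap.ext fun v => ?_
      rw [C.res_apply, brk_apply, brk_apply, map_sub, hn1, connCore_apply, connCore_apply]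
      have h1 : C.P hq (n.δ (Res 𝒟 t s v)) = C.P hq (n.δ (C.S1 hq s v)) := by
        rw [← sub_eq_zero, ← map_sub, ← map_sub]
        apply C.P_eq_zero hq
        have h4 := C.sub_P_mem_I hq (C.map_W (s := s) (C.V1_le v.2))
        exact hnp _ (C.I_le_perp h4)
      have h2 : C.P hq (Res 𝒟 t s (n.δ v)) = C.S1 hq s (C.P hq (n.δ v)) :=
        C.P_S hq hSA s (C.W_le_perp hq (hnW _ (C.V1_le v.2)))
      rw [h1, h2]
    rw [e1]
    have hnil : IsNilpotent (C.S1 hq s) := by
      obtain ⟨m, hm⟩ := nilp_Res hG ht s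
      refine ⟨m, ?_⟩
      have h5 : ∀ k : ℕ, ∀ v : C.V1, (C.S1 hq s ^ k) v = C.P hq ((Res 𝒟 t s ^ k) v) := by
        intro k
        induction k with
        | zero => intro v; exact (C.P_coe hq v).symm
        | succ k ih =>
          intro v
          rw [pow_succ', Module.End.mul_apply, ih, pow_succ' (Res 𝒟 t s), Module.End.mul_apply]
          refine (C.P_S hq hSA s (C.W_le_perp hq ?_)).symm
          have h6 : ∀ k : ℕ, (Res 𝒟 t s ^ k) (v : V) ∈ C.W := by
            intro k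
            induction k with
            | zero => exact C.V1_le v.2
            | succ k ih =>
              rw [pow_succ', Module.End.mul_apply]
              exact C.map_W ih
          exact h6 k
      refine LinearMap.ext fun v => ?_
      rw [h5, hm]
      exact map_zero _
    obtain ⟨Z1, -, hZ1⟩ := exists_comm h2 (C.isForm hq) n1 (C.S1_SA hq hSA s) hnil
    have e2 : brk n1 (C.S1 hq s) = Z1 * C.S1 hq s - C.S1 hq s * Z1 := by
      refine LinearMap.ext fun v => ?_
      rw [brk_apply, hZ1, LinearMap.sub_apply, Module.End.mul_apply, Module.End.mul_apply]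
      abel
    rw [e2, mul_sub, map_sub, ← mul_assoc, LinearMap.trace_mul_comm, ← mul_assoc, ← hc, mul_assoc,
      sub_self]
  · rw [brk_apply]
    exact sub_mem (hnW _ (C.map_W hv)) (C.map_W (hnW _ hv))
  · rw [brk_apply]
    exact sub_mem (hnp _ (C.map_perp hSA hv)) (C.map_perp hSA (hnp _ hv))

/-- **The hypothesis `hn`.** -/
theorem hn_of_W (h2 : (2 : L) ≠ 0) (hG : 𝒟.Good) (ht : t ∈ 𝒟.K) (C : Core 𝒟.q (Res 𝒟 t))
    {β : Fin 3 → End L V} (hβ : ∀ s, IsSA 𝒟.q (β s)) (hβW : ∀ s v, β s v ∈ C.W)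
    (hsum : ∑ s, (Res 𝒟 t s * β s - β s * Res 𝒟 t s) = 0)
    (hc : ∀ s, C.res hG.form (β s) * C.S1 hG.form s = C.S1 hG.form s * C.res hG.form (β s))
    (n : H533.Conn 𝒟.q) :
    ∑ l, (𝒟.q (n.δ (𝒟.om t l)) (β (𝒟.arm l) (t l)) +
      𝒟.q (n.δ (t l)) (β (𝒟.arm l) (𝒟.om t l))) = 0 := by
  have fib : ∀ f : Fin 3 → J → L, ∑ s, ∑ l with 𝒟.arm l = s, f s l = ∑ l, f (𝒟.arm l) l := by
    intro f
    rw [← Finset.sum_fiberwise (s := Finset.univ) (g := 𝒟.arm)]
    refine Finset.sum_congr rfl fun s _ => Finset.sum_congr rfl fun l hl => ?_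
    rw [(Finset.mem_filter.1 hl).2]
  rw [← fib (fun s l => 𝒟.q (n.δ (𝒟.om t l)) (β s (t l)) + 𝒟.q (n.δ (t l)) (β s (𝒟.om t l)))]
  have key : (2 : L) * ∑ s, ∑ l with 𝒟.arm l = s, (𝒟.q (n.δ (𝒟.om t l)) (β s (t l)) +
      𝒟.q (n.δ (t l)) (β s (𝒟.om t l))) = 0 := by
    rw [Finset.mul_sum, Finset.sum_congr rfl fun s _ => pair_brk hG n s (hβ s)]
    obtain ⟨Z, hZ, hZW⟩ := exists_pres hG.form n C.W
    have e1 : ∀ s, LinearMap.trace L V (β s * brk n (Res 𝒟 t s)) =
        LinearMap.trace L V ((Res 𝒟 t s * β s - β s * Res 𝒟 t s) * Z) := by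
      intro s
      have h3 : brk n (Res 𝒟 t s) = brk (subConn n hZ) (Res 𝒟 t s) +
          (Z * Res 𝒟 t s - Res 𝒟 t s * Z) := by
        refine LinearMap.ext fun v => ?_
        rw [LinearMap.add_apply, brk_apply, brk_apply, subConn_δ, subConn_δ, LinearMap.sub_apply,
          Module.End.mul_apply, Module.End.mul_apply, map_sub]
        abel
      rw [h3, mul_add, map_add, core_pair h2 hG ht C (subConn n hZ) hZW s (hβ s) (hβW s) (hc s),
        zero_add, mul_sub, map_sub, sub_mul, map_sub, ← mul_assoc, ← mul_assoc]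
      congr 1
      rw [LinearMap.trace_mul_comm, ← mul_assoc]
    rw [Finset.sum_congr rfl fun s _ => e1 s, ← map_sum, ← Finset.sum_mul, hsum, zero_mul,
      map_zero]
  exact (mul_eq_zero.1 key).resolve_left h2

/-- **The hypothesis `htr`.** -/
theorem htr_of_W (hG : 𝒟.Good) (ht : t ∈ 𝒟.K) (C : Core 𝒟.q (Res 𝒟 t))
    {K : Set ((J → L) →ₗ[L] V)} (hK : KRel 𝒟.arm 𝒟.q 𝒟.Ω K) (htK : Tt L t ∈ K)
    {β : Fin 3 → End L V} (hβ : ∀ s, IsSA 𝒟.q (β s)) (hβW : ∀ s v, β s v ∈ C.W)
    (hc : ∀ s, C.res hG.form (β s) * C.S1 hG.form s = C.S1 hG.form s * C.res hG.form (β s))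
    {k : J → V} (hk : Tt L k ∈ K) :
    ∑ s, LinearMap.trace L V (β s * opr 𝒟.q (Tt L t) (Gm 𝒟.arm 𝒟.Ω s) (Tt L k)) = 0 := by
  have hq := hG.form
  have hSA : ∀ a, IsSA 𝒟.q (Res 𝒟 t a) := fun a => Sop_SA 𝒟.arm hq (Tt L t) hG.skew a
  have hcmp := hK.compat hq hG.skew htK hk
  obtain ⟨M, -, hM1, hM2⟩ := C.exists_D hq hSA hcmp
  refine Finset.sum_eq_zero fun s _ => ?_
  rw [trace_W_mul hq C (hβ s) (hβW s) (fun v hv => hcmp.map_W C s hv)
    fun v hv => hcmp.map_perp C s hv, hM1]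
  have h1 : C.res hq (β s) * (C.S1 hq s * M) = C.S1 hq s * (C.res hq (β s) * M) := by
    rw [← mul_assoc, hc, mul_assoc]
  have h3 : Commute (C.S1 hq s) (C.res hq (β s) * M) := by
    show C.S1 hq s * (C.res hq (β s) * M) = C.res hq (β s) * M * C.S1 hq s
    rw [← h1, mul_assoc, ← hM1, hM2]
  have hnil : IsNilpotent (C.S1 hq s) := by
    obtain ⟨m, hm⟩ := nilp_Res hG ht s
    refine ⟨m, ?_⟩
    have h6 : ∀ (v : C.V1) (k : ℕ), (Res 𝒟 t s ^ k) (v : V) ∈ C.W := by
      intro v k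
      induction k with
      | zero => exact C.V1_le v.2
      | succ k ih =>
        rw [pow_succ', Module.End.mul_apply]
        exact C.map_W ih
    have h5 : ∀ k : ℕ, ∀ v : C.V1, (C.S1 hq s ^ k) v = C.P hq ((Res 𝒟 t s ^ k) v) := by
      intro k
      induction k with
      | zero => intro v; exact (C.P_coe hq v).symm
      | succ k ih =>
        intro v
        rw [pow_succ', Module.End.mul_apply, ih, pow_succ' (Res 𝒟 t s), Module.End.mul_apply]
        exact (C.P_S hq hSA s (C.W_le_perp hq (h6 v k))).symm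
    refine LinearMap.ext fun v => ?_
    rw [h5, hm]
    exact map_zero _
  have h4 : IsNilpotent (C.res hq (β s) * (C.S1 hq s * M)) := by
    obtain ⟨m, hm⟩ := hnil
    rw [h1]
    exact ⟨m, by rw [h3.mul_pow, hm, zero_mul]⟩
  exact (LinearMap.isNilpotent_trace_of_isNilpotent h4).eq_zero

end main

end Vale.Agent.P182.SPIN
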