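import Vale.Agent.P182.H532.GSurj

/-!
# Every metric connection can be adapted to a subspace
-/

namespace Vale.Agent.P182.SPIN

open Module Vale.Agent.P182.H533 Vale.Agent.P182.B1 Vale.Agent.P182.H922
  Vale.Agent.P182.H578

section pres

variable {L V : Type*} [Field L] [AddCommGroup V] [Module L V]

/-- a projection onto `A` which maps `B` to `A ⊓ B` -/
theorem exists_proj (A B : Submodule L V) : ∃ π : V →ₗ[L] V, (∀ x, π x ∈ A) ∧
    (∀ x ∈ A, π x = x) ∧ ∀ x ∈ B, π x ∈ A ⊓ B := by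
  obtain ⟨c, hc⟩ := exists_isCompl (A ⊓ B)
  have hd : Disjoint (B ⊓ c) A := by
    rw [disjoint_iff]
    have h1 := hc.inf_eq_bot
    rw [inf_right_comm, inf_comm B A]
    exact h1
  obtain ⟨Q, hQ, hQA⟩ := hd.exists_isCompl
  refine ⟨A.projection Q hQA.symm, fun x => Submodule.projection_apply_mem _ x,
    fun x hx => Submodule.projection_apply_of_mem_left _ hx, fun x hx => ?_⟩
  obtain ⟨i, hi, b, hb, rfl⟩ : ∃ i ∈ A ⊓ B, ∃ b ∈ c, i + b = x := by
    have h1 : x ∈ (A ⊓ B) ⊔ c := by rw [hc.sup_eq_top]; trivial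
    exact Submodule.mem_sup.mp h1
  have hbB : b ∈ B := by
    have := B.sub_mem hx hi.2
    rwa [add_sub_cancel_left] at this
  rw [map_add, Submodule.projection_apply_of_mem_left _ hi.1,
    Submodule.projection_apply_of_mem_right _ (hQ ⟨hbB, hb⟩), add_zero]
  exact hi

variable [FiniteDimensional L V] {q : V →ₗ[L] V →ₗ[L] L}

/-- **Adapted connections.** -/
theorem exists_pres (hq : IsForm q) (n : H533.Conn q) (W : Submodule L V) :
    ∃ Z : End L V, IsSk q Z ∧ ∀ w ∈ W, n.δ w - Z w ∈ W := by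
  obtain ⟨π, hπ1, hπ2, hπ3⟩ := exists_proj W (perp q W)
  obtain ⟨π', hπ1', hπ2', hπ3'⟩ := exists_proj (perp q W) W
  have hI : ∀ i ∈ W ⊓ perp q W, ∀ i' ∈ W ⊓ perp q W, q i i' = 0 := fun i hi i' hi' => hi.2 i' hi'.1
  have hsk : ∀ i ∈ W ⊓ perp q W, ∀ i' ∈ W ⊓ perp q W, q (n.δ i) i' = - q (n.δ i') i := by
    intro i hi i' hi'
    have h1 := n.metric i i'
    rw [hI i hi i' hi', map_zero] at h1
    rw [hq.symm (n.δ i')]
    linear_combination -h1
  have hadd : ∀ a b : V, n.δ (a + b) = n.δ a + n.δ b := fun a b => map_add _ _ _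
  have key : ∀ (f : V →ₗ[L] V) (g : V →ₗ[L] V), (∀ x, f x ∈ W) → (∀ x, g x ∈ perp q W) →
      ∃ B : V →ₗ[L] V →ₗ[L] L, ∀ x y, B x y = q (n.δ (f x)) (g y) := by
    intro f g hf hg
    refine ⟨LinearMap.mk₂ L (fun x y => q (n.δ (f x)) (g y)) ?_ ?_ ?_ ?_, fun x y => rfl⟩
    · intro a b y
      rw [map_add, hadd, map_add, LinearMap.add_apply]
    · intro c a y
      rw [map_smul, n.smul, map_add, map_smul, map_smul, LinearMap.add_apply,
        LinearMap.smul_apply, LinearMap.smul_apply, hq.symm (f a), hg y _ (hf a), smul_zero,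
        zero_add]
    · intro a b y
      rw [map_add, map_add]
    · intro c a y
      rw [map_smul, map_smul]
  obtain ⟨B1, hB1⟩ := key π π' hπ1 hπ1'
  obtain ⟨B2, hB2⟩ := key (π ∘ₗ π') (π ∘ₗ π') (fun x => hπ1 _) fun x => (hπ3 _ (hπ1' x)).2
  obtain ⟨Z, hZ⟩ := hq.exists_end (B1 - B1.flip + B2.flip)
  have hZ' : ∀ x y, q (Z x) y = q (n.δ (π x)) (π' y) - q (n.δ (π y)) (π' x) +
      q (n.δ (π (π' y))) (π (π' x)) := by
    intro x y
    rw [hZ, LinearMap.add_apply, LinearMap.sub_apply, LinearMap.add_apply, LinearMap.sub_apply,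
      LinearMap.flip_apply, LinearMap.flip_apply, hB1, hB1, hB2]
    rfl
  refine ⟨Z, fun x y => ?_, fun w hw => ?_⟩
  · have h1 := hsk _ (hπ3 _ (hπ1' y)) _ (hπ3 _ (hπ1' x))
    rw [hq.symm x, hZ', hZ', h1]
    ring
  · apply perp_perp_le hq
    intro u hu
    have h1 : π' w ∈ W ⊓ perp q W := ⟨(hπ3' w hw).2, (hπ3' w hw).1⟩
    have h2 : q (Z w) u = q (n.δ w) u := by
      rw [hZ', hπ2 w hw, hπ2' u hu, hπ2 _ h1.1]
      ring
    rw [map_sub, LinearMap.sub_apply, h2, sub_self]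

end pres

end Vale.Agent.P182.SPIN
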