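import Vale.Agent.P182.H588.SBridge
import Vale.Agent.P182.H338.SStr
import Vale.Agent.P182.H258.DatBC

/-!
# T-SPIN: special configurations in the two languages, base change, the data from `Ext = 0`
-/

namespace Vale.Agent.P182.H588.SP

open Module Matrix TensorProduct Vale.Agent.P182.H533 Vale.Agent.P182.B1 Vale.Agent.P182.H62
open Vale.Agent.P182.H96 (ofCfg toCfg pp pp_eq om Rd)
open Vale.Agent.P182.H338 (SpinC SpinC1 SVersal uz uzM ExtZeroS UStrictS)
open Vale.Agent.P182.H258 (famS mem_famS evf fam finrank_famS famS_mono famS_inf pp_bc f_M ofCfg_K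
  K_bc E_bc)

universe u v w

section bridge

variable {L : Type u} {V : Type v} {J : Type w} [Field L] [AddCommGroup V] [Module L V]
  {𝒟 : Cfg L V J} {c0 c1 : J}

theorem spin_toCfg {a : H96.Cf L V J (Fin 3)} (g : a.Good) (hs : Spc a c0 c1) :
    SpinC1 (toCfg a) c0 c1 where
  arm0 := hs.arm0
  arm1 := hs.arm1
  lag0 := by
    have h := hs.lag0
    rw [pp_eq g.form] at h
    exact h
  lag1 := by
    have h := hs.lag1
    rw [pp_eq g.form] at h
    exact h
  sp := hs.sp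
  ne := by
    have h : (toCfg a).Ω c0 c1 = 1 := hs.one
    rw [h]
    exact one_ne_zero
  one := hs.one

variable [Fintype J]

theorem UM_ofCfg (t : J → V) : UM (ofCfg 𝒟) c0 c1 t = uzM 𝒟 c0 c1 t := rfl

theorem Ks_toCfg [DecidableEq J] {a : H96.Cf L V J (Fin 3)} (g : a.Good) :
    H338.Ks (toCfg a) c0 c1 = Ks a c0 c1 := (Ks_ofCfg (H96.good_toCfg g)).symm

end bridge

section bc

variable {L : Type u} {V : Type v} {J : Type w} [Field L] [AddCommGroup V] [Module L V]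
  {L' : Type u} [Field L'] [Algebra L L'] [Fintype J] {𝒟 : Cfg L V J} {c0 c1 : J}

theorem eq_zero_of_ev {x : L' ⊗[L] V} (h : ∀ f : L' →ₗ[L] L, ev f x = 0) : x = 0 := by
  have h1 : x ∈ (⊥ : Submodule L V).baseChange L' := mem_bc_iff.mpr fun f => by
    rw [h f]; exact zero_mem _
  rwa [Submodule.baseChange_bot, Submodule.mem_bot] at h1

theorem ev_UM (f : L' →ₗ[L] L) (t : J → L' ⊗[L] V) :
    ev f (UM (ofCfg (bcC 𝒟 L')) c0 c1 t) = UM (ofCfg 𝒟) c0 c1 (evf f t) := by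
  rw [UM_apply, UM_apply, map_sum]
  refine Finset.sum_congr rfl fun l _ => ?_
  have h1 : uu (ofCfg (bcC 𝒟 L')) c0 c1 l = algebraMap L L' (uu (ofCfg 𝒟) c0 c1 l) := by
    show uz (bcC 𝒟 L') c0 c1 l = algebraMap L L' (uz 𝒟 c0 c1 l)
    exact H338.uz_bcC l
  rw [h1, algebraMap_smul, map_smul]
  rfl

theorem Ks_bc [DecidableEq J] (g : 𝒟.Good) :
    Ks (ofCfg (bcC 𝒟 L')) c0 c1 = famS L' (Ks (ofCfg 𝒟) c0 c1) := by
  ext t
  rw [mem_Ks, K_bc g, mem_famS, mem_famS]
  constructor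
  · rintro ⟨h1, h2⟩ f
    exact ⟨h1 f, by
      show UM (ofCfg 𝒟) c0 c1 (evf f t) = 0
      rw [← ev_UM, h2, map_zero]⟩
  · intro h
    refine ⟨fun f => (h f).1, ?_⟩
    refine eq_zero_of_ev (L := L) fun f => ?_
    rw [ev_UM]
    exact (h f).2

end bc

end Vale.Agent.P182.H588.SP
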