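import Vale.Agent.P182.H922.DichoCfg
import Vale.Agent.P182.H922.Adapt
import Vale.Agent.P182.H578.Surj
import Vale.Agent.P182.H338.SDefs

/-!
# Special configurations (half-integral weights)

A special configuration has two distinguished columns `a` (arm `0`) and `b` (arm `1`), both
Lagrangian, whose rows of `Ω` agree against the columns of arm `2`.  The relevant kernel is
`Ks = {t ∈ K | ∑ u₀ l • t l = 0}`.
-/

namespace Vale.Agent.P182.SPIN

open Module Matrix Vale.Agent.P182.H533 Vale.Agent.P182.B1 Vale.Agent.P182.H922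
  Vale.Agent.P182.H578

section matrices

variable {L J : Type*} [Field L] [Fintype J] [DecidableEq J]

/-- the test pairing with an elementary skew matrix -/
theorem sum_single (M : Matrix J J L) (i j : J) :
    ∑ l, ∑ k, (Matrix.single i j 1 - Matrix.single j i 1 : Matrix J J L) l k * M l k =
      M i j - M j i := by
  have h : ∀ (i j : J), ∑ l, ∑ k, (Matrix.single i j 1 : Matrix J J L) l k * M l k = M i j := by
    intro i j
    rw [Finset.sum_eq_single i, Finset.sum_eq_single j]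
    · rw [Matrix.single_apply_same, one_mul]
    · intro k _ hk
      rw [Matrix.single_apply_of_ne _ _ _ _ _ (fun h => hk h.2.symm), zero_mul]
    · intro h; exact absurd (Finset.mem_univ _) h
    · intro l _ hl
      refine Finset.sum_eq_zero fun k _ => ?_
      rw [Matrix.single_apply_of_ne _ _ _ _ _ (fun h => hl h.1.symm), zero_mul]
    · intro h; exact absurd (Finset.mem_univ _) h
  simp only [Matrix.sub_apply, sub_mul, Finset.sum_sub_distrib, h]

theorem skew_single (i j : J) : (Matrix.single i j 1 - Matrix.single j i 1 : Matrix J J L)ᵀ =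
    -(Matrix.single i j 1 - Matrix.single j i 1) := by
  rw [Matrix.transpose_sub, Matrix.transpose_single, Matrix.transpose_single, neg_sub]

/-- admissible variations: skew matrices with equal rows `a` and `b` -/
def SpM (a b : J) (η : Matrix J J L) : Prop := ηᵀ = -η ∧ ∀ l, η a l = η b l

/-- **Every skew matrix is admissible up to `p uᵀ - u pᵀ`.** -/
theorem exists_special (h2 : (2 : L) ≠ 0) {a b : J} {u : J → L} {g : L}
    (hg : g ≠ 0) (ha : u a = -g) (hb : u b = g) {η : Matrix J J L} (hη : ηᵀ = -η) :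
    ∃ p : J → L, SpM a b (η - Matrix.of fun l k => p l * u k - u l * p k) := by
  have hη' : ∀ l l', η l l' = - η l' l := fun l l' => by
    have := congrFun (congrFun hη l') l
    rwa [Matrix.transpose_apply, Matrix.neg_apply] at this
  have hd : ∀ l, η l l = 0 := fun l => by
    have h1 := hη' l l
    have h3 : (2 : L) * η l l = 0 := by linear_combination h1
    exact (mul_eq_zero.mp h3).resolve_left h2
  have hab : a ≠ b := by
    rintro rfl
    rw [ha] at hb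
    have h3 : (2 : L) * g = 0 := by linear_combination -hb
    exact hg ((mul_eq_zero.mp h3).resolve_left h2)
  obtain ⟨p, hpa, hpb, hpl⟩ : ∃ p : J → L, p a = η a b * (2 * g)⁻¹ ∧ p b = η a b * (2 * g)⁻¹ ∧
      ∀ l, l ≠ a → l ≠ b → p l = (η a l - η b l) * (2 * g)⁻¹ :=
    ⟨fun l => if l = a ∨ l = b then η a b * (2 * g)⁻¹ else (η a l - η b l) * (2 * g)⁻¹,
      if_pos (Or.inl rfl), if_pos (Or.inr rfl), fun l h1 h3 => if_neg (by tauto)⟩
  refine ⟨p, ?_, ?_⟩
  · rw [Matrix.transpose_sub, hη]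
    ext l k
    simp only [Matrix.sub_apply, Matrix.neg_apply, Matrix.transpose_apply, Matrix.of_apply]
    ring
  · intro l
    simp only [Matrix.sub_apply, Matrix.of_apply]
    rw [ha, hb]
    by_cases h1 : l = a
    · rw [h1, hd, hη' b a, hpa, hpb, ha]
      field_simp
      ring
    by_cases h3 : l = b
    · rw [h3, hd, hpa, hpb, hb]
      field_simp
      ring
    · rw [hpl l h1 h3, hpa, hpb]
      field_simp
      ring

/-- **A matrix orthogonal to the admissible variations and killing `u` is symmetric.** -/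
theorem sym_of_special (h2 : (2 : L) ≠ 0) {a b : J} {M : Matrix J J L} {u : J → L} {g : L}
    (hg : g ≠ 0) (ha : u a = -g) (hb : u b = g)
    (hη : ∀ η : Matrix J J L, SpM a b η → ∑ l, ∑ k, η l k * M l k = 0)
    (hr : ∀ l, ∑ k, M l k * u k = 0) (hc : ∀ k, ∑ l, M l k * u l = 0) (l k : J) :
    M l k = M k l := by
  obtain ⟨p, hp⟩ := exists_special h2 hg ha hb (skew_single (L := L) l k)
  have h1 := hη _ hp
  have h3 : ∑ l', ∑ k', (p l' * u k' - u l' * p k') * M l' k' = 0 := by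
    have e1 : ∑ l', ∑ k', p l' * u k' * M l' k' = 0 := by
      refine Finset.sum_eq_zero fun l' _ => ?_
      have : ∑ k', p l' * u k' * M l' k' = p l' * ∑ k', M l' k' * u k' := by
        rw [Finset.mul_sum]
        exact Finset.sum_congr rfl fun k' _ => by ring
      rw [this, hr, mul_zero]
    have e2 : ∑ l', ∑ k', u l' * p k' * M l' k' = 0 := by
      rw [Finset.sum_comm]
      refine Finset.sum_eq_zero fun k' _ => ?_
      have : ∑ l', u l' * p k' * M l' k' = p k' * ∑ l', M l' k' * u l' := by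
        rw [Finset.mul_sum]
        exact Finset.sum_congr rfl fun l' _ => by ring
      rw [this, hc, mul_zero]
    simp only [sub_mul, Finset.sum_sub_distrib, e1, e2, sub_zero]
  have h4 := sum_single M l k
  have h5 : ∑ l', ∑ k', (Matrix.single l k 1 - Matrix.single k l 1 : Matrix J J L) l' k' * M l' k' =
      ∑ l', ∑ k', ((Matrix.single l k 1 - Matrix.single k l 1 : Matrix J J L) -
        Matrix.of fun l k => p l * u k - u l * p k) l' k' * M l' k' +
      ∑ l', ∑ k', (p l' * u k' - u l' * p k') * M l' k' := by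
    rw [← Finset.sum_add_distrib]
    refine Finset.sum_congr rfl fun l' _ => ?_
    rw [← Finset.sum_add_distrib]
    refine Finset.sum_congr rfl fun k' _ => ?_
    rw [Matrix.sub_apply _ (Matrix.of _), Matrix.of_apply]
    ring
  rw [h4, h1, h3, add_zero] at h5
  exact sub_eq_zero.mp h5

end matrices

section cfg

variable {L V J : Type*} [Field L] [AddCommGroup V] [Module L V]

/-- **Special configurations.** -/
structure Sp (𝒟 : Cfg L V J) (a b : J) : Prop where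
  arm_a : 𝒟.arm a = 0
  arm_b : 𝒟.arm b = 1
  lag_a : perp 𝒟.q (𝒟.C a) ≤ 𝒟.C a
  lag_b : perp 𝒟.q (𝒟.C b) ≤ 𝒟.C b
  row : ∀ l, 𝒟.arm l = 2 → 𝒟.Ω a l = 𝒟.Ω b l
  ne : 𝒟.Ω a b ≠ 0

theorem Sp.of_spinC {𝒟 : Cfg L V J} {a b : J} (h : H338.SpinC 𝒟 a b) : Sp 𝒟 a b where
  arm_a := h.arm0
  arm_b := h.arm1
  lag_a := h.lag0.le
  lag_b := h.lag1.le
  row l hl := h.sp l (by rintro rfl; rw [h.arm0] at hl; exact absurd hl (by decide))
    (by rintro rfl; rw [h.arm1] at hl; exact absurd hl (by decide))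
  ne := h.ne

/-- the vector `u₀` -/
def u0 (𝒟 : Cfg L V J) (a b : J) (l : J) : L := if 𝒟.arm l = 0 then 𝒟.Ω b l else 𝒟.Ω a l

/-- the difference of the two rows -/
def xx (𝒟 : Cfg L V J) (a b : J) (l : J) : L := 𝒟.Ω a l - 𝒟.Ω b l

variable [Fintype J]

theorem mem_Ks {𝒟 : Cfg L V J} {a b : J} {t : J → V} :
    t ∈ H338.Ks 𝒟 a b ↔ t ∈ 𝒟.K ∧ ∑ l, u0 𝒟 a b l • t l = 0 := Iff.rfl

variable {𝒟 : Cfg L V J} {a b : J}

omit [Fintype J] in
theorem skewΩ (hG : 𝒟.Good) (l k : J) : 𝒟.Ω l k = - 𝒟.Ω k l := by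
  have := congrFun (congrFun hG.skew k) l
  rwa [Matrix.transpose_apply, Matrix.neg_apply] at this

namespace Sp

omit [Fintype J] in
theorem ab (h : Sp 𝒟 a b) : a ≠ b := by
  rintro rfl
  have h1 := h.arm_a
  rw [h.arm_b] at h1
  exact absurd h1 (by decide)

omit [Fintype J] in
theorem le_a (h : Sp 𝒟 a b) (hG : 𝒟.Good) {l : J} (hl : 𝒟.arm l = 0) : 𝒟.C l ≤ 𝒟.C a := by
  have e : 𝒟.arm l = 𝒟.arm a := hl.trans h.arm_a.symm
  rcases le_total (𝒟.c l) (𝒟.c a) with h1 | h1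
  · show 𝒟.F (𝒟.arm l) (𝒟.c l) ≤ 𝒟.F (𝒟.arm a) (𝒟.c a)
    rw [e]
    exact hG.mono _ h1
  · have h3 : 𝒟.C a ≤ 𝒟.C l := by
      show 𝒟.F (𝒟.arm a) (𝒟.c a) ≤ 𝒟.F (𝒟.arm l) (𝒟.c l)
      rw [e]
      exact hG.mono _ h1
    refine le_trans ?_ h.lag_a
    intro v hv w hw
    exact hG.iso _ _ hv w (h3 hw)

omit [Fintype J] in
theorem le_b (h : Sp 𝒟 a b) (hG : 𝒟.Good) {l : J} (hl : 𝒟.arm l = 1) : 𝒟.C l ≤ 𝒟.C b := by
  have e : 𝒟.arm l = 𝒟.arm b := hl.trans h.arm_b.symm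
  rcases le_total (𝒟.c l) (𝒟.c b) with h1 | h1
  · show 𝒟.F (𝒟.arm l) (𝒟.c l) ≤ 𝒟.F (𝒟.arm b) (𝒟.c b)
    rw [e]
    exact hG.mono _ h1
  · have h3 : 𝒟.C b ≤ 𝒟.C l := by
      show 𝒟.F (𝒟.arm b) (𝒟.c b) ≤ 𝒟.F (𝒟.arm l) (𝒟.c l)
      rw [e]
      exact hG.mono _ h1
    refine le_trans ?_ h.lag_b
    intro v hv w hw
    exact hG.iso _ _ hv w (h3 hw)

omit [Fintype J] in
theorem a_le_perp (h : Sp 𝒟 a b) (hG : 𝒟.Good) {l : J} (hl : 𝒟.arm l = 0) :
    𝒟.C a ≤ perp 𝒟.q (𝒟.C l) := fun _ hv w hw =>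
  hG.iso _ _ hv w (h.le_a hG hl hw)

omit [Fintype J] in
theorem b_le_perp (h : Sp 𝒟 a b) (hG : 𝒟.Good) {l : J} (hl : 𝒟.arm l = 1) :
    𝒟.C b ≤ perp 𝒟.q (𝒟.C l) := fun _ hv w hw =>
  hG.iso _ _ hv w (h.le_b hG hl hw)

omit [Fintype J] in
theorem u0_0 {l : J} (hl : 𝒟.arm l = 0) : u0 𝒟 a b l = 𝒟.Ω b l := if_pos hl

omit [Fintype J] in
theorem u0_1 {l : J} (hl : 𝒟.arm l = 1) : u0 𝒟 a b l = 𝒟.Ω a l :=
  if_neg (by rw [hl]; decide)

omit [Fintype J] in
theorem u0_2 {l : J} (hl : 𝒟.arm l = 2) : u0 𝒟 a b l = 𝒟.Ω a l :=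
  if_neg (by rw [hl]; decide)

omit [Fintype J] in
theorem u0_2' (h : Sp 𝒟 a b) {l : J} (hl : 𝒟.arm l = 2) : u0 𝒟 a b l = 𝒟.Ω b l := by
  rw [u0_2 hl, h.row l hl]

omit [Fintype J] in
theorem u0_a (h : Sp 𝒟 a b) (hG : 𝒟.Good) : u0 𝒟 a b a = - 𝒟.Ω a b := by
  rw [u0_0 h.arm_a, skewΩ hG]

omit [Fintype J] in
theorem u0_b (h : Sp 𝒟 a b) : u0 𝒟 a b b = 𝒟.Ω a b := u0_1 h.arm_b

omit [Fintype J] in
theorem u0_ne (h : Sp 𝒟 a b) (hG : 𝒟.Good) (h2 : (2 : L) ≠ 0) :
    u0 𝒟 a b a ≠ u0 𝒟 a b b := by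
  rw [h.u0_a hG, h.u0_b]
  intro h1
  have h3 : (2 : L) * 𝒟.Ω a b = 0 := by linear_combination -h1
  exact h.ne ((mul_eq_zero.mp h3).resolve_left h2)

omit [Fintype J] in
theorem xx_2 (h : Sp 𝒟 a b) {l : J} (hl : 𝒟.arm l = 2) : xx 𝒟 a b l = 0 := by
  rw [xx, h.row l hl, sub_self]

open Classical in
/-- `u_a` in terms of the columns of arm `0` -/
theorem om_a (h : Sp 𝒟 a b) {t : J → V} (ht : ∑ l, u0 𝒟 a b l • t l = 0) :
    𝒟.om t a = ∑ l with 𝒟.arm l = 0, xx 𝒟 a b l • t l := by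
  have e : 𝒟.om t a = (∑ l, u0 𝒟 a b l • t l) + ∑ l with 𝒟.arm l = 0, xx 𝒟 a b l • t l := by
    rw [Finset.sum_filter, Cfg.om, ← Finset.sum_add_distrib]
    refine Finset.sum_congr rfl fun l _ => ?_
    by_cases hl : 𝒟.arm l = 0
    · rw [if_pos hl, u0_0 hl, xx, sub_smul]; abel
    · rw [if_neg hl, u0, if_neg hl, add_zero]
  rw [e, ht, zero_add]

open Classical in
/-- `u_b` in terms of the columns of arm `1` -/
theorem om_b (h : Sp 𝒟 a b) {t : J → V} (ht : ∑ l, u0 𝒟 a b l • t l = 0) :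
    𝒟.om t b = - ∑ l with 𝒟.arm l = 1, xx 𝒟 a b l • t l := by
  have e : 𝒟.om t b = (∑ l, u0 𝒟 a b l • t l) - ∑ l with 𝒟.arm l = 1, xx 𝒟 a b l • t l := by
    rw [Finset.sum_filter, Cfg.om, ← Finset.sum_sub_distrib]
    refine Finset.sum_congr rfl fun l _ => ?_
    by_cases h0 : 𝒟.arm l = 0
    · rw [u0_0 h0, if_neg (by rw [h0]; decide), sub_zero]
    by_cases h1 : 𝒟.arm l = 1
    · rw [u0_1 h1, if_pos h1, xx, sub_smul]; abel
    · have h2 : 𝒟.arm l = 2 := by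
        generalize 𝒟.arm l = s at h0 h1
        fin_cases s
        · exact absurd rfl h0
        · exact absurd rfl h1
        · rfl
      rw [h.u0_2' h2, if_neg h1, sub_zero]
  rw [e, ht, zero_sub]

end Sp

section adj

variable [DecidableEq J]

/-- the family supported at `a` and `b` -/
def Zf (a b : J) (va vb : V) : J → V := Pi.single a va + Pi.single b vb

theorem om_Zf (hG : 𝒟.Good) (va vb : V) (l : J) :
    𝒟.om (Zf a b va vb) l = -(𝒟.Ω a l • va + 𝒟.Ω b l • vb) := by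
  have h1 : ∀ (c : J) (v : V), ∑ k, 𝒟.Ω l k • (Pi.single c v : J → V) k = 𝒟.Ω l c • v := by
    intro c v
    rw [Finset.sum_eq_single c]
    · rw [Pi.single_eq_same]
    · intro k _ hk
      rw [Pi.single_eq_of_ne hk, smul_zero]
    · intro h; exact absurd (Finset.mem_univ _) h
  simp only [Cfg.om, Zf, Pi.add_apply, smul_add, Finset.sum_add_distrib, h1]
  rw [skewΩ hG l a, skewΩ hG l b, neg_smul, neg_smul, neg_add]

/-- the correction of the dual vectors -/
def yy (𝒟 : Cfg L V J) (a b : J) (va vb : V) (l : J) : V :=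
  if 𝒟.arm l = 0 then xx 𝒟 a b l • va else if 𝒟.arm l = 1 then -(xx 𝒟 a b l • vb) else 0

theorem om_Zf' (h : Sp 𝒟 a b) (hG : 𝒟.Good) (va vb : V) (l : J) :
    𝒟.om (Zf a b va vb) l = -(u0 𝒟 a b l • (va + vb)) - yy 𝒟 a b va vb l := by
  rw [om_Zf hG, yy]
  by_cases h0 : 𝒟.arm l = 0
  · rw [if_pos h0, Sp.u0_0 h0, xx]; module
  by_cases h1 : 𝒟.arm l = 1
  · rw [if_neg h0, if_pos h1, Sp.u0_1 h1, xx]; module
  · have h2 : 𝒟.arm l = 2 := by
      generalize 𝒟.arm l = s at h0 h1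
      fin_cases s
      · exact absurd rfl h0
      · exact absurd rfl h1
      · rfl
    rw [if_neg h0, if_neg h1, Sp.u0_2 h2, ← h.row l h2]; module

theorem yy_mem (h : Sp 𝒟 a b) (hG : 𝒟.Good) {va vb : V} (ha : va ∈ 𝒟.C a) (hb : vb ∈ 𝒟.C b)
    (l : J) : yy 𝒟 a b va vb l ∈ perp 𝒟.q (𝒟.C l) := by
  unfold yy
  split_ifs with h0 h1
  · exact Submodule.smul_mem _ _ (h.a_le_perp hG h0 ha)
  · exact Submodule.neg_mem _ (Submodule.smul_mem _ _ (h.b_le_perp hG h1 hb))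
  · exact Submodule.zero_mem _

theorem sum_u0_Zf (h : Sp 𝒟 a b) (hG : 𝒟.Good) (va vb : V) :
    ∑ l, u0 𝒟 a b l • Zf a b va vb l = 𝒟.Ω a b • (vb - va) := by
  have h1 : ∀ (c : J) (v : V), ∑ k, u0 𝒟 a b k • (Pi.single c v : J → V) k =
      u0 𝒟 a b c • v := by
    intro c v
    rw [Finset.sum_eq_single c]
    · rw [Pi.single_eq_same]
    · intro k _ hk
      rw [Pi.single_eq_of_ne hk, smul_zero]
    · intro h; exact absurd (Finset.mem_univ _) h
  simp only [Zf, Pi.add_apply, smul_add, Finset.sum_add_distrib, h1]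
  rw [h.u0_a hG, h.u0_b]
  module

theorem Zf_mem {va vb : V} (ha : va ∈ 𝒟.C a) (hb : vb ∈ 𝒟.C b) (l : J) :
    Zf a b va vb l ∈ 𝒟.C l := by
  unfold Zf
  rw [Pi.add_apply]
  refine Submodule.add_mem _ ?_ ?_
  · by_cases hl : l = a
    · subst hl; rwa [Pi.single_eq_same]
    · rw [Pi.single_eq_of_ne hl]; exact Submodule.zero_mem _
  · by_cases hl : l = b
    · subst hl; rwa [Pi.single_eq_same]
    · rw [Pi.single_eq_of_ne hl]; exact Submodule.zero_mem _

/-- the element of the kernel given by a vector of `C a ⊓ C b` -/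
theorem Zf_mem_K (h : Sp 𝒟 a b) (hG : 𝒟.Good) {v : V} (ha : v ∈ 𝒟.C a) (hb : v ∈ 𝒟.C b) :
    Zf a b (-v) v ∈ 𝒟.K := by
  refine ⟨fun l => Zf_mem (neg_mem ha) hb l, fun l => ?_⟩
  rw [om_Zf' h hG, neg_add_cancel, smul_zero, neg_zero, zero_sub]
  exact Submodule.neg_mem _ (yy_mem h hG (neg_mem ha) hb l)

/-- for an element of the kernel the vector `∑ u₀ l • t l` lies in `C a ⊓ C b` -/
theorem sum_u0_mem (h : Sp 𝒟 a b) (hG : 𝒟.Good) {t : J → V} (ht : t ∈ 𝒟.K) :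
    ∑ l, u0 𝒟 a b l • t l ∈ 𝒟.C a ∧ ∑ l, u0 𝒟 a b l • t l ∈ 𝒟.C b := by
  classical
  have ea : ∑ l, u0 𝒟 a b l • t l = 𝒟.om t a - ∑ l with 𝒟.arm l = 0, xx 𝒟 a b l • t l := by
    rw [Finset.sum_filter, Cfg.om, ← Finset.sum_sub_distrib]
    refine Finset.sum_congr rfl fun l _ => ?_
    by_cases hl : 𝒟.arm l = 0
    · rw [if_pos hl, Sp.u0_0 hl, xx, sub_smul]; abel
    · rw [if_neg hl, u0, if_neg hl, sub_zero]
  have eb : ∑ l, u0 𝒟 a b l • t l = 𝒟.om t b + ∑ l with 𝒟.arm l = 1, xx 𝒟 a b l • t l := by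
    rw [Finset.sum_filter, Cfg.om, ← Finset.sum_add_distrib]
    refine Finset.sum_congr rfl fun l _ => ?_
    by_cases h0 : 𝒟.arm l = 0
    · rw [Sp.u0_0 h0, if_neg (by rw [h0]; decide), add_zero]
    by_cases h1 : 𝒟.arm l = 1
    · rw [Sp.u0_1 h1, if_pos h1, xx, sub_smul]; abel
    · have h2 : 𝒟.arm l = 2 := by
        generalize 𝒟.arm l = s at h0 h1
        fin_cases s
        · exact absurd rfl h0
        · exact absurd rfl h1
        · rfl
      rw [h.u0_2' h2, if_neg h1, add_zero]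
  constructor
  · rw [ea]
    refine Submodule.sub_mem _ (h.lag_a (ht.2 a)) (Submodule.sum_mem _ fun l hl => ?_)
    exact Submodule.smul_mem _ _ (h.le_a hG (Finset.mem_filter.mp hl).2 (ht.1 l))
  · rw [eb]
    refine Submodule.add_mem _ (h.lag_b (ht.2 b)) (Submodule.sum_mem _ fun l hl => ?_)
    exact Submodule.smul_mem _ _ (h.le_b hG (Finset.mem_filter.mp hl).2 (ht.1 l))

/-- **The adjustment lemma.** -/
theorem adjust [FiniteDimensional L V] (h2 : (2 : L) ≠ 0) (h : Sp 𝒟 a b) (hG : 𝒟.Good)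
    {κ : J → V} {v : V} (h1 : ∀ l, κ l ∈ 𝒟.C l)
    (h3 : ∀ l, 𝒟.om κ l - u0 𝒟 a b l • v ∈ perp 𝒟.q (𝒟.C l)) :
    ∃ R ∈ H338.Ks 𝒟 a b, ∃ va ∈ 𝒟.C a, ∃ vb ∈ 𝒟.C b, κ = R + Zf a b va vb ∧
      ∀ l, 𝒟.om κ l = 𝒟.om R l + (u0 𝒟 a b l • v - yy 𝒟 a b va vb l) := by
  -- `v` is orthogonal to `C a ⊓ C b`
  have hperp : ∀ w, w ∈ 𝒟.C a → w ∈ 𝒟.C b → 𝒟.q v w = 0 := by
    intro w ha hb
    have hK := Zf_mem_K h hG ha hb
    have e1 : ∑ l, 𝒟.q (𝒟.om κ l - u0 𝒟 a b l • v) (Zf a b (-w) w l) = 0 :=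
      Finset.sum_eq_zero fun l _ => h3 l _ (hK.1 l)
    have e2 : ∑ l, 𝒟.q (𝒟.om κ l) (Zf a b (-w) w l) = 0 := by
      have e3 : ∑ l, 𝒟.q (Zf a b (-w) w l) (𝒟.om κ l) = 0 := by
        rw [pair_om hG]
        rw [neg_eq_zero]
        exact Finset.sum_eq_zero fun l _ => by rw [hG.form.symm]; exact hK.2 l _ (h1 l)
      rw [← e3]
      exact Finset.sum_congr rfl fun l _ => hG.form.symm _ _
    have e4 : ∑ l, 𝒟.q (u0 𝒟 a b l • v) (Zf a b (-w) w l) =
        𝒟.q v (∑ l, u0 𝒟 a b l • Zf a b (-w) w l) := by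
      rw [map_sum]
      refine Finset.sum_congr rfl fun l _ => ?_
      rw [map_smul, LinearMap.smul_apply, map_smul]
    simp only [map_sub, LinearMap.sub_apply, Finset.sum_sub_distrib] at e1
    rw [e2, e4, sum_u0_Zf h hG, zero_sub, neg_eq_zero, sub_neg_eq_add, ← two_smul L w, map_smul,
      map_smul, smul_eq_mul, smul_eq_mul] at e1
    exact ((mul_eq_zero.mp ((mul_eq_zero.mp e1).resolve_left h.ne)).resolve_left h2)
  have hv : v ∈ 𝒟.C a ⊔ 𝒟.C b := by
    apply perp_perp_le hG.form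
    intro w hw
    apply hperp
    · apply h.lag_a
      intro c hc
      exact hw c (Submodule.mem_sup_left hc)
    · apply h.lag_b
      intro c hc
      exact hw c (Submodule.mem_sup_right hc)
  obtain ⟨pa, hpa, pb, hpb, hpp⟩ := Submodule.mem_sup.mp hv
  -- first adjustment
  have hR0 : κ + Zf a b pa pb ∈ 𝒟.K := by
    refine ⟨fun l => add_mem (h1 l) (Zf_mem hpa hpb l), fun l => ?_⟩
    rw [om_add, om_Zf' h hG, hpp]
    have e : 𝒟.om κ l + (-(u0 𝒟 a b l • v) - yy 𝒟 a b pa pb l) =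
        (𝒟.om κ l - u0 𝒟 a b l • v) - yy 𝒟 a b pa pb l := by abel
    rw [e]
    exact sub_mem (h3 l) (yy_mem h hG hpa hpb l)
  obtain ⟨hwa, hwb⟩ := sum_u0_mem h hG hR0
  set w := ∑ l, u0 𝒟 a b l • (κ + Zf a b pa pb) l with hw
  have hab2 : (2 : L) * 𝒟.Ω a b ≠ 0 := mul_ne_zero h2 h.ne
  set c : L := (2 * 𝒟.Ω a b)⁻¹ with hc
  have hcw : Zf a b (-(c • w)) (c • w) ∈ 𝒟.K :=
    Zf_mem_K h hG (Submodule.smul_mem _ _ hwa) (Submodule.smul_mem _ _ hwb)
  refine ⟨κ + Zf a b pa pb - Zf a b (-(c • w)) (c • w), ⟨sub_mem hR0 hcw, ?_⟩,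
    -pa + -(c • w), add_mem (neg_mem hpa) (neg_mem (Submodule.smul_mem _ _ hwa)),
    -pb + c • w, add_mem (neg_mem hpb) (Submodule.smul_mem _ _ hwb), ?_, ?_⟩
  · show ∑ l, u0 𝒟 a b l • (κ + Zf a b pa pb - Zf a b (-(c • w)) (c • w)) l = 0
    simp only [Pi.sub_apply, smul_sub, Finset.sum_sub_distrib]
    rw [← hw, sum_u0_Zf h hG, sub_neg_eq_add, ← two_smul L (c • w), smul_smul, smul_smul, sub_eq_zero]
    have : 𝒟.Ω a b * (2 * c) = 1 := by
      rw [hc, ← mul_assoc, mul_comm (𝒟.Ω a b), mul_inv_cancel₀ hab2]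
    rw [← mul_assoc] at this
    rw [this, one_smul]
  · funext l
    simp only [Zf, Pi.add_apply, Pi.sub_apply, Pi.single_add, Pi.single_neg, Pi.neg_apply]
    abel
  · intro l
    have e1 : 𝒟.om (κ + Zf a b pa pb - Zf a b (-(c • w)) (c • w)) l =
        𝒟.om κ l + 𝒟.om (Zf a b pa pb) l - 𝒟.om (Zf a b (-(c • w)) (c • w)) l := by
      simp only [Cfg.om, Pi.sub_apply, Pi.add_apply, smul_add, smul_sub, Finset.sum_add_distrib,
        Finset.sum_sub_distrib]
    rw [e1, om_Zf' h hG, om_Zf' h hG, hpp]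
    have e2 : ∀ (va vb va' vb' : V), yy 𝒟 a b (va + va') (vb + vb') l =
        yy 𝒟 a b va vb l + yy 𝒟 a b va' vb' l := by
      intro va vb va' vb'
      unfold yy
      split_ifs
      · rw [smul_add]
      · rw [smul_add]; abel
      · rw [add_zero]
    have e3 : yy 𝒟 a b (-pa) (-pb) l = - yy 𝒟 a b pa pb l := by
      unfold yy
      split_ifs
      · rw [smul_neg]
      · rw [smul_neg]
      · rw [neg_zero]
    rw [e2, e3, neg_add_cancel, smul_zero]
    abel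

/-- the corrections do not contribute to sums over an arm -/
theorem sum_arm_zero (h : Sp 𝒟 a b) {t : J → V} (ht : ∑ l, u0 𝒟 a b l • t l = 0) {M : Type*}
    [AddCommGroup M] [Module L M] (f : V →ₗ[L] V →ₗ[L] M) (va vb : V) (s : Fin 3) :
    ∑ l with 𝒟.arm l = s, (f (Zf a b va vb l) (𝒟.om t l) - f (yy 𝒟 a b va vb l) (t l)) = 0 := by
  have key : ∀ (c : J) (v : V) (s' : Fin 3), 𝒟.arm c = s' → ∀ g : J → V,
      ∑ l with 𝒟.arm l = s', f ((Pi.single c v : J → V) l) (g l) = f v (g c) := by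
    intro c v s' hc g
    rw [Finset.sum_eq_single c]
    · rw [Pi.single_eq_same]
    · intro k _ hk
      rw [Pi.single_eq_of_ne hk, map_zero, LinearMap.zero_apply]
    · intro h
      exact absurd (Finset.mem_filter.mpr ⟨Finset.mem_univ c, hc⟩) h
  have key' : ∀ (c : J) (v : V) (s' : Fin 3), 𝒟.arm c ≠ s' → ∀ g : J → V,
      ∑ l with 𝒟.arm l = s', f ((Pi.single c v : J → V) l) (g l) = 0 := by
    intro c v s' hc g
    refine Finset.sum_eq_zero fun l hl => ?_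
    have : l ≠ c := by
      rintro rfl
      exact hc (Finset.mem_filter.mp hl).2
    rw [Pi.single_eq_of_ne this, map_zero, LinearMap.zero_apply]
  have hZ : ∀ l, f (Zf a b va vb l) (𝒟.om t l) = f ((Pi.single a va : J → V) l) (𝒟.om t l) +
      f ((Pi.single b vb : J → V) l) (𝒟.om t l) := by
    intro l
    rw [Zf, Pi.add_apply, map_add, LinearMap.add_apply]
  simp only [hZ, Finset.sum_sub_distrib, Finset.sum_add_distrib]
  have harm : s = 0 ∨ s = 1 ∨ s = 2 := by fin_cases s <;> simp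
  rcases harm with rfl | rfl | rfl
  · rw [key a va 0 h.arm_a, key' b vb 0 (by rw [h.arm_b]; decide), add_zero, h.om_a ht, map_sum,
      sub_eq_zero]
    refine Finset.sum_congr (by ext; simp) fun l hl => ?_
    have hl' : 𝒟.arm l = 0 := (Finset.mem_filter.mp hl).2
    rw [yy, if_pos hl', map_smul, map_smul, LinearMap.smul_apply]
  · rw [key' a va 1 (by rw [h.arm_a]; decide), key b vb 1 h.arm_b, zero_add, h.om_b ht, map_neg,
      map_sum, sub_eq_zero, ← Finset.sum_neg_distrib]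
    refine Finset.sum_congr (by ext; simp) fun l hl => ?_
    have hl' : 𝒟.arm l = 1 := (Finset.mem_filter.mp hl).2
    rw [yy, if_neg (by rw [hl']; decide), if_pos hl', map_smul, map_neg, map_smul,
      LinearMap.neg_apply, LinearMap.smul_apply]
  · rw [key' a va 2 (by rw [h.arm_a]; decide), key' b vb 2 (by rw [h.arm_b]; decide), add_zero,
      zero_sub, neg_eq_zero]
    refine Finset.sum_eq_zero fun l hl => ?_
    have hl' : 𝒟.arm l = 2 := (Finset.mem_filter.mp hl).2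
    rw [yy, if_neg (by rw [hl']; decide), if_neg (by rw [hl']; decide), map_zero,
      LinearMap.zero_apply]

end adj

end cfg

end Vale.Agent.P182.SPIN
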