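import Vale.Agent.P182.H532.SBridge

/-!
# T-SPIN: base change of the special data, the data from `Ext(N_s, S/R) = 0`
-/

namespace Vale.Agent.P182.H588.SP

open Module Matrix TensorProduct Vale.Agent.P182.H533 Vale.Agent.P182.B1 Vale.Agent.P182.H62
open Vale.Agent.P182.H96 (ofCfg toCfg pp pp_eq om Rd)
open Vale.Agent.P182.H338 (SpinC SpinC1 SVersal uz uzM ExtZeroS UStrictS)
open Vale.Agent.P182.H258 (famS mem_famS evf fam finrank_famS famS_mono famS_inf pp_bc f_M ofCfg_K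
  K_bc E_bc)

universe u v w

section bc

variable {L : Type u} {V : Type v} {J : Type w} [Field L] [AddCommGroup V] [Module L V]
  {L' : Type u} [Field L'] [Algebra L L'] [Fintype J] {𝒟 : Cfg L V J} {c0 c1 : J}

/-- the families with constant coefficients span -/
theorem famS_eq_span [DecidableEq J] (X : Submodule L (J → V)) :
    famS L' X = Submodule.span L' (fam L' '' (X : Set (J → V))) := by
  have h1 : (X.baseChange L').map (piE J L L' V).toLinearMap = famS L' X := by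
    have key : ∀ x : L' ⊗[L] (J → V), x ∈ X.baseChange L' ↔ piE J L L' V x ∈ famS L' X := by
      intro x
      rw [mem_bc_iff, mem_famS]
      refine forall_congr' fun f => ?_
      have : evf f (piE J L L' V x) = ev f x := by
        funext l
        exact ev_piE f x l
      rw [this]
    ext t
    rw [Submodule.mem_map]
    constructor
    · rintro ⟨x, hx, rfl⟩
      exact (key x).mp hx
    · intro ht
      refine ⟨(piE J L L' V).symm t, ?_, (piE J L L' V).apply_symm_apply t⟩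
      rw [key, LinearEquiv.apply_symm_apply]
      exact ht
  have hpi : ∀ x : J → V, piE J L L' V ((1 : L') ⊗ₜ[L] x) = fam L' x := by
    intro x
    funext l
    have h2 : ∀ f : L' →ₗ[L] L, ev f (piE J L L' V ((1 : L') ⊗ₜ[L] x) l - fam L' x l) = 0 := by
      intro f
      rw [map_sub, ev_piE, sub_eq_zero]
      rw [ev_tmul, fam, ev_tmul]
      rfl
    exact sub_eq_zero.mp (eq_zero_of_ev (L := L) h2)
  rw [← h1, Submodule.baseChange_eq_span, Submodule.map_span]
  congr 1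
  ext t
  constructor
  · rintro ⟨_, ⟨x, hx, rfl⟩, rfl⟩
    exact ⟨x, hx, (hpi x).symm⟩
  · rintro ⟨x, hx, rfl⟩
    exact ⟨_, ⟨x, hx, rfl⟩, hpi x⟩

theorem perp_famS [DecidableEq J] (g : 𝒟.Good) (X : Submodule L (J → V)) :
    (ofCfg (bcC 𝒟 L')).perp (famS L' X) = famS L' ((ofCfg 𝒟).perp X) := by
  ext t
  rw [H96.Cf.mem_perp, mem_famS]
  constructor
  · rintro ⟨h1, h2⟩ f
    refine H96.Cf.mem_perp.mpr ⟨fun l => mem_bc_iff.mp (h1 l) f, fun w hw => ?_⟩
    rw [← f_M g, h2 (fam L' w) ?_, map_zero]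
    rw [famS_eq_span]
    exact Submodule.subset_span ⟨w, hw, rfl⟩
  · intro h
    refine ⟨fun l => mem_bc_iff.mpr fun f => (H96.Cf.mem_perp.mp (h f)).1 l, fun w hw => ?_⟩
    rw [famS_eq_span] at hw
    induction hw using Submodule.span_induction with
    | mem w hw =>
      obtain ⟨x, hx, rfl⟩ := hw
      refine fun_sep (L := L) fun f => ?_
      rw [f_M g]
      exact (H96.Cf.mem_perp.mp (h f)).2 x hx
    | zero => rw [map_zero, LinearMap.zero_apply]
    | add x y _ _ hx hy => rw [map_add, LinearMap.add_apply, hx, hy, add_zero]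
    | smul c x _ hx => rw [map_smul, LinearMap.smul_apply, hx, smul_zero]

omit [Fintype J] in
theorem Esh_bc (D : Submodule L V) :
    Esh (ofCfg (bcC 𝒟 L')) c0 c1 (D.baseChange L') = famS L' (Esh (ofCfg 𝒟) c0 c1 D) := by
  ext t
  rw [mem_famS]
  constructor
  · rintro ⟨h1, h2, h3⟩ f
    refine ⟨fun l => mem_bc_iff.mp (h1 l) f, fun l a0 a1 => mem_bc_iff.mp (h2 l a0 a1) f, ?_⟩
    have := mem_bc_iff.mp h3 f
    rwa [map_add] at this
  · intro h
    refine ⟨fun l => mem_bc_iff.mpr fun f => (h f).1 l,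
      fun l a0 a1 => mem_bc_iff.mpr fun f => (h f).2.1 l a0 a1, mem_bc_iff.mpr fun f => ?_⟩
    rw [map_add]
    exact (h f).2.2

/-- the families `κ` -/
noncomputable def KS (a : H96.Cf L V J (Fin 3)) (c0 c1 : J) : Submodule L (J → V) :=
  (a.C c0 ⊓ a.C c1).map (kap (L := L) c0 c1)

omit [Fintype J] in
theorem mem_KS {a : H96.Cf L V J (Fin 3)} (hne : c0 ≠ c1) {z : J → V} :
    z ∈ KS a c0 c1 ↔ (∀ l, l ≠ c0 → l ≠ c1 → z l = 0) ∧ z c0 + z c1 = 0 ∧ z c0 ∈ a.C c0 ∧
      z c0 ∈ a.C c1 := by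
  constructor
  · rintro ⟨v, ⟨h0, h1⟩, rfl⟩
    refine ⟨fun l a0 a1 => kap_ne a0 a1 v, ?_, ?_, ?_⟩
    · rw [kap_c0 hne, kap_c1 hne, add_neg_cancel]
    · rw [kap_c0 hne]; exact h0
    · rw [kap_c0 hne]; exact h1
  · rintro ⟨h1, h2, h3, h4⟩
    refine ⟨z c0, ⟨h3, h4⟩, ?_⟩
    funext l
    by_cases a0 : l = c0
    · subst a0; exact kap_c0 hne _
    · by_cases a1 : l = c1
      · subst a1
        rw [kap_c1 hne]
        exact (eq_neg_of_add_eq_zero_right h2).symm
      · rw [kap_ne a0 a1, h1 l a0 a1]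

omit [Fintype J] in
theorem KS_bc (hne : c0 ≠ c1) :
    KS (ofCfg (bcC 𝒟 L')) c0 c1 = famS L' (KS (ofCfg 𝒟) c0 c1) := by
  ext t
  rw [mem_KS hne, mem_famS]
  constructor
  · rintro ⟨h1, h2, h3, h4⟩ f
    rw [mem_KS hne]
    refine ⟨fun l a0 a1 => ?_, ?_, mem_bc_iff.mp h3 f, mem_bc_iff.mp h4 f⟩
    · show ev f (t l) = 0
      rw [h1 l a0 a1, map_zero]
    · show ev f (t c0) + ev f (t c1) = 0
      rw [← map_add, h2, map_zero]
  · intro h
    refine ⟨fun l a0 a1 => eq_zero_of_ev (L := L) fun f => ?_,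
      eq_zero_of_ev (L := L) fun f => ?_, mem_bc_iff.mpr fun f => ?_, mem_bc_iff.mpr fun f => ?_⟩
    · exact ((mem_KS hne).mp (h f)).1 l a0 a1
    · rw [map_add]
      exact ((mem_KS hne).mp (h f)).2.1
    · exact ((mem_KS hne).mp (h f)).2.2.1
    · exact ((mem_KS hne).mp (h f)).2.2.2

theorem famS_sup [DecidableEq J] (X Y : Submodule L (J → V)) :
    famS L' (X ⊔ Y) = famS L' X ⊔ famS L' Y := by
  refine le_antisymm ?_ (sup_le (famS_mono le_sup_left) (famS_mono le_sup_right))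
  rw [famS_eq_span, Submodule.span_le]
  rintro _ ⟨x, hx, rfl⟩
  obtain ⟨a, ha, b, hb, rfl⟩ := Submodule.mem_sup.mp hx
  have e : fam (L := L) L' (a + b) = fam L' a + fam L' b := by
    funext l
    exact tmul_add _ _ _
  rw [e]
  refine Submodule.add_mem_sup ?_ ?_
  · rw [famS_eq_span]; exact Submodule.subset_span ⟨a, ha, rfl⟩
  · rw [famS_eq_span]; exact Submodule.subset_span ⟨b, hb, rfl⟩

/-- base change of the data -/
theorem datS_bc [DecidableEq J] (g : 𝒟.Good) {R S : Submodule L V}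
    (D : DatS (ofCfg 𝒟) c0 c1 R S) :
    DatS (ofCfg (bcC 𝒟 L')) c0 c1 (R.baseChange L') (S.baseChange L') where
  le := Submodule.baseChange_mono L' D.le
  iso := by
    rw [pp_bc g]
    exact Submodule.baseChange_mono L' D.iso
  ext := by
    rw [pp_bc g, pp_bc g, Esh_bc, Esh_bc, E_bc, perp_famS g, ← famS_inf]
    exact famS_mono D.ext

/-- base change of the dimension of the radical -/
theorem rad_bc_s [DecidableEq J] (g : 𝒟.Good) (S : Submodule L V) :
    finrank L' (Esh (ofCfg (bcC 𝒟 L')) c0 c1 (pp (ofCfg (bcC 𝒟 L')).q (S.baseChange L')) ⊓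
      (ofCfg (bcC 𝒟 L')).perp (Esh (ofCfg (bcC 𝒟 L')) c0 c1
        (pp (ofCfg (bcC 𝒟 L')).q (S.baseChange L'))) : Submodule L' (J → L' ⊗[L] V)) =
    finrank L (Esh (ofCfg 𝒟) c0 c1 (pp (ofCfg 𝒟).q S) ⊓
      (ofCfg 𝒟).perp (Esh (ofCfg 𝒟) c0 c1 (pp (ofCfg 𝒟).q S)) : Submodule L (J → V)) := by
  rw [pp_bc g, Esh_bc, perp_famS g, ← famS_inf, finrank_famS]

theorem EK_bc [DecidableEq J] (hne : c0 ≠ c1) (S : Submodule L V) :
    finrank L' ((ofCfg (bcC 𝒟 L')).E (S.baseChange L') ⊔ KS (ofCfg (bcC 𝒟 L')) c0 c1 :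
      Submodule L' (J → L' ⊗[L] V)) =
    finrank L ((ofCfg 𝒟).E S ⊔ KS (ofCfg 𝒟) c0 c1 : Submodule L (J → V)) := by
  rw [E_bc, KS_bc hne, ← famS_sup, finrank_famS]

end bc

section ext

variable {L : Type u} {V : Type u} {J : Type w} [Field L] [AddCommGroup V] [Module L V]
  {𝒟 : Cfg L V J} {R S : Submodule L V} [Fintype J] {c0 c1 : J}

/-- the value of the form at a family supported in one column -/
theorem M_single [DecidableEq J] {a : H96.Cf L V J (Fin 3)} (l : J) (v : V) (z : J → V) :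
    a.M (Pi.single l v) z = a.q v (om a.Ω z l) := by
  rw [H96.Cf.M_apply, Finset.sum_eq_single l]
  · rw [Pi.single_eq_same]
  · intro k _ hk
    rw [Pi.single_eq_of_ne hk, map_zero, LinearMap.zero_apply]
  · intro h; exact absurd (Finset.mem_univ _) h

/-- the symmetrized family -/
noncomputable def zh (a : H96.Cf L V J (Fin 3)) (c0 c1 : J) (z : J → V) : J → V :=
  z + kap (L := L) c0 c1 ((2 : L)⁻¹ • UM a c0 c1 z)

theorem UM_zh {a : H96.Cf L V J (Fin 3)} (hs : Spc a c0 c1) (h : a.Good) (h2 : (2 : L) ≠ 0)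
    (z : J → V) : UM a c0 c1 (zh a c0 c1 z) = 0 := by
  rw [zh, map_add, UM_kap hs h, smul_smul, neg_mul, mul_inv_cancel₀ h2, neg_smul, one_smul,
    add_neg_cancel]

theorem zh_ne {a : H96.Cf L V J (Fin 3)} (z : J → V) {l : J} (a0 : l ≠ c0) (a1 : l ≠ c1) :
    zh a c0 c1 z l = z l := by
  rw [zh, Pi.add_apply, kap_ne a0 a1, add_zero]

theorem zh_c0 {a : H96.Cf L V J (Fin 3)} (hs : Spc a c0 c1) (z : J → V) :
    zh a c0 c1 z c0 = z c0 + (2 : L)⁻¹ • UM a c0 c1 z := by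
  rw [zh, Pi.add_apply, kap_c0 hs.ne]

theorem zh_c1 {a : H96.Cf L V J (Fin 3)} (hs : Spc a c0 c1) (z : J → V) :
    zh a c0 c1 z c1 = z c1 - (2 : L)⁻¹ • UM a c0 c1 z := by
  rw [zh, Pi.add_apply, kap_c1 hs.ne, sub_eq_add_neg]

/-- the sum of the two middle values -/
theorem zh_sum {a : H96.Cf L V J (Fin 3)} (hs : Spc a c0 c1) (z : J → V) :
    zh a c0 c1 z c0 + zh a c0 c1 z c1 = z c0 + z c1 := by
  rw [zh_c0 hs, zh_c1 hs]
  abel

theorem om_zh {a : H96.Cf L V J (Fin 3)} (hs : Spc a c0 c1) (h : a.Good) (z : J → V) {l : J}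
    (a0 : l ≠ c0) (a1 : l ≠ c1) : om a.Ω (zh a c0 c1 z) l = om a.Ω z l := by
  rw [zh, H96.om_add, om_kap hs h a0 a1, add_zero]

/-- the values lie in a subspace which contains the reduced values -/
theorem zh_mem {a : H96.Cf L V J (Fin 3)} (hs : Spc a c0 c1) (h : a.Good) (h2 : (2 : L) ≠ 0)
    {D : Submodule L V} {z : J → V} (h1 : ∀ l, l ≠ c0 → l ≠ c1 → z l ∈ D)
    (h3 : z c0 + z c1 ∈ D) (l : J) : zh a c0 c1 z l ∈ D := by
  classical
  have e3 : UM a c0 c1 z = z c1 - z c0 +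
      ∑ l ∈ (Finset.univ.filter fun l => l ≠ c0 ∧ l ≠ c1), uu a c0 c1 l • z l := by
    rw [UM_apply, ← Finset.add_sum_erase _ _ (Finset.mem_univ c0),
      ← Finset.add_sum_erase _ _ (Finset.mem_erase.mpr ⟨hs.ne.symm, Finset.mem_univ c1⟩),
      uu_c0 hs h, uu_c1 hs, neg_one_smul, one_smul]
    have h4 : (Finset.univ.erase c0).erase c1 =
        Finset.univ.filter fun l => l ≠ c0 ∧ l ≠ c1 := by
      ext l
      simp only [Finset.mem_erase, Finset.mem_univ, and_true, Finset.mem_filter, true_and]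
      tauto
    rw [h4]
    abel
  set X : V := ∑ l ∈ (Finset.univ.filter fun l => l ≠ c0 ∧ l ≠ c1), uu a c0 c1 l • z l with hX
  have hXD : X ∈ D := by
    refine D.sum_mem fun l hl => ?_
    simp only [Finset.mem_filter, Finset.mem_univ, true_and] at hl
    exact D.smul_mem _ (h1 l hl.1 hl.2)
  by_cases a0 : l = c0
  · subst a0
    rw [zh_c0 hs, e3]
    have e4 : z l + (2 : L)⁻¹ • (z c1 - z l + X) = (2 : L)⁻¹ • (z l + z c1) +
        (2 : L)⁻¹ • X := by
      have e5 : z l = (2 : L)⁻¹ • ((2 : L) • z l) := by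
        rw [smul_smul, inv_mul_cancel₀ h2, one_smul]
      rw [← smul_add]
      nth_rewrite 1 [e5]
      rw [← smul_add, two_smul]
      congr 1
      abel
    rw [e4]
    exact add_mem (D.smul_mem _ h3) (D.smul_mem _ hXD)
  · by_cases a1 : l = c1
    · subst a1
      rw [zh_c1 hs, e3]
      have e4 : z l - (2 : L)⁻¹ • (z l - z c0 + X) = (2 : L)⁻¹ • (z c0 + z l) -
          (2 : L)⁻¹ • X := by
        have e5 : z l = (2 : L)⁻¹ • ((2 : L) • z l) := by
          rw [smul_smul, inv_mul_cancel₀ h2, one_smul]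
        rw [← smul_sub]
        nth_rewrite 1 [e5]
        rw [← smul_sub, two_smul]
        congr 1
        abel
      rw [e4]
      exact sub_mem (D.smul_mem _ h3) (D.smul_mem _ hXD)
    · rw [zh_ne z a0 a1]
      exact h1 l a0 a1

/-- **The data from `Ext(N_s, S/R) = 0`.** -/
theorem datS_of_ext [DecidableEq J] [FiniteDimensional L V] (g : 𝒟.Good) (h2 : (2 : L) ≠ 0) (hs : SpinC1 𝒟 c0 c1)
    (hRS : R ≤ S) (hS : 𝒟.Iso S)
    (hE : ExtZeroS (sq 𝒟 g R) c0 c1 (SQim R S)) : DatS (ofCfg 𝒟) c0 c1 R S where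
  le := hRS
  iso := by
    show S ≤ pp 𝒟.q S
    rw [pp_eq g.form]
    exact hS
  ext := by
    have hs' := spc_ofCfg g hs
    have g' := H96.good_ofCfg g
    rintro z ⟨hz1, hz2⟩
    set t := zh (ofCfg 𝒟) c0 c1 z with ht
    have hC : ∀ l, z l ∈ 𝒟.C l := hz1.1
    have hR : ∀ l, t l ∈ perp 𝒟.q R := fun l => by
      rw [← pp_eq g.form]
      exact zh_mem hs' g' h2 hz1.2.1 hz1.2.2 l
    have hU0 : UM (ofCfg 𝒟) c0 c1 t = 0 := UM_zh hs' g' h2 z
    -- the conditions against `S`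
    have hM : ∀ l, ∀ v ∈ 𝒟.C l, v ∈ S → 𝒟.q v (om 𝒟.Ω z l) = 0 := by
      intro l v hv hvS
      have h3 := (H96.Cf.mem_perp.mp hz2).2 (Pi.single l v) (H96.Cf.mem_E.mpr fun k => by
        by_cases hk : k = l
        · subst hk; rw [Pi.single_eq_same]; exact ⟨hv, hvS⟩
        · rw [Pi.single_eq_of_ne hk]; exact ⟨zero_mem _, zero_mem _⟩)
      rwa [M_single] at h3
    have hU : ∀ v ∈ S, (v ∈ 𝒟.C c0 ∨ v ∈ 𝒟.C c1) → 𝒟.q v (UM (ofCfg 𝒟) c0 c1 z) = 0 := by
      intro v hvS hv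
      rcases hv with hv | hv
      · have h3 := hM c0 v hv hvS
        have h4 : om 𝒟.Ω z c0 = UM (ofCfg 𝒟) c0 c1 z + z c0 := om_c0 hs' g' h2 z
        rw [h4, map_add] at h3
        have h5 : 𝒟.q v (z c0) = 0 := by
          have := g.iso _ _ hv
          exact this _ (hC c0)
        rwa [h5, add_zero] at h3
      · have h3 := hM c1 v hv hvS
        have h4 : om 𝒟.Ω z c1 = UM (ofCfg 𝒟) c0 c1 z - z c1 := om_c1 hs' g' h2 z
        rw [h4, map_sub] at h3
        have h5 : 𝒟.q v (z c1) = 0 := by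
          have := g.iso _ _ hv
          exact this _ (hC c1)
        rwa [h5, sub_zero] at h3
    -- the symmetrized family against `S ∩ C_l^⊥`
    have ht1 : ∀ l, ∀ v ∈ S, v ∈ perp 𝒟.q (𝒟.C l) → 𝒟.q v (t l) = 0 := by
      intro l v hvS hv
      by_cases a0 : l = c0
      · subst a0
        rw [ht, zh_c0 hs', map_add, map_smul, hv _ (hC l), hU v hvS (Or.inl ?_), smul_zero,
          add_zero]
        rw [← hs.lag0]; exact hv
      · by_cases a1 : l = c1
        · subst a1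
          rw [ht, zh_c1 hs', map_sub, map_smul, hv _ (hC l), hU v hvS (Or.inr ?_), smul_zero,
            sub_zero]
          rw [← hs.lag1]; exact hv
        · rw [ht, zh_ne z a0 a1]
          exact hv _ (hC l)
    have ht2 : ∀ l, ∀ v ∈ S, v ∈ 𝒟.C l → 𝒟.q v (𝒟.om t l) = 0 := by
      intro l v hvS hv
      by_cases a0 : l = c0
      · subst a0
        have h4 : 𝒟.om t l = UM (ofCfg 𝒟) l c1 t + t l := om_c0 hs' g' h2 t
        rw [h4, hU0, zero_add]
        refine ht1 l v hvS ?_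
        rw [hs.lag0]; exact hv
      · by_cases a1 : l = c1
        · subst a1
          have h4 : 𝒟.om t l = UM (ofCfg 𝒟) c0 l t - t l := om_c1 hs' g' h2 t
          rw [h4, hU0, zero_sub, map_neg, neg_eq_zero]
          refine ht1 l v hvS ?_
          rw [hs.lag1]; exact hv
        · have h4 : 𝒟.om t l = om 𝒟.Ω z l := om_zh hs' g' z a0 a1
          rw [h4]
          exact hM l v hv hvS
    let y : J → Dual L ↥(SQim (q := 𝒟.q) R S) := fun l =>
      ((sq 𝒟 g R).q (SQmk R ⟨t l, hR l⟩)).comp (SQim (q := 𝒟.q) R S).subtype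
    -- representatives in `S`
    have hrep : ∀ v : ↥(SQim (q := 𝒟.q) R S), ∀ W : Submodule L V, (v : SQ 𝒟.q R) ∈ SQim R W →
        ∃ v1, ∃ hv1 : v1 ∈ perp 𝒟.q R, v1 ∈ W ∧ v1 ∈ S ∧ SQmk R ⟨v1, hv1⟩ = v := by
      intro v W hv
      obtain ⟨⟨v0, hv0⟩, hvS0, hv'⟩ := (mem_SQim R).mp v.2
      obtain ⟨⟨v1, hv1⟩, hvC1, hv1'⟩ := (mem_SQim R).mp hv
      have h3 : v1 - v0 ∈ R := by
        have e1 : SQmk R ⟨v1, hv1⟩ - SQmk R ⟨v0, hv0⟩ = 0 := by rw [hv1', hv', sub_self]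
        rw [← map_sub, SQmk_eq_zero] at e1
        exact e1
      have h4 : v1 ∈ S := by
        have e1 := S.add_mem (hRS h3) hvS0
        rwa [sub_add_cancel] at e1
      exact ⟨v1, hv1, hvC1, h4, hv1'⟩
    have hyv : ∀ k v1 (hv1 : v1 ∈ perp 𝒟.q R) (v : ↥(SQim (q := 𝒟.q) R S)),
        SQmk R ⟨v1, hv1⟩ = v → y k v = 𝒟.q v1 (t k) := by
      intro k v1 hv1 v hv
      show (sq 𝒟 g R).q (SQmk R ⟨t k, hR k⟩) v = _
      rw [← hv]
      exact g.form.symm _ _
    have hy0 : y = 0 := by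
      refine (H338.extZeroS_iff.mp hE) y (fun l v hv => ?_) (fun l v hv => ?_) (fun v => ?_)
      · rw [perp_sq_C g (fun r hr => fun s hs => hS (hRS hr) s (hRS hs))] at hv
        obtain ⟨v1, hv1, h3, h4, h5⟩ := hrep v _ hv
        rw [hyv l v1 hv1 v h5]
        exact ht1 l v1 h4 h3
      · obtain ⟨v1, hv1, h3, h4, h5⟩ := hrep v _ hv
        have h6 : ∑ k, (sq 𝒟 g R).Ω l k * y k v = 𝒟.q v1 (𝒟.om t l) := by
          rw [Cfg.om, map_sum]
          refine Finset.sum_congr rfl fun k _ => ?_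
          rw [map_smul, smul_eq_mul, hyv k v1 hv1 v h5]
          rfl
        rw [h6]
        exact ht2 l v1 h4 h3
      · obtain ⟨⟨v1, hv1⟩, h4, h5⟩ := (mem_SQim R).mp v.2
        have h6 : ∑ k, uz (sq 𝒟 g R) c0 c1 k * y k v = 𝒟.q v1 (UM (ofCfg 𝒟) c0 c1 t) := by
          rw [UM_apply, map_sum]
          refine Finset.sum_congr rfl fun k _ => ?_
          rw [map_smul, smul_eq_mul, hyv k v1 hv1 v h5]
          rfl
        rw [h6, hU0, map_zero]
    have hmem : ∀ l, t l ∈ pp 𝒟.q S := by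
      intro l s hs1
      have hsR : s ∈ perp 𝒟.q R := fun r hr => hS hs1 r (hRS hr)
      have h7 := LinearMap.congr_fun (congrFun hy0 l)
        ⟨SQmk R ⟨s, hsR⟩, SQmk_mem_SQim R hs1⟩
      rw [hyv l s hsR _ rfl] at h7
      exact h7
    refine ⟨hC, fun l a0 a1 => ?_, ?_⟩
    · have := hmem l
      rw [ht, zh_ne z a0 a1] at this
      exact this
    · have := add_mem (hmem c0) (hmem c1)
      rw [ht, zh_sum hs'] at this
      exact this

end ext

end Vale.Agent.P182.H588.SP
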