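import Vale.Agent.P182.H532.SHyp
import Vale.Agent.P182.H388.SCount

/-!
# T-SPIN: base change of `FAs`
-/

namespace Vale.Agent.P182.H588.SP

open Module Matrix TensorProduct Vale.Agent.P182.H533 Vale.Agent.P182.B1 Vale.Agent.P182.H62
open Vale.Agent.P182.H96 (ofCfg toCfg pp pp_eq om Rd)
open Vale.Agent.P182.H338 (SpinC SpinC1 SVersal uz uzM ExtZeroS UStrictS IHSs thetaS)
open Vale.Agent.P182.H258 (famS mem_famS evf fam qbc_one qbc_zero isX_bc)
open Vale.Agent.P182.H388.S (UUs mem_UUs UUs_induction FAs TypeIs thS kapS)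

universe u v w

section bc

variable {L : Type u} {V : Type v} {J : Type w} [Field L] [AddCommGroup V] [Module L V]
  {L' : Type u} [Field L'] [Algebra L L'] [Fintype J] [DecidableEq J] {𝒟 : Cfg L V J} {c0 c1 : J}

theorem UUs_bc_le (g : 𝒟.Good) :
    UUs (ofCfg (bcC 𝒟 L')) c0 c1 ≤ (UUs (ofCfg 𝒟) c0 c1).baseChange L' := by
  intro u hu
  refine UUs_induction (a := ofCfg (bcC 𝒟 L')) (c0 := c0) (c1 := c1)
    (p := fun u => u ∈ (UUs (ofCfg 𝒟) c0 c1).baseChange L')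
    (zero_mem _) (fun _ _ => add_mem) (fun _ _ => Submodule.smul_mem _ _) ?_ u hu
  intro t ht l
  rw [Ks_bc g, mem_famS] at ht
  rw [mem_bc_iff]
  intro f
  exact mem_UUs (a := ofCfg 𝒟) (ht f) l

theorem mem_UUs_bc (g : 𝒟.Good) {u : V} (hu : u ∈ UUs (ofCfg 𝒟) c0 c1) :
    (1 : L') ⊗ₜ[L] u ∈ UUs (ofCfg (bcC 𝒟 L')) c0 c1 := by
  refine UUs_induction (a := ofCfg 𝒟) (c0 := c0) (c1 := c1)
    (p := fun u => (1 : L') ⊗ₜ[L] u ∈ UUs (ofCfg (bcC 𝒟 L')) c0 c1)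
    (by rw [tmul_zero]; exact zero_mem _) (fun _ _ h1 h2 => by rw [tmul_add]; exact add_mem h1 h2)
    (fun c u h => by
      rw [tmul_smul, ← algebraMap_smul L' c]
      exact Submodule.smul_mem _ _ h) ?_ u hu
  intro t ht l
  have h1 : fam L' t ∈ Ks (ofCfg (bcC 𝒟 L')) c0 c1 := by
    rw [Ks_bc g, mem_famS]
    intro f
    have : evf f (fam (L := L) L' t) = f 1 • t := by
      funext l
      show ev f ((1 : L') ⊗ₜ[L] t l) = f 1 • t l
      rw [ev_tmul]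
    rw [this]
    exact Submodule.smul_mem _ _ ht
  exact mem_UUs (a := ofCfg (bcC 𝒟 L')) h1 l

/-- the conclusion of (5a) descends -/
theorem fas_desc (g : 𝒟.Good) (hE : DExt L L') {x : J → V}
    (h : FAs (ofCfg (bcC 𝒟 L')) c0 c1 (fam L' x)) : FAs (ofCfg 𝒟) c0 c1 x := by
  intro c hc hcx u hu u' hu'
  obtain ⟨d', hl, hd⟩ := hE c.d c.leib
  have hd1 : d' 1 = 0 := by
    have := hl 1 1
    simpa using this
  have hδ : ∀ v : V, (bcConn c d' hl hd).δ ((1 : L') ⊗ₜ[L] v) = (1 : L') ⊗ₜ[L] c.δ v := by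
    intro v
    show d' 1 ⊗ₜ[L] v + (1 : L') ⊗ₜ[L] c.δ v = _
    rw [hd1, zero_tmul, zero_add]
  have h1 := h (bcConn c d' hl hd) (isX_bc hc d' hl hd) (fun l w hw => by
    show qbc L' 𝒟.q ((bcConn c d' hl hd).δ ((1 : L') ⊗ₜ[L] x l)) w = 0
    rw [hδ]
    exact qbc_zero (A := Submodule.span L {c.δ (x l)}) (B := UUs (ofCfg 𝒟) c0 c1)
      (fun a ha b hb => by
        obtain ⟨r, rfl⟩ := Submodule.mem_span_singleton.mp ha
        rw [map_smul, LinearMap.smul_apply]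
        have : 𝒟.q (c.δ (x l)) b = 0 := hcx l b hb
        rw [this, smul_zero])
      (Submodule.tmul_mem_baseChange_of_mem _ (Submodule.mem_span_singleton_self _))
      (UUs_bc_le g hw)) _ (mem_UUs_bc g hu) _ (mem_UUs_bc g hu')
  have h2 : qbc L' 𝒟.q ((1 : L') ⊗ₜ[L] c.δ u) ((1 : L') ⊗ₜ[L] u') = 0 := by
    rw [← hδ]
    exact h1
  rw [qbc_one, map_eq_zero] at h2
  exact h2

end bc

end Vale.Agent.P182.H588.SP
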