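import Vale.Agent.P182.H532.SRel

/-!
# The dichotomy for special configurations
-/

namespace Vale.Agent.P182.SPIN

open Module Matrix Vale.Agent.P182.H533 Vale.Agent.P182.B1 Vale.Agent.P182.H922
  Vale.Agent.P182.H578

section krel

variable {L V J : Type*} [Field L] [AddCommGroup V] [Module L V] [FiniteDimensional L V]
  [Fintype J] [DecidableEq J] {arm : J → Fin 3}

/-- **The Hessian identity on the core**, with the realisation of the operators. -/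
theorem hess_op {q : V →ₗ[L] V →ₗ[L] L} (hq : IsForm q)
    (h2 : (2 : L) ≠ 0) {Ω : Matrix J J L} (hΩ : Ωᵀ = -Ω) {K : Set ((J → L) →ₗ[L] V)}
    (hK : KRel arm q Ω K) {T : (J → L) →ₗ[L] V} (hT : T ∈ K)
    (hreal : ∀ (X : Fin 3 → End L V) (η : Matrix J J L), (∀ s, IsSk q (X s)) → ηᵀ = -η →
      (∀ x, T (η *ᵥ x) + ∑ s, X s (T (Gm arm Ω s *ᵥ x)) = 0) →
      ∃ c : Conn q, ∃ R ∈ K, ∀ s v, c.δ (Sop arm q T Ω s v) =
        Sop arm q T Ω s (c.δ v) + (X s (Sop arm q T Ω s v) - Sop arm q T Ω s (X s v)) +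
          (opr q R (Gm arm Ω s) T v + opr q T (Gm arm Ω s) R v))
    (C : Core q (Sop arm q T Ω)) {R0 : (J → L) →ₗ[L] V} (hR0 : R0 ∈ K) {D0 : End L C.V1}
    (hD0 : ∀ a, C.res hq (opr q T (Gm arm Ω a) R0) = C.S1 hq a * D0) {D : End L C.V1}
    (hD : D ∈ Algebra.adjoin L {D0})
    {A B : Fin 3 → End L C.V1} (hA : ∀ s, IsSk C.q1 (A s))
    (hsA : ∑ s, (A s * C.S1 hq s - C.S1 hq s * A s) = 0)
    (hsB : ∑ s, (B s * C.S1 hq s - C.S1 hq s * B s) = 0) :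
    ∑ s, LinearMap.trace L C.V1 (B s * (D * (A s * C.S1 hq s - C.S1 hq s * A s) -
      (A s * C.S1 hq s - C.S1 hq s * A s) * D)) = 0 := by
  have hSA := Sop_SA arm hq T hΩ
  obtain ⟨X, hX, hXI, hXA, η, hη, hTη⟩ := exists_lift arm hq h2 T hΩ C hA hsA
  obtain ⟨c, R, hR, hc1⟩ := hreal X η hX hη hTη
  -- the operators
  have hcR := hK.compat hq hΩ hT hR
  have hc0 := hK.compat hq hΩ hT hR0
  obtain ⟨DR, hDRs, hDR1, hDR2⟩ := C.exists_D hq hSA hcR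
  obtain ⟨D0', hD0s, hD01, hD02⟩ := C.exists_D hq hSA hc0
  have h0 : D0' = D0 := C.D_unique hq hSA fun a => by rw [← hD01, hD0]
  subst h0
  have hcomm : D0' * DR = DR * D0' := C.D_comm hq hSA hc0 hcR
    (fun a b v => hK.comm hq hΩ hT hR0 hR a b v) hD01 hD02 hDR1 hDR2
  have hS0 : ∀ s, D0' * C.S1 hq s = C.S1 hq s * D0' := fun s => by rw [← hD02, ← hD01]
  -- extend to the algebra
  have hext : ∀ M : End L C.V1, D0' * M = M * D0' → D * M = M * D := by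
    intro M hM
    have h1 : Algebra.adjoin L {D0'} ≤ Subalgebra.centralizer L {M} := by
      rw [Algebra.adjoin_le_iff, Set.singleton_subset_iff]
      rw [SetLike.mem_coe, Subalgebra.mem_centralizer_iff]
      intro g hg
      rw [Set.mem_singleton_iff.mp hg]
      exact hM.symm
    exact ((Subalgebra.mem_centralizer_iff L).mp (h1 hD) M rfl).symm
  let M : Fin 3 → End L V := fun s => opr q R (Gm arm Ω s) T + opr q T (Gm arm Ω s) R
  have hM1 : ∀ s, M s = (2 : L) • opr q T (Gm arm Ω s) R := by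
    intro s
    show opr q R (Gm arm Ω s) T + opr q T (Gm arm Ω s) R = _
    rw [hK.swap hq hΩ hR hT, two_smul]
  have hM2 : ∀ s, C.res hq (M s) = (2 : L) • (C.S1 hq s * DR) := by
    intro s
    rw [hM1, C.res_smul, ← hDR1]
  obtain ⟨c1, -, hc1'⟩ := C.exists_conn' hq hSA hX hXI hXA c (M := M) (by
      intro s w hw
      rw [hM1]
      exact Submodule.smul_mem _ _ (C.W_le_perp hq (hcR.map_W C s hw)))
    hc1
  refine c1.hess' hc1' (fun s => hext _ (hS0 s)) (fun s => ?_) hsB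
  rw [hM2, mul_smul_comm, smul_mul_assoc]
  congr 1
  refine hext _ ?_
  rw [← mul_assoc, hS0, mul_assoc, mul_assoc, hcomm]

/-- **One eigenvalue or the null case**, with the realisation of the operators. -/
theorem one_eigenvalue_or_null_op [IsAlgClosed L] {q : V →ₗ[L] V →ₗ[L] L} (hq : IsForm q)
    (h2 : (2 : L) ≠ 0) {Ω : Matrix J J L} (hΩ : Ωᵀ = -Ω) {K : Set ((J → L) →ₗ[L] V)}
    (hK : KRel arm q Ω K) {T : (J → L) →ₗ[L] V} (hT : T ∈ K)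
    (hreal : ∀ (X : Fin 3 → End L V) (η : Matrix J J L), (∀ s, IsSk q (X s)) → ηᵀ = -η →
      (∀ x, T (η *ᵥ x) + ∑ s, X s (T (Gm arm Ω s *ᵥ x)) = 0) →
      ∃ c : Conn q, ∃ R ∈ K, ∀ s v, c.δ (Sop arm q T Ω s v) =
        Sop arm q T Ω s (c.δ v) + (X s (Sop arm q T Ω s v) - Sop arm q T Ω s (X s v)) +
          (opr q R (Gm arm Ω s) T v + opr q T (Gm arm Ω s) R v))
    (hn : ∀ s, IsNilpotent (Sop arm q T Ω s)) (C : Core q (Sop arm q T Ω))
    {R0 : (J → L) →ₗ[L] V} (hR0 : R0 ∈ K) {D : End L C.V1}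
    (hD1 : ∀ a, C.res hq (opr q T (Gm arm Ω a) R0) = C.S1 hq a * D)
    (hD2 : ∀ a, C.res hq (opr q T (Gm arm Ω a) R0) = D * C.S1 hq a) (hDs : IsSA C.q1 D) :
    (∃ d : L, IsNilpotent (D - d • (1 : End L C.V1))) ∨ NullCore C hq := by
  rcases nilp_or_idem D with h | ⟨f, hf1, hf2, hf3⟩
  · exact Or.inl h
  right
  have hSA := Sop_SA arm hq T hΩ
  have hnd : (C.q1 : LinearMap.BilinForm L C.V1).Nondegenerate :=
    ⟨(C.isForm hq).nondeg, fun y h => (C.isForm hq).nondeg y fun x => by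
      rw [(C.isForm hq).symm]; exact h x⟩
  have hcomm : ∀ s, D * C.S1 hq s = C.S1 hq s * D := fun s => by rw [← hD2, ← hD1]
  have hcommf : ∀ s, Polynomial.aeval D f * C.S1 hq s = C.S1 hq s * Polynomial.aeval D f := by
    intro s
    have h3 : Commute (C.S1 hq s) D := (hcomm s).symm
    have h4 : Polynomial.aeval D f ∈ Algebra.adjoin L {D} :=
      Polynomial.aeval_mem_adjoin_singleton L D
    have h5 : Algebra.adjoin L {D} ≤ Subalgebra.centralizer L {C.S1 hq s} := by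
      rw [Algebra.adjoin_le_iff, Set.singleton_subset_iff, SetLike.mem_coe,
        Subalgebra.mem_centralizer_iff]
      intro g hg
      rw [Set.mem_singleton_iff.mp hg]
      exact h3
    exact ((Subalgebra.mem_centralizer_iff L).mp (h5 h4) _ rfl).symm
  have hsum : ∑ s, C.S1 hq s = 0 := by
    ext v
    have h3 : (∑ s, C.S1 hq s) v = C.P hq ((∑ s, Sop arm q T Ω s) v) := by
      rw [LinearMap.sum_apply, LinearMap.sum_apply, map_sum]
      rfl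
    have h4 : ∑ s, Sop arm q T Ω s = 0 := by
      ext w
      have h5 := Gm_sum arm Ω
      have h6 : (∑ s, Sop arm q T Ω s) w = T ((∑ s, Gm arm Ω s) *ᵥ ad q T w) := by
        rw [LinearMap.sum_apply, Matrix.sum_mulVec, map_sum]
        rfl
      rw [h6, h5, Matrix.zero_mulVec, map_zero]
      rfl
    rw [h3, h4]
    simp
  refine split_null (B := C.q1) (S := C.S1 hq) (P := Polynomial.aeval D f) hnd
    (C.isForm hq).symm h2 (fun s => C.S1_SA hq hSA s) (S1_nilp hq hSA C hn) hsum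
    (C.iInf_ker hq hSA) hf1 (aeval_SA hDs f) (fun s => hcommf s) hf2 hf3 ?_
  intro A B hA hB
  exact hess_op hq h2 hΩ hK hT hreal C hR0 hD1 (Polynomial.aeval_mem_adjoin_singleton L D)
    hA.1 hA.2 hB.2

end krel

section cfg

variable {L V J : Type*} [Field L] [AddCommGroup V] [Module L V] [Fintype J] [DecidableEq J]
  {𝒟 : Cfg L V J} {a b : J}

/-- the realisation hypothesis for the special kernel -/
theorem realOp [FiniteDimensional L V] (h2 : (2 : L) ≠ 0) (hG : 𝒟.Good) (h : Sp 𝒟 a b)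
    (hV : H338.SVersal 𝒟 a b) {t : J → V} (ht : t ∈ H338.Ks 𝒟 a b) (X : Fin 3 → End L V)
    (η : Matrix J J L) (hX : ∀ s, IsSk 𝒟.q (X s)) (hη : ηᵀ = -η)
    (hT : ∀ x, Tt L t (η *ᵥ x) + ∑ s, X s (Tt L t (Gm 𝒟.arm 𝒟.Ω s *ᵥ x)) = 0) :
    ∃ c : Conn 𝒟.q, ∃ R ∈ Tt L '' (H338.Ks 𝒟 a b : Set (J → V)), ∀ s v,
      c.δ (Sop 𝒟.arm 𝒟.q (Tt L t) 𝒟.Ω s v) = Sop 𝒟.arm 𝒟.q (Tt L t) 𝒟.Ω s (c.δ v) +
        (X s (Sop 𝒟.arm 𝒟.q (Tt L t) 𝒟.Ω s v) - Sop 𝒟.arm 𝒟.q (Tt L t) 𝒟.Ω s (X s v)) +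
          (opr 𝒟.q R (Gm 𝒟.arm 𝒟.Ω s) (Tt L t) v + opr 𝒟.q (Tt L t) (Gm 𝒟.arm 𝒟.Ω s) R v) := by
  obtain ⟨n, p, R, hR, va, hva, vb, hvb, -, -, e1, e2⟩ := realS h2 hG h hV ht X η hX hη hT
  exact ⟨n, _, ⟨R, hR, rfl⟩, fun s v => delta_Res hG h ht.2 n hX e1 e2 s v⟩

/-- `t` has a core of maximal dimension among the elements of the special kernel -/
def MaxCoreS (𝒟 : Cfg L V J) (a b : J) (t : J → V) : Prop :=
  t ∈ H338.Ks 𝒟 a b ∧ ∀ t' ∈ H338.Ks 𝒟 a b, ∀ C : Core 𝒟.q (Res 𝒟 t), ∀ C' : Core 𝒟.q (Res 𝒟 t'),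
      finrank L C'.V1 ≤ finrank L C.V1

theorem exists_maxCoreS [FiniteDimensional L V] (𝒟 : Cfg L V J) (a b : J) :
    ∃ t, MaxCoreS 𝒟 a b t := by
  classical
  let P : ℕ → Prop := fun d => ∃ t ∈ H338.Ks 𝒟 a b, ∃ C : Core 𝒟.q (Res 𝒟 t), finrank L C.V1 = d
  have hP : ∃ d, P d := by
    obtain ⟨C⟩ := exists_core 𝒟.q (Res 𝒟 (0 : J → V))
    exact ⟨_, 0, Submodule.zero_mem _, C, rfl⟩
  have hb : ∀ d, P d → d ≤ finrank L V := by
    rintro d ⟨t, _, C, rfl⟩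
    exact Submodule.finrank_le _
  obtain ⟨t, ht, C, hC⟩ := Nat.findGreatest_spec (P := P) (hb _ hP.choose_spec) hP.choose_spec
  refine ⟨t, ht, fun t' ht' C1 C' => ?_⟩
  rw [finrank_core' C1 C, hC]
  exact Nat.le_findGreatest (Submodule.finrank_le _) ⟨t', ht', C', rfl⟩

/-- **The dichotomy for special configurations.** -/
theorem dichotomyS [FiniteDimensional L V] [IsAlgClosed L] [CharZero L] (hG : 𝒟.Good)
    (h : Sp 𝒟 a b) (hV : H338.SVersal 𝒟 a b) {t : J → V} (ht : MaxCoreS 𝒟 a b t)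
    (C : Core 𝒟.q (Res 𝒟 t)) :
    NullCore C hG.form ∨ ∀ t' ∈ H338.Ks 𝒟 a b, ∃ d : L, ∀ c : Fin 3 → L,
      IsNilpotent (lc (Res 𝒟 (t' - d • t)) c) := by
  by_cases hnull : NullCore C hG.form
  · exact Or.inl hnull
  right
  intro t' ht'
  have hq : IsForm 𝒟.q := hG.form
  have h2 : (2 : L) ≠ 0 := two_ne_zero
  have hK := kRelS h2 hG h hV
  have hT : Tt L t ∈ Tt L '' (H338.Ks 𝒟 a b : Set (J → V)) := ⟨t, ht.1, rfl⟩
  have hT' : Tt L t' ∈ Tt L '' (H338.Ks 𝒟 a b : Set (J → V)) := ⟨t', ht', rfl⟩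
  have hSA := Sop_SA 𝒟.arm hq (Tt L t) hG.skew
  obtain ⟨D, hDs, hD1, hD2⟩ := C.exists_D hq hSA (hK.compat hq hG.skew hT hT')
  rcases one_eigenvalue_or_null_op hq h2 hG.skew hK hT (fun X η hX hη hTη =>
    realOp h2 hG h hV ht.1 X η hX hη hTη) (fun s => nilp_Res hG ht.1.1 s) C hT' hD1 hD2 hDs
    with ⟨d, hd⟩ | h
  swap
  · exact absurd h hnull
  refine ⟨d, fun c => ?_⟩
  have hx : t' - d • t ∈ H338.Ks 𝒟 a b := Submodule.sub_mem _ ht' (Submodule.smul_mem _ _ ht.1)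
  have hy : t + (t' - d • t) ∈ H338.Ks 𝒟 a b := Submodule.add_mem _ ht.1 hx
  have hxe : Tt L (t' - d • t) = Tt L t' - d • Tt L t := by rw [Tt_sub, Tt_smul]
  have hx' : Tt L t' - d • Tt L t ∈ Tt L '' (H338.Ks 𝒟 a b : Set (J → V)) := ⟨_, hx, hxe⟩
  have hTe : Tt L (t + (t' - d • t)) = Tt L t + (Tt L t' - d • Tt L t) := by rw [Tt_add, hxe]
  have hTx : Tt L t + (Tt L t' - d • Tt L t) ∈ Tt L '' (H338.Ks 𝒟 a b : Set (J → V)) :=
    ⟨_, hy, hTe⟩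
  have hmax : ∀ C' : Core 𝒟.q (Sop 𝒟.arm 𝒟.q (Tt L t + (Tt L t' - d • Tt L t)) 𝒟.Ω),
      finrank L C'.V1 ≤ finrank L C.V1 := by
    rw [← hTe]
    exact fun C' => ht.2 _ hy C C'
  obtain ⟨C'⟩ := exists_core 𝒟.q
    (Sop 𝒟.arm 𝒟.q (Tt L t + (Tt L t' - d • Tt L t)) 𝒟.Ω)
  show IsNilpotent (lc (Sop 𝒟.arm 𝒟.q (Tt L (t' - d • t)) 𝒟.Ω) c)
  rw [hxe]
  exact nilpotent_sub hq hG.skew hK hT hx' hTx C C' (hmax C') hD1 hD2 hd c

end cfg

end Vale.Agent.P182.SPIN
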