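import Vale.Agent.P182.H532.GSurjC
import Vale.Agent.P182.H58.Glue7
import Vale.Agent.P182.H181.Second

/-!
# The solutions of generalised surjectivity are good families

(S) of note 20078 of helper563, at one base point.
-/

namespace Vale.Agent.P182.SPIN

open Module Matrix Vale.Agent.P182.H533 Vale.Agent.P182.B1 Vale.Agent.P182.H922
  Vale.Agent.P182.H578 Vale.Agent.P182.H588 Vale.Agent.P182.H181

variable {L V J : Type*} [Field L] [AddCommGroup V] [Module L V] [FiniteDimensional L V]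
  [Fintype J] [DecidableEq J] {𝒟 : Cfg L V J} {u : J → L} {t : J → V}

/-- a section of the stable image -/
theorem exists_xi (C : Core 𝒟.q (Res 𝒟 t)) :
    ∃ ξ : Fin 3 → End L V, (∀ a v, ξ a v ∈ C.W) ∧ ∀ w ∈ C.W, ∑ a, Res 𝒟 t a (ξ a w) = w := by
  apply H58.Glue7.exists_sec
  exact C.hW

omit [FiniteDimensional L V] in
/-- an element of the stable image killed by all residues is in the radical -/
theorem mem_I_of_kill (hG : 𝒟.Good) (C : Core 𝒟.q (Res 𝒟 t)) {z : V} (hz : z ∈ C.W)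
    (h : ∀ a, Res 𝒟 t a z = 0) : z ∈ C.I := by
  have hSA : ∀ a, IsSA 𝒟.q (Res 𝒟 t a) := fun a =>
    Sop_SA 𝒟.arm hG.form (Tt L t) hG.skew a
  refine ⟨hz, fun w hw => ?_⟩
  rw [← C.hW] at hw
  refine Submodule.iSup_induction (fun s => C.W.map (Res 𝒟 t s))
    (motive := fun w => 𝒟.q z w = 0) hw ?_ ?_ ?_
  · rintro s _ ⟨w, -, rfl⟩
    rw [← hSA, h, map_zero, LinearMap.zero_apply]
  · rw [map_zero]
  · intro x y hx hy
    rw [map_add, hx, hy, add_zero]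

/-- commutation on the core, as commutation modulo the radical -/
theorem comm_mem_I (hG : 𝒟.Good) (C : Core 𝒟.q (Res 𝒟 t)) {β : End L V} {s : Fin 3}
    (hβ : IsSA 𝒟.q β) (hβW : ∀ v, β v ∈ C.W)
    (hc : C.res hG.form β * C.S1 hG.form s = C.S1 hG.form s * C.res hG.form β) {w : V}
    (hw : w ∈ C.W) : Res 𝒟 t s (β w) - β (Res 𝒟 t s w) ∈ C.I := by
  have hq := hG.form
  have hSA : ∀ a, IsSA 𝒟.q (Res 𝒟 t a) := fun a => Sop_SA 𝒟.arm hq (Tt L t) hG.skew a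
  have hk : ∀ v ∈ perp 𝒟.q C.W, β v = 0 := fun v hv => kills_perp hq hβ hβW hv
  have h1 : C.P hq (β w) = C.res hq β (C.P hq w) := by
    rw [C.res_apply, ← sub_eq_zero, ← map_sub, ← map_sub,
      hk _ (C.I_le_perp (C.sub_P_mem_I hq hw)), map_zero]
  have h2 : C.P hq (β (Res 𝒟 t s w)) = C.res hq β (C.P hq (Res 𝒟 t s w)) := by
    rw [C.res_apply, ← sub_eq_zero, ← map_sub, ← map_sub,
      hk _ (C.I_le_perp (C.sub_P_mem_I hq (C.map_W hw))), map_zero]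
  have h3 : C.P hq (Res 𝒟 t s (β w) - β (Res 𝒟 t s w)) = 0 := by
    rw [map_sub, h2, C.P_S hq hSA s (C.W_le_perp hq (hβW w)), h1,
      C.P_S hq hSA s (C.W_le_perp hq hw), ← Module.End.mul_apply, ← Module.End.mul_apply, hc,
      sub_self]
  have h4 : Res 𝒟 t s (β w) - β (Res 𝒟 t s w) ∈ C.W :=
    sub_mem (C.map_W (hβW w)) (hβW _)
  have h5 := C.sub_P_mem_I hq h4
  rwa [h3, Submodule.coe_zero, sub_zero] at h5

/-- **The solutions are good families.** -/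
theorem relG_of_sol (hG : 𝒟.Good) (C : Core 𝒟.q (Res 𝒟 t)) {β : Fin 3 → End L V}
    (hβ : ∀ s, IsSA 𝒟.q (β s)) (hβW : ∀ s v, β s v ∈ C.W)
    (hc : ∀ s, C.res hG.form (β s) * C.S1 hG.form s = C.S1 hG.form s * C.res hG.form (β s))
    {r : J → V} (hF1 : ∀ l k, 𝒟.q (t l) (r k) = 𝒟.q (r l) (t k))
    (hF2 : ∀ s, IsSA 𝒟.q (opr 𝒟.q (Tt L t) (Gm 𝒟.arm 𝒟.Ω s) (Tt L r) - Res 𝒟 t s * β s)) :
    ∃ Γ, RelG 𝒟 C.W C.I t Γ r := by
  have hq := hG.form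
  have hSA : ∀ a, IsSA 𝒟.q (Res 𝒟 t a) := fun a => Sop_SA 𝒟.arm hq (Tt L t) hG.skew a
  set X : Fin 3 → End L V := fun a => opr 𝒟.q (Tt L t) (Gm 𝒟.arm 𝒟.Ω a) (Tt L r) with hX
  set Z : Fin 3 → End L V := fun a => opr 𝒟.q (Tt L r) (Gm 𝒟.arm 𝒟.Ω a) (Tt L t) with hZ
  have hadj : ∀ a u v, 𝒟.q (X a u) v = 𝒟.q u (Z a v) := fun a u v => opr_adj' hG _ _ _ _ _
  -- the relation between the two
  have hXZ : ∀ a v, Z a v = X a v - (Res 𝒟 t a (β a v) - β a (Res 𝒟 t a v)) := by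
    intro a v
    apply hq.ext
    intro w
    have h1 := hF2 a v w
    simp only [LinearMap.sub_apply, Module.End.mul_apply, map_sub] at h1
    have h3 : 𝒟.q v (X a w) = 𝒟.q (Z a v) w := by
      rw [hq.symm v, hadj, hq.symm]
    have h4 : 𝒟.q v (Res 𝒟 t a (β a w)) = 𝒟.q (β a (Res 𝒟 t a v)) w := by
      rw [hβ a, hSA a]
    change 𝒟.q (X a v) w - 𝒟.q (Res 𝒟 t a (β a v)) w =
      𝒟.q v (X a w) - 𝒟.q v (Res 𝒟 t a (β a w)) at h1
    rw [h3, h4] at h1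
    simp only [map_sub, LinearMap.sub_apply]
    linear_combination -h1
  -- symmetry of the Gram matrix
  have hF1' : ∀ x y : J → L, 𝒟.q (Tt L r x) (Tt L t y) = 𝒟.q (Tt L t x) (Tt L r y) := by
    intro x y
    rw [Tt_apply, Tt_apply, Tt_apply, Tt_apply]
    simp only [map_sum, map_smul, LinearMap.sum_apply, LinearMap.smul_apply, smul_eq_mul]
    refine Finset.sum_congr rfl fun k _ => ?_
    congr 1
    refine Finset.sum_congr rfl fun l _ => ?_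
    rw [hF1]
  have had : ∀ y, ad 𝒟.q (Tt L r) (Tt L t y) = ad 𝒟.q (Tt L t) (Tt L r y) :=
    fun y => ad_comp hF1' y
  have hXS : ∀ a b v, X b (Res 𝒟 t a v) = Res 𝒟 t b (Z a v) := by
    intro a b v
    show Tt L t (Gm 𝒟.arm 𝒟.Ω b *ᵥ ad 𝒟.q (Tt L r) (Tt L t (Gm 𝒟.arm 𝒟.Ω a *ᵥ ad 𝒟.q (Tt L t) v)))
      = Tt L t (Gm 𝒟.arm 𝒟.Ω b *ᵥ ad 𝒟.q (Tt L t) (Tt L r (Gm 𝒟.arm 𝒟.Ω a *ᵥ ad 𝒟.q (Tt L t) v)))
    rw [had]
  -- the stable image is preserved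
  have hwords : ∀ n a, ∀ w ∈ C.W, Z a w ∈ C.W ⊔ words (Res 𝒟 t) n := by
    intro n
    induction n with
    | zero => intro a w _; exact Submodule.mem_sup_right trivial
    | succ n ih =>
      intro a w hw
      rw [← C.hW] at hw
      refine Submodule.iSup_induction (fun s => C.W.map (Res 𝒟 t s))
        (motive := fun x => Z a x ∈ C.W ⊔ words (Res 𝒟 t) (n + 1)) hw ?_ ?_ ?_
      · rintro s _ ⟨w, hw, rfl⟩
        rw [hXZ, hXS]
        refine sub_mem ?_ (Submodule.mem_sup_left (sub_mem (C.map_W (hβW _ _)) (hβW _ _)))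
        obtain ⟨x, hx, y, hy, hxy⟩ := Submodule.mem_sup.mp (ih s w hw)
        rw [← hxy, map_add]
        refine add_mem (Submodule.mem_sup_left (C.map_W hx)) (Submodule.mem_sup_right ?_)
        exact Submodule.mem_iSup_of_mem a (Submodule.mem_map_of_mem hy)
      · rw [map_zero]; exact zero_mem _
      · intro x y hx hy
        rw [map_add]; exact add_mem hx hy
  have hZW : ∀ a, ∀ w ∈ C.W, Z a w ∈ C.W := by
    intro a w hw
    have := hwords C.N a w hw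
    rwa [← C.hN, sup_idem] at this
  have hXW : ∀ a, ∀ w ∈ C.W, X a w ∈ C.W := by
    intro a w hw
    have h1 := hXZ a w
    have h3 : X a w = Z a w + (Res 𝒟 t a (β a w) - β a (Res 𝒟 t a w)) := by rw [h1]; abel
    rw [h3]
    exact add_mem (hZW a w hw) (sub_mem (C.map_W (hβW _ _)) (hβW _ _))
  have hZX : ∀ a, ∀ w ∈ C.W, X a w - Z a w ∈ C.I := by
    intro a w hw
    rw [hXZ, sub_sub_cancel]
    exact comm_mem_I hG C (hβ a) (hβW a) (hc a) hw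
  -- the operator `Γ`
  obtain ⟨ξ, hξ1, hξ2⟩ := exists_xi C
  set Γ : End L V := ∑ b, Z b * ξ b with hΓ
  have hΓa : ∀ v, Γ v = ∑ b, Z b (ξ b v) := fun v => by
    rw [hΓ, LinearMap.sum_apply]; rfl
  have hΓW : ∀ v, Γ v ∈ C.W := fun v => by
    rw [hΓa]; exact Submodule.sum_mem _ fun b _ => hZW b _ (hξ1 b v)
  -- `r^* u = t^* Γ u`
  have hone : ∀ w ∈ C.W, ad 𝒟.q (Tt L r) w = ad 𝒟.q (Tt L t) (Γ w) := by
    intro w hw
    conv_lhs => rw [← hξ2 w hw]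
    rw [map_sum, hΓa, map_sum]
    refine Finset.sum_congr rfl fun b _ => ?_
    exact had _
  have hXΓ : ∀ a, ∀ w ∈ C.W, X a w = Res 𝒟 t a (Γ w) := by
    intro a w hw
    show Tt L t (Gm 𝒟.arm 𝒟.Ω a *ᵥ ad 𝒟.q (Tt L r) w) =
      Tt L t (Gm 𝒟.arm 𝒟.Ω a *ᵥ ad 𝒟.q (Tt L t) (Γ w))
    rw [hone w hw]
  have hsa : ∀ v ∈ C.W, ∀ w ∈ C.W, 𝒟.q (Γ v) w = 𝒟.q v (Γ w) := by
    intro v hv w hw
    conv_lhs => rw [← hξ2 w hw]
    rw [map_sum, hΓa w, map_sum]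
    refine Finset.sum_congr rfl fun b _ => ?_
    rw [← hSA, ← hXΓ b v hv, hadj]
  refine ⟨Γ, fun w _ => hΓW w, fun w hw => ⟨hΓW w, fun v hv => ?_⟩, hsa, fun a w hw => ?_,
    fun w hw l => ?_, fun a w hw => ?_⟩
  · rw [hsa w hw.1 v hv]
    exact hw.2 _ (hΓW v)
  · -- commutation
    have h1 : Γ (Res 𝒟 t a w) - Z a w ∈ C.I := by
      refine mem_I_of_kill hG C (sub_mem (hΓW _) (hZW a w hw)) fun b => ?_
      rw [map_sub, ← hXΓ b _ (C.map_W hw), hXS, sub_self]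
    rw [← hXΓ a w hw]
    have := sub_mem h1 (hZX a w hw)
    convert this using 1
    abel
  · have h1 := congrFun (hone w hw) l
    rw [ad_apply, ad_apply, Tt_single, Tt_single] at h1
    rw [hq.symm w, hq.symm (Γ w)]
    exact h1
  · rw [← hXΓ a w hw]
    have := neg_mem (hZX a w hw)
    rwa [neg_sub] at this

/-- **(S)**, at one base point -/
theorem S_base (h2 : (2 : L) ≠ 0) (hC : Ctx 𝒟 u) (ht : t ∈ Ku 𝒟 u)
    (C : Core 𝒟.q (Res 𝒟 t)) {β : Fin 3 → End L V} (hβ : ∀ s, IsSA 𝒟.q (β s))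
    (hβW : ∀ s v, β s v ∈ C.W) (hsum : ∑ s, (Res 𝒟 t s * β s - β s * Res 𝒟 t s) = 0)
    (hc : ∀ s, C.res hC.good.form (β s) * C.S1 hC.good.form s =
      C.S1 hC.good.form s * C.res hC.good.form (β s)) :
    ∃ r ∈ Uu V u, ∃ Γ, RelG 𝒟 C.W C.I t Γ r ∧
      (∀ l k, 𝒟.q (t l) (r k) = 𝒟.q (r l) (t k)) ∧
      (∀ s, IsSA 𝒟.q (opr 𝒟.q (Tt L t) (Gm 𝒟.arm 𝒟.Ω s) (Tt L r) - Res 𝒟 t s * β s)) ∧
      ∀ l, β (𝒟.arm l) (t l) - r l ∈ 𝒟.C l ∧
        β (𝒟.arm l) (𝒟.om t l) - 𝒟.om r l ∈ perp 𝒟.q (𝒟.C l) := by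
  obtain ⟨r, hr, h1, h3, h4⟩ := gsurj_core h2 hC ht C hβ hβW hsum hc
  obtain ⟨Γ, hΓ⟩ := relG_of_sol hC.good C hβ hβW hc h1 h3
  exact ⟨r, hr, Γ, hΓ, h1, h3, h4⟩

end Vale.Agent.P182.SPIN
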