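import Vale.Agent.P182.H532.SNLev
import Vale.Agent.P182.H588.SAdams

/-!
# The bundle of a special configuration: duality and versality
-/

namespace Vale.Agent.P182.H588

open Polynomial Module LinearMap Vale.Agent.P182 Vale.Agent.P182.H430 Vale.Agent.P182.H668
  Vale.Agent.P182.H578 Vale.Agent.P182.H388 Vale.Agent.P182.H430.NData

variable {k : Type*} [Field k] {J : Type*} [Fintype J] [DecidableEq J] (X : NData k J)
variable (F : Type*) [Field F] [Algebra k[X] F] [IsFractionRing k[X] F]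
  [Algebra k F] [IsScalarTower k k[X] F] [IsAlgClosed k]

/-- the special bundle -/
noncomputable def N2 (c0 c1 : J) (hn : 1 ≤ X.n) : Bun (colS X F hn).curve (Hy F c0 c1) :=
  ((colS X F hn).bun (X.N' F)).sub (Hy F c0 c1)

/-- its form -/
noncomputable def b2 (c0 c1 : J) : LinearMap.BilinForm F (Hy F c0 c1) := rF (X.b F) (Hy F c0 c1)

variable {X F} {c0 c1 : J} {hn : 1 ≤ X.n}

theorem mem_N2 {p : Option k} {i : ℤ} {x : Hy F c0 c1} :
    x ∈ ((N2 X F c0 c1 hn).ch p).L i ↔
      (x : J → F) ∈ ((X.N F).ch p).L (phS X p i - X.tht p) := Iff.rfl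

omit [IsAlgClosed k] in
theorem b2_apply (x y : Hy F c0 c1) : b2 X F c0 c1 x y = X.b F x y := rfl

/-- the projection -/
noncomputable def _root_.Vale.Agent.P182.H588.SpinN.Pc (h : SpinN X c0 c1) (h2 : (2 : k) ≠ 0)
    (F : Type*) [Field F] [Algebra k F] : (J → F) →ₗ[F] Hy F c0 c1 :=
  (Pj X F c0 c1).codRestrict (Hy F c0 c1) (h.Pj_mem h2)

omit [Algebra k[X] F] [IsFractionRing k[X] F] [IsScalarTower k k[X] F] [IsAlgClosed k] in
theorem SpinN.Pc_coe (h : SpinN X c0 c1) (h2 : (2 : k) ≠ 0) (x : J → F) :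
    (h.Pc h2 F x : J → F) = Pj X F c0 c1 x := rfl

omit [Algebra k[X] F] [IsFractionRing k[X] F] [IsScalarTower k k[X] F] [IsAlgClosed k] in
theorem SpinN.Pc_sub (h : SpinN X c0 c1) (h2 : (2 : k) ≠ 0) (x : Hy F c0 c1) :
    h.Pc h2 F x = x := Subtype.ext (Pj_of_mem x.2)

theorem SpinN.Pc_lev (h : SpinN X c0 c1) (h2 : (2 : k) ≠ 0) (p : Option k) {i : ℤ} {x : J → F}
    (hx : x ∈ (((colS X F hn).bun (X.N' F)).ch p).L i) :
    h.Pc h2 F x ∈ ((N2 X F c0 c1 hn).ch p).L i := h.Pj_lev h2 hn p hx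

/-- **the special bundle is orthogonal** -/
theorem SpinN.orth2 (h : SpinN X c0 c1) (h2 : (2 : k) ≠ 0) (hdet : IsUnit X.Om'.det) :
    Orth (N2 X F c0 c1 hn) (b2 X F c0 c1) where
  dual p i x := by
    have h3 := ((colS X F hn).orth (northo X hdet)).dual p i x
    constructor
    · intro hx j y hy
      exact h3.1 hx j y hy
    · intro H
      refine h3.2 fun j y hy => ?_
      have h4 := H j (h.Pc h2 F y) (h.Pc_lev h2 p hy)
      rwa [b2_apply, SpinN.Pc_coe, h.b_Pj h2 hdet x.2] at h4
  symm x y := X.b_symm F x y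
  nd x hx := by
    apply Subtype.ext
    refine X.b_nondeg hdet (x : J → F) fun y => ?_
    rw [← h.b_Pj h2 hdet x.2]
    exact hx (h.Pc h2 F y)

section kap

variable (X F) in
/-- the canonical weight -/
noncomputable def k2 (hn : 1 ≤ X.n) (p : Option k) : ℤ := (colS X F hn).kap X.kap p

variable (X F) in
theorem dual2 (hn : 1 ≤ X.n) : Dualizing (colS X F hn).curve (k2 X F hn) :=
  (colS X F hn).dualizing (X.dualizing F)

theorem k2_half {p : Option k} (hp : Half X p) : k2 X F hn p = 2 * X.n - 1 := by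
  show X.kap p / ((X.cur F).per p : ℤ) * (mS X p : ℤ) + ((mS X p : ℤ) - 1) = _
  rw [kap_half hp, cur_per, per_half hp, mS_half hp,
    Int.ediv_eq_zero_of_lt (by positivity) (by push_cast; omega)]
  push_cast
  ring

theorem k2_not {p : Option k} (hp : ¬ Half X p) : k2 X F hn p = X.kap p := by
  show X.kap p / ((X.cur F).per p : ℤ) * (mS X p : ℤ) + ((mS X p : ℤ) - 1) = _
  have h := Col.kap_eq (X.dualizing F) p
  rw [cur_per] at h ⊢
  rw [mS_not hp, mul_comm]
  linarith

theorem k2_none : k2 X F hn none = -2 := by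
  rw [k2_not not_half_none, X.kap_none]

/-- the level of the constant vectors -/
def w2 (p : Option k) : ℤ := if p = none then -1 else 0

theorem w2_le (hn : 1 ≤ X.n) (p : Option k) : phS X p (w2 p) - X.tht p ≤ X.w0 p := by
  rcases p with _ | a
  · rw [phS_not not_half_none, X.tht_none, X.w0_none]
    simp [w2]
  · have hw : w2 (some a) = 0 := by simp [w2]
    rw [hw]
    by_cases hm : X.Marked (some a)
    · obtain ⟨s, hs⟩ := hm
      obtain rfl : a = X.z s := Option.some_injective _ hs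
      rw [X.tht_z, X.w0_z]
      by_cases hh : Half X (some (X.z s))
      · rw [phS_half hh, ph_small (by exact_mod_cast hn) (by omega) (by omega)]
        omega
      · rw [phS_not hh]
        omega
    · rw [X.tht_unmarked hm, X.w0_unmarked hm, phS_not fun hh => hm (half_marked hh)]
      omega

/-- the constant vectors -/
theorem SpinN.Pc_const (h : SpinN X c0 c1) (h2 : (2 : k) ≠ 0) (p : Option k) (v : J → k) :
    h.Pc h2 F (cv F v) ∈ ((N2 X F c0 c1 hn).ch p).L (w2 p) := by
  refine h.Pc_lev h2 p ?_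
  show cv F v ∈ ((X.N F).ch p).L (phS X p (w2 p) - X.tht p)
  exact ((X.N F).ch p).anti _ _ (w2_le hn p) (X.const_mem_N p v)

omit [IsAlgClosed k] in
theorem M_half {p : Option k} (hn : 1 ≤ X.n) (hp : Half X p) :
    (linePl k F p).M (mS X p) (-(2 * X.n - 1 : ℤ)) = (linePl k F p).M 1 0 := by
  rw [mS_half hp, M_eq _ (by omega)]
  have : (2 * X.n - 1 : ℤ) / ((2 * X.n : ℕ) : ℤ) = 0 := by
    apply Int.ediv_eq_zero_of_lt
    · omega
    · push_cast; omega
  rw [this, neg_zero]

/-- the dualizing sheaf at the marked points -/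
theorem M_k2 (hn : 1 ≤ X.n) (s : Fin 3) : (linePl k F (some (X.z s))).M (mS X (some (X.z s)))
    (-k2 X F hn (some (X.z s))) = (linePl k F (some (X.z s))).M 1 0 := by
  by_cases hp : Half X (some (X.z s))
  · rw [k2_half hp, M_half hn hp]
  · rw [k2_not hp, mS_not hp, X.kap_z, M_marked]

/-- the dualizing sheaf -/
theorem M_k2' (hn : 1 ≤ X.n) (p : Option k) : (linePl k F p).M (mS X p)
    (2 * w2 p - k2 X F hn p) = (linePl k F p).M 1 0 := by
  rcases p with _ | a
  · rw [k2_none, mS_not not_half_none, X.per_unmarked X.not_marked_none]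
    simp [w2]
  · have hw : w2 (some a) = 0 := by simp [w2]
    rw [hw, mul_zero, zero_sub]
    by_cases hm : X.Marked (some a)
    · obtain ⟨s, hs⟩ := hm
      obtain rfl : a = X.z s := Option.some_injective _ hs
      exact M_k2 hn s
    · have hh : ¬ Half X (some a) := fun hh => hm (half_marked hh)
      rw [k2_not hh, mS_not hh, X.kap_unmarked hm, X.per_unmarked hm, neg_zero]

end kap

end Vale.Agent.P182.H588
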