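import Vale.Agent.P182.H388.Col
import Vale.Agent.P182.H388.NV2
import Vale.Agent.P182.H430.NConst
import Vale.Agent.P182.H588.SDet

/-!
# The bundle of a special configuration: the projection

`X` is a special skew matrix: the columns `c0` (arm `0`) and `c1` (arm `1`) have full length and
equal entries against all other columns.  The hyperplane `x c0 = x c1` of the bundle `N` is the
orthogonal complement of the constant vector `u₀`.
-/

namespace Vale.Agent.P182.H588

open Polynomial Module LinearMap Vale.Agent.P182 Vale.Agent.P182.H430 Vale.Agent.P182.H668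
  Vale.Agent.P182.H578 Vale.Agent.P182.H388 Vale.Agent.P182.H430.NData

variable {k : Type*} [Field k] {J : Type*} [Fintype J] [DecidableEq J] (X : NData k J)
variable {F : Type*} [Field F] [Algebra k[X] F] [IsFractionRing k[X] F]
  [Algebra k F] [IsScalarTower k k[X] F]

/-- the vector `u₀` -/
def uv (c0 c1 : J) : J → k := fun l => if X.arm l = 0 then X.Ω c1 l else X.Ω c0 l

variable {X} {c0 c1 : J}

theorem diag (h2 : (2 : k) ≠ 0) (l : J) : X.Ω l l = 0 := by
  have h := X.skew l l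
  have h1 : (2 : k) * X.Ω l l = 0 := by linear_combination h
  exact (mul_eq_zero.1 h1).resolve_left h2

theorem SpinN.uv_eq0 (h : SpinN X c0 c1) (h2 : (2 : k) ≠ 0) (l : J) :
    uv X c0 c1 l = X.Ω c0 l - X.Ω c0 c1 * (Pi.single c0 (1 : k) : J → k) l := by
  unfold uv
  by_cases h0 : l = c0
  · subst h0
    rw [if_pos h.arm0, Pi.single_eq_same, diag h2, X.skew c1 l]
    ring
  · rw [Pi.single_eq_of_ne h0, mul_zero, sub_zero]
    split_ifs with ha
    · refine (h.sp l h0 ?_).symm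
      rintro rfl
      rw [h.arm1] at ha
      exact absurd ha (by decide)
    · rfl

theorem SpinN.uv_eq1 (h : SpinN X c0 c1) (h2 : (2 : k) ≠ 0) (l : J) :
    uv X c0 c1 l = X.Ω c1 l + X.Ω c0 c1 * (Pi.single c1 (1 : k) : J → k) l := by
  rw [h.uv_eq0 h2]
  by_cases h0 : l = c0
  · subst h0
    rw [Pi.single_eq_same, Pi.single_eq_of_ne h.ne01, diag h2, X.skew c1 l]
    ring
  · rw [Pi.single_eq_of_ne h0]
    by_cases h1 : l = c1
    · subst h1
      rw [Pi.single_eq_same, diag h2]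
      ring
    · rw [Pi.single_eq_of_ne h1, h.sp l h0 h1]
      ring

theorem SpinN.uv_c0 (h : SpinN X c0 c1) : uv X c0 c1 c0 = -X.Ω c0 c1 := by
  unfold uv
  rw [if_pos h.arm0, X.skew]

theorem SpinN.uv_c1 (h : SpinN X c0 c1) : uv X c0 c1 c1 = X.Ω c0 c1 := by
  unfold uv
  rw [if_neg (by rw [h.arm1]; decide)]

theorem SpinN.one_le (_ : SpinN X c0 c1) : 1 ≤ X.n := (X.hc1 c0).trans (X.hcn c0)

/-- `u₀` as a combination of generators, first form -/
theorem SpinN.cv0 (h : SpinN X c0 c1) (h2 : (2 : k) ≠ 0) : cv F (uv X c0 c1) =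
    cv F (X.Ω c0) - algebraMap k F (X.Ω c0 c1) • cv F (Pi.single c0 (1 : k)) := by
  funext l
  show algebraMap k F (uv X c0 c1 l) = algebraMap k F (X.Ω c0 l) -
    algebraMap k F (X.Ω c0 c1) * algebraMap k F ((Pi.single c0 (1 : k) : J → k) l)
  rw [h.uv_eq0 h2, map_sub, map_mul]

theorem SpinN.cv1 (h : SpinN X c0 c1) (h2 : (2 : k) ≠ 0) : cv F (uv X c0 c1) =
    cv F (X.Ω c1) + algebraMap k F (X.Ω c0 c1) • cv F (Pi.single c1 (1 : k)) := by
  funext l
  show algebraMap k F (uv X c0 c1 l) = algebraMap k F (X.Ω c1 l) +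
    algebraMap k F (X.Ω c0 c1) * algebraMap k F ((Pi.single c1 (1 : k) : J → k) l)
  rw [h.uv_eq1 h2, map_add, map_mul]

/-- `u₀` is orthogonal to the hyperplane -/
theorem SpinN.b_uv (h : SpinN X c0 c1) (h2 : (2 : k) ≠ 0) (hdet : IsUnit X.Om'.det)
    (y : J → F) : algebraMap k F (X.z 0 - X.z 1) * X.b F (cv F (uv X c0 c1)) y =
      X.lin F 0 * X.lin F 1 * (y c0 - y c1) := by
  set A : F := ∑ m, algebraMap k F (∑ j, uv X c0 c1 j * X.Mi j m) * X.lin F (X.arm m) * y m
    with hA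
  have e0 : X.b F (cv F (uv X c0 c1)) y = X.lin F 0 * (A + y c0) := by
    rw [h.cv0 h2, map_sub, map_smul, LinearMap.sub_apply, LinearMap.smul_apply, X.b_eps hdet,
      b_single, h.arm0, smul_eq_mul]
    have : A = (∑ m, algebraMap k F ((X.Ω * X.Mi) c0 m) * X.lin F (X.arm m) * y m) -
        algebraMap k F (X.Ω c0 c1) *
          ∑ m, algebraMap k F (X.Mi c0 m) * X.lin F (X.arm m) * y m := by
      rw [hA, Finset.mul_sum, ← Finset.sum_sub_distrib]
      refine Finset.sum_congr rfl fun m _ => ?_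
      have e : ∑ j, uv X c0 c1 j * X.Mi j m = (X.Ω * X.Mi) c0 m - X.Ω c0 c1 * X.Mi c0 m := by
        rw [Matrix.mul_apply]
        have : ∀ j, uv X c0 c1 j * X.Mi j m = X.Ω c0 j * X.Mi j m -
            X.Ω c0 c1 * ((Pi.single c0 (1 : k) : J → k) j * X.Mi j m) := fun j => by
          rw [h.uv_eq0 h2]; ring
        simp only [this]
        rw [Finset.sum_sub_distrib, ← Finset.mul_sum]
        congr 2
        rw [Finset.sum_eq_single c0]
        · rw [Pi.single_eq_same, one_mul]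
        · intro j _ hj
          rw [Pi.single_eq_of_ne hj, zero_mul]
        · intro h; exact absurd (Finset.mem_univ _) h
      rw [e, map_sub, map_mul]
      ring
    rw [this]
    ring
  have e1 : X.b F (cv F (uv X c0 c1)) y = X.lin F 1 * (A + y c1) := by
    rw [h.cv1 h2, map_add, map_smul, LinearMap.add_apply, LinearMap.smul_apply, X.b_eps hdet,
      b_single, h.arm1, smul_eq_mul]
    have : A = (∑ m, algebraMap k F ((X.Ω * X.Mi) c1 m) * X.lin F (X.arm m) * y m) +
        algebraMap k F (X.Ω c0 c1) *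
          ∑ m, algebraMap k F (X.Mi c1 m) * X.lin F (X.arm m) * y m := by
      rw [hA, Finset.mul_sum, ← Finset.sum_add_distrib]
      refine Finset.sum_congr rfl fun m _ => ?_
      have e : ∑ j, uv X c0 c1 j * X.Mi j m = (X.Ω * X.Mi) c1 m + X.Ω c0 c1 * X.Mi c1 m := by
        rw [Matrix.mul_apply]
        have : ∀ j, uv X c0 c1 j * X.Mi j m = X.Ω c1 j * X.Mi j m +
            X.Ω c0 c1 * ((Pi.single c1 (1 : k) : J → k) j * X.Mi j m) := fun j => by
          rw [h.uv_eq1 h2]; ring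
        simp only [this]
        rw [Finset.sum_add_distrib, ← Finset.mul_sum]
        congr 2
        rw [Finset.sum_eq_single c1]
        · rw [Pi.single_eq_same, one_mul]
        · intro j _ hj
          rw [Pi.single_eq_of_ne hj, zero_mul]
        · intro h; exact absurd (Finset.mem_univ _) h
      rw [e, map_add, map_mul]
      ring
    rw [this]
    ring
  have e3 : X.lin F 1 = X.lin F 0 + algebraMap k F (X.z 0 - X.z 1) := X.lin_diff F 0 1
  have e4 : X.lin F 0 * (A + y c0) = X.lin F 1 * (A + y c1) := by rw [← e0, e1]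
  have e5 : algebraMap k F (X.z 0 - X.z 1) = X.lin F 1 - X.lin F 0 := by rw [e3]; ring
  rw [e5, e0]
  linear_combination (-X.lin F 0) * e4

/-- the difference of the two coordinates -/
def dd (F : Type*) [Field F] (c0 c1 : J) : (J → F) →ₗ[F] F :=
  (LinearMap.proj c0 : (J → F) →ₗ[F] F) - LinearMap.proj c1

omit [Fintype J] [DecidableEq J] in
theorem dd_apply (y : J → F) : dd F c0 c1 y = y c0 - y c1 := rfl

/-- the hyperplane -/
def Hy (F : Type*) [Field F] (c0 c1 : J) : Submodule F (J → F) := LinearMap.ker (dd F c0 c1)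

omit [Fintype J] [DecidableEq J] in
theorem mem_Hy {y : J → F} : y ∈ Hy F c0 c1 ↔ y c0 = y c1 := by
  unfold Hy
  rw [LinearMap.mem_ker, dd_apply, sub_eq_zero]

variable (X) in
/-- the projection onto the hyperplane, along `u₀` -/
noncomputable def Pj (F : Type*) [Field F] [Algebra k F] (c0 c1 : J) : (J → F) →ₗ[F] (J → F) :=
  LinearMap.id + ((algebraMap k F (2 * X.Ω c0 c1))⁻¹ • dd F c0 c1).smulRight
    (cv F (uv X c0 c1))

omit [Algebra k[X] F] [IsFractionRing k[X] F] [IsScalarTower k k[X] F] [DecidableEq J] in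
theorem Pj_apply (y : J → F) : Pj X F c0 c1 y =
    y + ((algebraMap k F (2 * X.Ω c0 c1))⁻¹ * (y c0 - y c1)) • cv F (uv X c0 c1) := rfl

omit [Algebra k[X] F] [IsFractionRing k[X] F] [IsScalarTower k k[X] F] [DecidableEq J] in
theorem Pj_of_mem {y : J → F} (hy : y ∈ Hy F c0 c1) : Pj X F c0 c1 y = y := by
  rw [Pj_apply, mem_Hy.1 hy, sub_self, mul_zero, zero_smul, add_zero]

omit [Algebra k[X] F] [IsFractionRing k[X] F] [IsScalarTower k k[X] F] [DecidableEq J] in
theorem SpinN.g_ne (h : SpinN X c0 c1) (h2 : (2 : k) ≠ 0) :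
    algebraMap k F (2 * X.Ω c0 c1) ≠ 0 :=
  (_root_.map_ne_zero _).2 (mul_ne_zero h2 h.ne)

omit [Algebra k[X] F] [IsFractionRing k[X] F] [IsScalarTower k k[X] F] in
theorem SpinN.Pj_mem (h : SpinN X c0 c1) (h2 : (2 : k) ≠ 0) (y : J → F) :
    Pj X F c0 c1 y ∈ Hy F c0 c1 := by
  rw [mem_Hy, Pj_apply]
  show y c0 + (algebraMap k F (2 * X.Ω c0 c1))⁻¹ * (y c0 - y c1) *
    algebraMap k F (uv X c0 c1 c0) = y c1 + (algebraMap k F (2 * X.Ω c0 c1))⁻¹ *
    (y c0 - y c1) * algebraMap k F (uv X c0 c1 c1)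
  have e := h.g_ne (F := F) h2
  rw [h.uv_c0, h.uv_c1, map_neg]
  have e2 : algebraMap k F (2 * X.Ω c0 c1) = 2 * algebraMap k F (X.Ω c0 c1) := by
    rw [map_mul, map_ofNat]
  rw [e2] at e ⊢
  have e3 := left_ne_zero_of_mul e
  have e4 := right_ne_zero_of_mul e
  field_simp
  ring

omit [Algebra k[X] F] [IsFractionRing k[X] F] [IsScalarTower k k[X] F] in
theorem SpinN.Pj_uv (h : SpinN X c0 c1) (h2 : (2 : k) ≠ 0) :
    Pj X F c0 c1 (cv F (uv X c0 c1)) = 0 := by
  rw [Pj_apply]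
  have e := h.g_ne (F := F) h2
  have e1 : cv F (uv X c0 c1) c0 - cv F (uv X c0 c1) c1 = -algebraMap k F (2 * X.Ω c0 c1) := by
    show algebraMap k F (uv X c0 c1 c0) - algebraMap k F (uv X c0 c1 c1) = _
    rw [h.uv_c0, h.uv_c1, ← map_sub, ← map_neg]
    congr 1
    ring
  rw [e1, mul_neg, inv_mul_cancel₀ e, neg_smul, one_smul, add_neg_cancel]

/-- the form against `u₀` -/
theorem SpinN.b_uv' (h : SpinN X c0 c1) (h2 : (2 : k) ≠ 0) (hdet : IsUnit X.Om'.det)
    {y : J → F} (hy : y ∈ Hy F c0 c1) : X.b F (cv F (uv X c0 c1)) y = 0 := by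
  have h1 := h.b_uv h2 hdet y
  rw [mem_Hy.1 hy, sub_self, mul_zero] at h1
  refine (mul_eq_zero.1 h1).resolve_left ((_root_.map_ne_zero _).2 ?_)
  exact sub_ne_zero.2 fun e => absurd (X.hz e) (by decide)

/-- a vector orthogonal to `u₀` lies in the hyperplane -/
theorem SpinN.mem_of_b (h : SpinN X c0 c1) (h2 : (2 : k) ≠ 0) (hdet : IsUnit X.Om'.det)
    {y : J → F} (hy : X.b F (cv F (uv X c0 c1)) y = 0) : y ∈ Hy F c0 c1 := by
  have h1 := h.b_uv h2 hdet y
  rw [hy, mul_zero] at h1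
  rw [mem_Hy]
  have h3 := (mul_eq_zero.1 h1.symm).resolve_left (mul_ne_zero (X.lin_ne F 0) (X.lin_ne F 1))
  exact sub_eq_zero.1 h3

/-- the form and the projection -/
theorem SpinN.b_Pj (h : SpinN X c0 c1) (h2 : (2 : k) ≠ 0) (hdet : IsUnit X.Om'.det)
    {x : J → F} (hx : x ∈ Hy F c0 c1) (y : J → F) :
    X.b F x (Pj X F c0 c1 y) = X.b F x y := by
  rw [Pj_apply, map_add, map_smul, X.b_symm F x (cv F (uv X c0 c1)), h.b_uv' h2 hdet hx,
    smul_zero, add_zero]

theorem SpinN.b_Pj' (h : SpinN X c0 c1) (h2 : (2 : k) ≠ 0) (hdet : IsUnit X.Om'.det)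
    {x : J → F} (hx : x ∈ Hy F c0 c1) (y : J → F) :
    X.b F (Pj X F c0 c1 y) x = X.b F y x := by
  rw [X.b_symm, h.b_Pj h2 hdet hx, X.b_symm]

theorem SpinN.Pj_self (h : SpinN X c0 c1) (h2 : (2 : k) ≠ 0) (hdet : IsUnit X.Om'.det)
    (x y : J → F) : X.b F (Pj X F c0 c1 x) y = X.b F x (Pj X F c0 c1 y) := by
  rw [← h.b_Pj h2 hdet (h.Pj_mem h2 x), h.b_Pj' h2 hdet (h.Pj_mem h2 y)]

end Vale.Agent.P182.H588
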