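import Vale.Agent.P182.H532.SNConst
import Vale.Agent.P182.H563.N4
import Vale.Agent.P182.H563.L3In
import Vale.Agent.P182.H563.Glue2
import Vale.Agent.P182.H361.SeenC

/-!
# The bundle of a special configuration: versality (VV), flags, homomorphisms
-/

namespace Vale.Agent.P182.H588

open Polynomial Module LinearMap TensorProduct Vale.Agent.P182 Vale.Agent.P182.H430
  Vale.Agent.P182.H668 Vale.Agent.P182.H578 Vale.Agent.P182.H388 Vale.Agent.P182.H430.NData

section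

variable {k : Type*} [Field k] {J : Type*} [Fintype J] [DecidableEq J] {X : NData k J}
variable {F : Type*} [Field F] [Algebra k[X] F] [IsFractionRing k[X] F]
  [Algebra k F] [IsScalarTower k k[X] F] {c0 c1 : J} {hn : 1 ≤ X.n} [IsAlgClosed k]

/-- the derivations are compatible with the collapsed curve -/
theorem cder2 (d : X.Ders) : CDer (colS X F hn).curve (X.dF F d) where
  reg p _ hf := X.dF_reg d p hf
  lev p hp c f hf := by
    by_cases hm : X.Marked p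
    · exact X.dF_fil d (Or.inr hm) _ c hf
    · refine absurd ?_ hp
      show mS X p = 1
      rw [mS_not fun hh => hm (half_marked hh), X.per_unmarked hm]

/-- **the special bundle is versal** -/
noncomputable def SpinN.overs2 (h : SpinN X c0 c1) (h2 : (2 : k) ≠ 0)
    (hdet : IsUnit X.Om'.det) (hV : VersS X c0 c1) :
    OVers (N2 X F c0 c1 hn) (b2 X F c0 c1) (k2 X F hn) X.Ders where
  δ := X.dF F
  cder := cder2
  vers Y hYa hY hD := h.vers_core h2 hdet hV Y hYa hY fun d => by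
    obtain ⟨D0, h0, -, hI⟩ := hD d
    exact ⟨D0, h0, fun p => hI p _ (h.lconn2 h2 hdet d p)⟩

/-- **(VV) for the special bundle** -/
theorem SpinN.vv2 (h : SpinN X c0 c1) (h2 : (2 : k) ≠ 0) (hdet : IsUnit X.Om'.det)
    (hV : VersS X c0 c1) : VV (N2 X F c0 c1 hn) (b2 X F c0 c1) :=
  (h.overs2 h2 hdet hV).vv (dual2 X F hn) (h.orth2 h2 hdet) h2 (two_ne F h2)

/-- **N1 and N4 for the special bundle** -/
theorem SpinN.nil2 (h : SpinN X c0 c1) (h2 : (2 : k) ≠ 0) (hdet : IsUnit X.Om'.det)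
    (hV : VersS X c0 c1) (ε : F) (hε : ε = 1 ∨ ε = -1)
    (Θ : Hy F c0 c1 →ₗ[F] Hy F c0 c1) (hΘ : Θ ∈ adj (b2 X F c0 c1) ε)
    (hk : Higgs (k2 X F hn) (N2 X F c0 c1 hn) Θ) (hnil : IsNilpotent Θ) : Θ = 0 := by
  have hk' : ∀ p, Θ ∈ (((N2 X F c0 c1 hn).hom (N2 X F c0 c1 hn)).ch p).L (-k2 X F hn p) :=
    mem_HZ.1 hk
  have ho := h.orth2 (F := F) (hn := hn) h2 hdet
  rcases hε with rfl | rfl
  · exact h.noNil2 (hn := hn) h2 hdet hV (fun x y => by rw [hΘ x y, one_mul]) hk' hnil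
  · exact H563.n4 (h.vers2 h2 hdet hV) (two_ne F h2) ho.symm ho.nd hΘ hk' hnil

/-! ### homomorphisms out of the special bundle -/

variable {W : Type*} [AddCommGroup W] [Module F W] [Module k W] [IsScalarTower k F W]
  [FiniteDimensional F W]

/-- homomorphisms out of the special bundle are the homomorphisms out of `N` which kill `u₀` -/
theorem SpinN.mor2_iff (h : SpinN X c0 c1) (h2 : (2 : k) ≠ 0) {M : Bun (X.cur F) W}
    (hM : (colS X F hn).Flat M) {f : Hy F c0 c1 →ₗ[F] W} :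
    f ∈ HZ ((N2 X F c0 c1 hn).hom ((colS X F hn).bun M)).lat ↔
      f ∘ₗ h.Pc h2 F ∈ HZ ((X.N' F).hom M).lat := by
  rw [mem_HZ, mem_HZ, ← (colS X F hn).hom_lat hM]
  refine forall_congr' fun p => ?_
  rw [Bun.mem_hom_lat, Bun.mem_hom_lat]
  constructor
  · intro H i x hx
    exact H i _ (h.Pc_lev h2 p hx)
  · intro H i x hx
    have := H i (x : J → F) hx
    rwa [LinearMap.comp_apply, h.Pc_sub h2] at this

end

section flags

variable {k : Type*} [Field k] {J : Type*} [Fintype J] [DecidableEq J] {X : NData k J}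
variable {F : Type*} [Field F] [Algebra k[X] F] [IsFractionRing k[X] F]
  [Algebra k F] [IsScalarTower k k[X] F] {c0 c1 : J} {hn : 1 ≤ X.n} [IsAlgClosed k]
variable {B : Type*} [AddCommGroup B] [Module k B] [FiniteDimensional k B]

/-- the twisted bundle of a flagged space -/
noncomputable def cbt (X : NData k J) (F : Type*) [Field F] [Algebra k[X] F]
    [IsFractionRing k[X] F] [Algebra k F] [IsScalarTower k k[X] F] [IsAlgClosed k]
    (𝒢 : Fl3 k X.n B) : Bun (X.cur F) (F ⊗[k] B) := (X.cb F 𝒢).twist X.tht X.tht_fin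

/-- the bundle of a flagged space on the collapsed curve -/
noncomputable def cb2 (X : NData k J) (F : Type*) [Field F] [Algebra k[X] F]
    [IsFractionRing k[X] F] [Algebra k F] [IsScalarTower k k[X] F] [IsAlgClosed k]
    (hn : 1 ≤ X.n) (𝒢 : Fl3 k X.n B) : Bun (colS X F hn).curve (F ⊗[k] B) :=
  (colS X F hn).bun (cbt X F 𝒢)

omit [IsAlgClosed k] [DecidableEq J] [FiniteDimensional k B] in
/-- flags without a jump at the deleted level -/
theorem flat_G {𝒢 : Fl3 k X.n B} (hG : ∀ s, s ≠ 2 → 𝒢.G s 0 ≤ 𝒢.G s 1) {s : Fin 3}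
    (hs : s ≠ 2) (t : ℤ) : 𝒢.G s ((2 * X.n + 1) * t) ≤ 𝒢.G s ((2 * X.n + 1) * t + 1) := by
  rcases lt_trichotomy t 0 with h | h | h
  · rw [𝒢.top s ((2 * X.n + 1) * t + 1)]
    · exact le_top
    · nlinarith
  · rw [h, mul_zero, zero_add]
    exact hG s hs
  · rw [𝒢.bot s ((2 * X.n + 1) * t)]
    · exact bot_le
    · nlinarith

/-- the bundle of such flags is flat -/
theorem flat2 {𝒢 : Fl3 k X.n B} (hG : ∀ s, s ≠ 2 → 𝒢.G s 0 ≤ 𝒢.G s 1) :
    (colS X F hn).Flat (cbt X F 𝒢) := by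
  intro p i a hi hi'
  have hi1 : phS X p i ≤ a := hi
  have hi2 : a < phS X p (i + 1) := hi'
  show ((X.cb F 𝒢).ch p).L (phS X p i - X.tht p) ≤ ((X.cb F 𝒢).ch p).L (a - X.tht p)
  by_cases hp : Half X p
  swap
  · rw [phS_not hp] at hi1 hi2 ⊢
    have : a = i := by omega
    rw [this]
  rw [phS_half hp] at hi1 hi2 ⊢
  have hn' : (1 : ℤ) ≤ X.n := by exact_mod_cast hn
  obtain ⟨q, r, h0, h1, h2, h3⟩ := ph_spec hn' i
  by_cases ha : a = ph X.n i
  · rw [ha]
  -- the jump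
  have hr : r = 2 * X.n - 1 := by
    by_contra hr
    have h4 : ph X.n (i + 1) = (i + 1) + q :=
      ph_of hn' (q := q) (r := r + 1) (by omega) (by omega) (by linarith)
    have h5 : ph X.n i = i + q := ph_of hn' h0 h1 h2
    omega
  have h4 : ph X.n (i + 1) = (i + 1) + (q + 1) :=
    ph_of hn' (q := q + 1) (r := 0) (by omega) (by omega) (by rw [mul_add]; linarith)
  have h5 : ph X.n i = i + q := ph_of hn' h0 h1 h2
  have h6 : a = ph X.n i + 1 := by omega
  rw [h6, tht_half hp, h3, hr]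
  refine ((X.fl F 𝒢).cfl_le_iff (hw := X.w0_fin)).2 fun e => ?_
  rw [X.fl_G F, X.fl_G F]
  obtain ⟨s, hs, hs2⟩ : ∃ s : Fin 3, p = some (X.z s) ∧ s ≠ 2 := by
    rcases hp with h | h
    · exact ⟨0, h, by decide⟩
    · exact ⟨1, h, by decide⟩
  subst hs
  rw [X.Gp_z, X.Gp_z, cur_per, X.per_marked]
  have e1 : (2 * X.n + 1 : ℤ) * q + (2 * X.n - 1) - X.n + 1 - X.n -
      ((2 * X.n + 1 : ℕ) : ℤ) * e = (2 * X.n + 1) * (q - e) := by
    push_cast
    ring
  have e2 : (2 * X.n + 1 : ℤ) * q + (2 * X.n - 1) - X.n + 1 + 1 - X.n -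
      ((2 * X.n + 1 : ℕ) : ℤ) * e = (2 * X.n + 1) * (q - e) + 1 := by
    push_cast
    ring
  rw [e1, e2]
  exact flat_G hG hs2 _

/-- the constants of a homomorphism to a flagged space -/
theorem SpinN.hom2 (h : SpinN X c0 c1) (h2 : (2 : k) ≠ 0) {𝒢 : Fl3 k X.n B}
    (hG : ∀ s, s ≠ 2 → 𝒢.G s 0 ≤ 𝒢.G s 1) {f : Hy F c0 c1 →ₗ[F] (F ⊗[k] B)} :
    f ∈ HZ ((N2 X F c0 c1 hn).hom (cb2 X F hn 𝒢)).lat ↔
      ∃ x : J → B, f = cmap F x ∘ₗ (Hy F c0 c1).subtype ∧ ∑ l, uv X c0 c1 l • x l = 0 ∧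
        (∀ l, x l ∈ 𝒢.G (X.arm l) (X.n + 1 - X.c l)) ∧
          ∀ l, ∑ m, X.Ω l m • x m ∈ 𝒢.G (X.arm l) (X.c l - X.n) := by
  unfold cb2
  rw [h.mor2_iff h2 (flat2 hG)]
  have hl : ((X.N' F).hom (cbt X F 𝒢)).lat = ((X.N F).hom (X.cb F 𝒢)).lat :=
    H563.lat_tw (X.tht_fin) (X.N F) (X.cb F 𝒢)
  rw [hl, X.hom_N_const 𝒢]
  constructor
  · rintro ⟨x, hx, h3, h4⟩
    refine ⟨x, ?_, ?_, h3, h4⟩
    · apply LinearMap.ext
      intro y
      have h5 := LinearMap.congr_fun hx (y : J → F)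
      rw [LinearMap.comp_apply, h.Pc_sub h2] at h5
      exact h5
    · have h5 := LinearMap.congr_fun hx (cv F (uv X c0 c1))
      rw [LinearMap.comp_apply, cmap_cv] at h5
      have h6 : h.Pc h2 F (cv F (uv X c0 c1)) = 0 := Subtype.ext (h.Pj_uv h2)
      rw [h6, map_zero] at h5
      have h7 : (1 : F) ⊗ₜ[k] (0 : B) = (1 : F) ⊗ₜ[k] ∑ l, uv X c0 c1 l • x l := by
        rw [← h5, tmul_zero]
      exact (CFl.one_tmul_inj h7).symm
  · rintro ⟨x, rfl, hu, h3, h4⟩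
    refine ⟨x, ?_, h3, h4⟩
    apply LinearMap.ext
    intro y
    show cmap F x (Pj X F c0 c1 y) = cmap F x y
    rw [Pj_apply, map_add, map_smul, cmap_cv, hu, tmul_zero, smul_zero, add_zero]

end flags

end Vale.Agent.P182.H588
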