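import Vale.Agent.P182.H532.SNDef
import Vale.Agent.P182.H668.Split1

/-!
# The bundle of a special configuration: levels

At the two first marked points the level `1` modulo `2 n + 1` (in the normalisation of `X.N`) is
deleted; the projection preserves all other levels.
-/

namespace Vale.Agent.P182.H588

open Polynomial Module LinearMap Vale.Agent.P182 Vale.Agent.P182.H430 Vale.Agent.P182.H668
  Vale.Agent.P182.H578 Vale.Agent.P182.H388 Vale.Agent.P182.H430.NData

section arith

/-- the enumeration of the remaining levels -/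
def ph (n : ℤ) (i : ℤ) : ℤ := i + (i + n - 1) / (2 * n)

theorem ph_spec {n : ℤ} (hn : 1 ≤ n) (i : ℤ) : ∃ q r : ℤ, 0 ≤ r ∧ r < 2 * n ∧
    i + n - 1 = 2 * n * q + r ∧ ph n i = (2 * n + 1) * q + r - n + 1 := by
  refine ⟨(i + n - 1) / (2 * n), (i + n - 1) % (2 * n), Int.emod_nonneg _ (by omega),
    Int.emod_lt_of_pos _ (by omega), (Int.mul_ediv_add_emod _ _).symm, ?_⟩
  unfold ph
  have := Int.mul_ediv_add_emod (i + n - 1) (2 * n)
  linarith

theorem ph_of {n : ℤ} (hn : 1 ≤ n) {i q r : ℤ} (h0 : 0 ≤ r) (h1 : r < 2 * n)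
    (h : i + n - 1 = 2 * n * q + r) : ph n i = i + q := by
  unfold ph
  congr 1
  rw [h, add_comm, Int.add_mul_ediv_left _ _ (by omega), Int.ediv_eq_zero_of_lt h0 h1, zero_add]

theorem ph_mono {n : ℤ} (hn : 1 ≤ n) : StrictMono (ph n) := by
  intro i j hij
  unfold ph
  have := Int.ediv_le_ediv (show 0 < 2 * n by omega) (show i + n - 1 ≤ j + n - 1 by omega)
  omega

theorem ph_per {n : ℤ} (hn : 1 ≤ n) (i : ℤ) : ph n (i + 2 * n) = ph n i + (2 * n + 1) := by
  obtain ⟨q, r, h0, h1, h2, -⟩ := ph_spec hn i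
  rw [ph_of hn h0 h1 h2, ph_of hn (q := q + 1) h0 h1 (by rw [mul_add, mul_one]; linarith)]
  ring

theorem ph_refl {n : ℤ} (hn : 1 ≤ n) (i : ℤ) : ph n (1 - i) = 1 - ph n i := by
  obtain ⟨q, r, h0, h1, h2, -⟩ := ph_spec hn i
  rw [ph_of hn h0 h1 h2, ph_of hn (q := -q) (r := 2 * n - 1 - r) (by omega) (by omega)
    (by rw [mul_neg]; linarith)]
  ring

/-- the deleted level -/
theorem ph_ne {n : ℤ} (hn : 1 ≤ n) (i : ℤ) : ¬ (2 * n + 1) ∣ (ph n i - n - 1) := by
  obtain ⟨q, r, h0, h1, -, h3⟩ := ph_spec hn i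
  rintro ⟨t, ht⟩
  have h4 : r - 2 * n = (2 * n + 1) * (t - q) := by
    rw [h3] at ht
    linear_combination ht
  rcases lt_trichotomy (t - q) 0 with h | h | h
  · have : (2 * n + 1) * (t - q) ≤ (2 * n + 1) * (-1) :=
      mul_le_mul_of_nonneg_left (by omega) (by omega)
    omega
  · rw [h, mul_zero] at h4
    omega
  · have : 0 < (2 * n + 1) * (t - q) := mul_pos (by omega) h
    omega

theorem ph_small {n : ℤ} (hn : 1 ≤ n) {i : ℤ} (h0 : -n < i) (h1 : i ≤ n) : ph n i = i := by
  rw [ph_of hn (q := 0) (r := i + n - 1) (by omega) (by omega) (by ring), add_zero]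

theorem ph_big {n : ℤ} (hn : 1 ≤ n) {i : ℤ} (h0 : n < i) (h1 : i ≤ 3 * n) : ph n i = i + 1 := by
  rw [ph_of hn (q := 1) (r := i - n - 1) (by omega) (by omega) (by ring)]

end arith

variable {k : Type*} [Field k] {J : Type*} [Fintype J] [DecidableEq J] (X : NData k J)
variable {F : Type*} [Field F] [Algebra k[X] F] [IsFractionRing k[X] F]
  [Algebra k F] [IsScalarTower k k[X] F]

/-- the places with a deleted level -/
def Half (p : Option k) : Prop := p = some (X.z 0) ∨ p = some (X.z 1)

open Classical in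
/-- the remaining number of levels -/
noncomputable def mS (p : Option k) : ℕ := if Half X p then 2 * X.n else X.per p

open Classical in
/-- the remaining levels -/
noncomputable def phS (p : Option k) (i : ℤ) : ℤ := if Half X p then ph X.n i else i

variable {X}

theorem mS_half {p : Option k} (h : Half X p) : mS X p = 2 * X.n := if_pos h

theorem mS_not {p : Option k} (h : ¬ Half X p) : mS X p = X.per p := if_neg h

theorem phS_half {p : Option k} (h : Half X p) (i : ℤ) : phS X p i = ph X.n i := if_pos h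

theorem phS_not {p : Option k} (h : ¬ Half X p) (i : ℤ) : phS X p i = i := if_neg h

theorem per_half {p : Option k} (h : Half X p) : X.per p = 2 * X.n + 1 := by
  rcases h with rfl | rfl <;> exact X.per_marked _

theorem tht_half [IsAlgClosed k] {p : Option k} (h : Half X p) : X.tht p = X.n := by
  rcases h with rfl | rfl <;> exact X.tht_z _

theorem kap_half {p : Option k} (h : Half X p) : X.kap p = 2 * X.n := by
  rcases h with rfl | rfl <;> exact X.kap_z _

theorem half_marked {p : Option k} (h : Half X p) : X.Marked p := by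
  rcases h with rfl | rfl
  · exact ⟨0, rfl⟩
  · exact ⟨1, rfl⟩

theorem half_z0 : Half X (some (X.z 0)) := Or.inl rfl

theorem half_z1 : Half X (some (X.z 1)) := Or.inr rfl

theorem not_half_z2 : ¬ Half X (some (X.z 2)) := by
  rintro (h | h)
  · exact absurd (X.hz (Option.some_injective _ h)) (by decide)
  · exact absurd (X.hz (Option.some_injective _ h)) (by decide)

theorem not_half_none : ¬ Half X none := by
  rintro (h | h) <;> exact absurd h.symm (Option.some_ne_none _)

variable (X F) in
/-- the collapse -/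
noncomputable def colS [IsAlgClosed k] (hn : 1 ≤ X.n) : Col (X.cur F) where
  m := mS X
  pos p := by
    by_cases h : Half X p
    · rw [mS_half h]; omega
    · rw [mS_not h]; exact X.per_pos p
  φ := phS X
  mono p := by
    by_cases h : Half X p
    · have : phS X p = ph X.n := funext fun i => phS_half h i
      rw [this]
      exact ph_mono (by exact_mod_cast hn)
    · have : phS X p = id := funext fun i => phS_not h i
      rw [this]
      exact strictMono_id
  per p i := by
    rw [cur_per]
    by_cases h : Half X p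
    · rw [phS_half h, phS_half h, mS_half h, per_half h]
      push_cast
      exact ph_per (by exact_mod_cast hn) i
    · rw [phS_not h, phS_not h, mS_not h]
  refl p i := by
    by_cases h : Half X p
    · rw [phS_half h, phS_half h]
      exact ph_refl (by exact_mod_cast hn) i
    · rw [phS_not h, phS_not h]

section closed

variable [IsAlgClosed k] {c0 c1 : J}

theorem SpinN.uv_mem (h : SpinN X c0 c1) (h2 : (2 : k) ≠ 0) {p : Option k} (hp : Half X p) :
    cv F (uv X c0 c1) ∈ ((X.N F).ch p).L 0 := by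
  rcases hp with rfl | rfl
  · have e1 := X.eps_mem (F := F) (some (X.z (X.arm c0))) c0
    have e2 := X.e_mem (F := F) (some (X.z (X.arm c0))) c0
    rw [X.wB_z, h.len0, sub_self] at e1
    rw [X.wA_z, h.len0] at e2
    rw [h.arm0] at e1 e2
    rw [h.cv0 h2]
    refine Submodule.sub_mem _ e1 ?_
    rw [algebraMap_smul]
    exact Submodule.smul_mem _ _ (((X.N F).ch _).anti _ _ (by omega) e2)
  · have e1 := X.eps_mem (F := F) (some (X.z (X.arm c1))) c1
    have e2 := X.e_mem (F := F) (some (X.z (X.arm c1))) c1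
    rw [X.wB_z, h.len1, sub_self] at e1
    rw [X.wA_z, h.len1] at e2
    rw [h.arm1] at e1 e2
    rw [h.cv1 h2]
    refine Submodule.add_mem _ e1 ?_
    rw [algebraMap_smul]
    exact Submodule.smul_mem _ _ (((X.N F).ch _).anti _ _ (by omega) e2)

omit [IsAlgClosed k] [Algebra k[X] F] [IsFractionRing k[X] F] [IsScalarTower k k[X] F] in
theorem alg_eq (g a b : k) : algebraMap k F (g⁻¹ * (a - b)) =
    (algebraMap k F g)⁻¹ * (algebraMap k F a - algebraMap k F b) := by
  rw [map_mul, map_inv₀, map_sub]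

omit [IsAlgClosed k] [Algebra k[X] F] [IsFractionRing k[X] F] [IsScalarTower k k[X] F]
  [DecidableEq J] in
/-- the projection is constant -/
theorem Pj_cv (v : J → k) : Pj X F c0 c1 (cv F v) =
    cv F (v + ((2 * X.Ω c0 c1)⁻¹ * (v c0 - v c1)) • uv X c0 c1) := by
  rw [Pj_apply]
  funext l
  show algebraMap k F (v l) + (algebraMap k F (2 * X.Ω c0 c1))⁻¹ *
    (algebraMap k F (v c0) - algebraMap k F (v c1)) * algebraMap k F (uv X c0 c1 l) =
    algebraMap k F (v l + (2 * X.Ω c0 c1)⁻¹ * (v c0 - v c1) * uv X c0 c1 l)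
  rw [map_add, map_mul (algebraMap k F) ((2 * X.Ω c0 c1)⁻¹ * (v c0 - v c1)), alg_eq]

/-- a vector of level at least `0` at a half place keeps the level `0` -/
theorem SpinN.Pj_zero (h : SpinN X c0 c1) (h2 : (2 : k) ≠ 0) {p : Option k} (hp : Half X p)
    (v : J → k) (hv : cv F v ∈ ((X.N F).ch p).L 0) :
    Pj X F c0 c1 (cv F v) ∈ ((X.N F).ch p).L 0 := by
  rw [Pj_apply]
  refine Submodule.add_mem _ hv ?_
  have e : (algebraMap k F (2 * X.Ω c0 c1))⁻¹ * (cv F v c0 - cv F v c1) =
      algebraMap k F ((2 * X.Ω c0 c1)⁻¹ * (v c0 - v c1)) := (alg_eq _ _ _).symm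
  rw [e, algebraMap_smul]
  exact Submodule.smul_mem _ _ (h.uv_mem h2 hp)

/-- the projection of the generators -/
theorem SpinN.Pj_gen (h : SpinN X c0 c1) (h2 : (2 : k) ≠ 0) (p : Option k) (i : J ⊕ J ⊕ J) :
    Pj X F c0 c1 (X.gx F i) ∈ ((X.N F).ch p).L (X.gw p i) ∨
      (Half X p ∧ X.gw p i = 1 ∧ Pj X F c0 c1 (X.gx F i) ∈ ((X.N F).ch p).L 0) := by
  have hconst : X.gw p i = X.w0 p →
      Pj X F c0 c1 (X.gx F i) ∈ ((X.N F).ch p).L (X.gw p i) := by
    intro hw
    obtain ⟨v, hv⟩ := X.gx_cv (F := F) i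
    rw [hv, Pj_cv, hw]
    exact X.const_mem_N p _
  rcases p with _ | a
  · exact Or.inl (hconst (by rw [X.gw_none, X.w0_none]))
  by_cases hm : X.Marked (some a)
  swap
  · exact Or.inl (hconst (by rw [X.gw_unmarked hm, X.w0_unmarked hm]))
  obtain ⟨s, hs⟩ := hm
  obtain rfl : a = X.z s := Option.some_injective _ hs
  have hz : ∀ {l : J} {t : Fin 3}, X.arm l = t → X.arm l = s → t = 0 ∨ t = 1 →
      Half X (some (X.z s)) := by
    intro l t h1 h3 h4
    have : s = t := h3.symm.trans h1
    subst this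
    rcases h4 with h4 | h4
    · rw [h4]; exact half_z0
    · rw [h4]; exact half_z1
  rcases i with l | l | l
  · -- `e_l`
    by_cases hl : X.arm l = s
    swap
    · exact Or.inl (hconst ((X.wA_other s hl).trans (X.w0_z s).symm))
    have hmem : cv F (Pi.single l (1 : k)) ∈ ((X.N F).ch (some (X.z s))).L
        (X.wA (some (X.z s)) l) := X.e_mem _ l
    have hw : X.gw (some (X.z s)) (Sum.inl l) = X.n + 1 - X.c l := by
      show X.wA (some (X.z s)) l = _
      rw [← hl, X.wA_z]
    have hw' : X.wA (some (X.z s)) l = X.n + 1 - X.c l := hw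
    by_cases h0 : l = c0
    · subst h0
      have hh := hz h.arm0 hl (Or.inl rfl)
      right
      refine ⟨hh, by rw [hw, h.len0]; ring, h.Pj_zero h2 hh _ ?_⟩
      exact ((X.N F).ch _).anti _ _ (by rw [hw', h.len0]; omega) hmem
    · by_cases h1 : l = c1
      · subst h1
        have hh := hz h.arm1 hl (Or.inr rfl)
        right
        refine ⟨hh, by rw [hw, h.len1]; ring, h.Pj_zero h2 hh _ ?_⟩
        exact ((X.N F).ch _).anti _ _ (by rw [hw', h.len1]; omega) hmem
      · left
        have : Pj X F c0 c1 (X.gx F (Sum.inl l)) = X.gx F (Sum.inl l) := by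
          refine Pj_of_mem (mem_Hy.2 ?_)
          show algebraMap k F ((Pi.single l (1 : k) : J → k) c0) =
            algebraMap k F ((Pi.single l (1 : k) : J → k) c1)
          rw [Pi.single_eq_of_ne (Ne.symm h0), Pi.single_eq_of_ne (Ne.symm h1)]
        rw [this]
        exact hmem
  · -- `eps_l`
    by_cases hl : X.arm l = s
    swap
    · exact Or.inl (hconst ((X.wB_other s hl).trans (X.w0_z s).symm))
    have hmem : cv F (X.Ω l) ∈ ((X.N F).ch (some (X.z s))).L
        (X.wB (some (X.z s)) l) := X.eps_mem _ l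
    have hw : X.gw (some (X.z s)) (Sum.inr (Sum.inl l)) = X.c l - X.n := by
      show X.wB (some (X.z s)) l = _
      rw [← hl, X.wB_z]
    have hw' : X.wB (some (X.z s)) l = X.c l - X.n := hw
    left
    by_cases h0 : l = c0
    · subst h0
      have hh := hz h.arm0 hl (Or.inl rfl)
      rw [hw, h.len0, sub_self]
      rw [hw', h.len0, sub_self] at hmem
      exact h.Pj_zero h2 hh _ hmem
    · by_cases h1 : l = c1
      · subst h1
        have hh := hz h.arm1 hl (Or.inr rfl)
        rw [hw, h.len1, sub_self]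
        rw [hw', h.len1, sub_self] at hmem
        exact h.Pj_zero h2 hh _ hmem
      · have : Pj X F c0 c1 (X.gx F (Sum.inr (Sum.inl l))) = X.gx F (Sum.inr (Sum.inl l)) := by
          refine Pj_of_mem (mem_Hy.2 ?_)
          show algebraMap k F (X.Ω l c0) = algebraMap k F (X.Ω l c1)
          rw [X.skew l c0, X.skew l c1, h.sp l h0 h1]
        rw [this]
        exact hmem
  · exact Or.inl (hconst rfl)

/-- **the projection preserves the levels** -/
theorem SpinN.Pj_L (h : SpinN X c0 c1) (h2 : (2 : k) ≠ 0) (p : Option k) {a : ℤ}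
    (ha : Half X p → ¬ (2 * (X.n : ℤ) + 1) ∣ (a - 1)) {x : J → F}
    (hx : x ∈ ((X.N F).ch p).L a) : Pj X F c0 c1 x ∈ ((X.N F).ch p).L a := by
  obtain ⟨c, hc, rfl⟩ := hx
  rw [map_sum]
  refine Submodule.sum_mem _ fun i _ => ?_
  rw [map_smul]
  rcases h.Pj_gen (F := F) h2 p i with h1 | ⟨hp, hw, h1⟩
  · exact LChain.smul_mem' _ (hc i) h1 (by linarith)
  · have h3 := hc i
    rw [hw] at h3
    have h4 : c i ∈ ((X.cur F).pl p).M ((X.cur F).per p) a := by
      rcases h3 with h3 | h3
      · exact Or.inl h3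
      · right
        have h5 : ((X.cur F).per p : ℤ) = 2 * X.n + 1 := by
          rw [cur_per, per_half hp]; push_cast; ring
        rw [h5] at h3 ⊢
        by_contra hcon
        apply ha hp
        exact ⟨((X.cur F).pl p).ord (c i), by omega⟩
    exact LChain.smul_mem' _ h4 h1 (by linarith)

/-- the projection preserves the remaining levels -/
theorem SpinN.Pj_lev (h : SpinN X c0 c1) (h2 : (2 : k) ≠ 0) (hn : 1 ≤ X.n) (p : Option k)
    {i : ℤ} {x : J → F} (hx : x ∈ (((colS X F hn).bun (X.N' F)).ch p).L i) :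
    Pj X F c0 c1 x ∈ (((colS X F hn).bun (X.N' F)).ch p).L i := by
  have hx' : x ∈ ((X.N F).ch p).L (phS X p i - X.tht p) := hx
  show Pj X F c0 c1 x ∈ ((X.N F).ch p).L (phS X p i - X.tht p)
  refine h.Pj_L h2 p (fun hp => ?_) hx'
  rw [phS_half hp, tht_half hp]
  exact ph_ne (by exact_mod_cast hn) i

end closed

end Vale.Agent.P182.H588
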