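import Vale.Agent.P182.H532.SNVers
import Vale.Agent.P182.H588.SF1

/-!
# N1 for the bundle of a special configuration
-/

namespace Vale.Agent.P182.H588

open Polynomial Module LinearMap Vale.Agent.P182 Vale.Agent.P182.H430 Vale.Agent.P182.H668
  Vale.Agent.P182.H578 Vale.Agent.P182.H388 Vale.Agent.P182.H430.NData

variable {k : Type*} [Field k] {J : Type*} [Fintype J] [DecidableEq J] {X : NData k J}
variable {F : Type*} [Field F] [Algebra k[X] F] [IsFractionRing k[X] F]
  [Algebra k F] [IsScalarTower k k[X] F] {c0 c1 : J} {hn : 1 ≤ X.n} [IsAlgClosed k]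

variable (X F) in
/-- the theta characteristic -/
theorem theta2 (hn : 1 ≤ X.n) : ThetaE (colS X F hn).curve X.tht := by
  have ht := X.theta F
  refine ⟨ht.fin, fun p => ?_, ?_⟩
  · by_cases hp : Half X p
    · right
      show 2 * (X.tht p % (mS X p : ℤ)) = (mS X p : ℤ)
      rw [mS_half hp, tht_half hp, Int.emod_eq_of_lt (by positivity) (by push_cast; omega)]
      push_cast
      ring
    · left
      show 2 * (X.tht p % (mS X p : ℤ)) = (mS X p : ℤ) - 1
      rw [mS_not hp]
      exact ht.cong p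
  · rw [← ht.deg]
    unfold Curve.deg
    refine finsum_congr fun p => ?_
    show X.tht p / (mS X p : ℤ) = X.tht p / ((X.cur F).per p : ℤ)
    by_cases hp : Half X p
    · rw [mS_half hp, tht_half hp, cur_per, per_half hp,
        Int.ediv_eq_zero_of_lt (by positivity) (by push_cast; omega),
        Int.ediv_eq_zero_of_lt (by positivity) (by push_cast; omega)]
    · rw [mS_not hp, cur_per]

/-- linear maps vanishing on the constant vectors vanish -/
theorem SpinN.hom_ext2 (h : SpinN X c0 c1) (h2 : (2 : k) ≠ 0) {W : Type*} [AddCommGroup W]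
    [Module F W] {φ : Hy F c0 c1 →ₗ[F] W}
    (hφ : ∀ l, φ (h.Pc h2 F (cv F (Pi.single l (1 : k)))) = 0) : φ = 0 := by
  apply LinearMap.ext
  intro x
  have h3 : x = ∑ l, (x : J → F) l • h.Pc h2 F (cv F (Pi.single l (1 : k))) := by
    conv_lhs => rw [← h.Pc_sub h2 x, sum_ev (k := k) (x : J → F), map_sum]
    exact Finset.sum_congr rfl fun l _ => by rw [map_smul]; rfl
  rw [h3, map_sum, LinearMap.zero_apply]
  exact Finset.sum_eq_zero fun l _ => by rw [map_smul, hφ, smul_zero]

/-- the levels of the vectors `e_l` -/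
theorem SpinN.Pc_e (h : SpinN X c0 c1) (h2 : (2 : k) ≠ 0) (l : J) :
    (Half X (some (X.z (X.arm l))) → h.Pc h2 F (cv F (Pi.single l (1 : k))) ∈
      ((N2 X F c0 c1 hn).ch (some (X.z (X.arm l)))).L X.n) ∧
    (¬ Half X (some (X.z (X.arm l))) → h.Pc h2 F (cv F (Pi.single l (1 : k))) ∈
      ((N2 X F c0 c1 hn).ch (some (X.z (X.arm l)))).L (X.n + 1)) := by
  have h3 := X.e_mem (F := F) (some (X.z (X.arm l))) l
  rw [X.wA_z] at h3
  have h4 := X.hcn l
  constructor
  · intro hp
    refine h.Pc_lev h2 _ ?_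
    show _ ∈ ((X.N F).ch _).L (phS X _ X.n - X.tht _)
    rw [phS_half hp, tht_half hp, ph_small (by exact_mod_cast hn) (by omega) le_rfl]
    exact ((X.N F).ch _).anti _ _ (by omega) h3
  · intro hp
    refine h.Pc_lev h2 _ ?_
    show _ ∈ ((X.N F).ch _).L (phS X _ (X.n + 1) - X.tht _)
    rw [phS_not hp, X.tht_z]
    exact ((X.N F).ch _).anti _ _ (by omega) h3

omit [IsAlgClosed k] [DecidableEq J] in
/-- a constant of positive level vanishes -/
theorem const_zero {p : Option k} {m : ℕ} {a : ℤ} (ha : 0 < a) {c : k}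
    (h : algebraMap k F c ∈ (linePl k F p).M m a) : c = 0 := by
  by_contra hc
  have hne : algebraMap k F c ≠ 0 := (_root_.map_ne_zero _).2 hc
  rw [Place.mem_M_of_ne _ hne, (linePl k F p).ord_alg c hc, mul_zero] at h
  omega

/-- `H⁰(N''*)`-type vanishing -/
theorem SpinN.hom0 (h : SpinN X c0 c1) (h2 : (2 : k) ≠ 0) (φ : Hy F c0 c1 →ₗ[F] F)
    (H : ∀ p i x, x ∈ ((N2 X F c0 c1 hn).ch p).L i →
      φ x ∈ (linePl k F p).M (mS X p) (i + X.tht p - k2 X F hn p)) : φ = 0 := by
  refine h.hom_ext2 h2 fun l => ?_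
  have hc := fun p => H p _ _ (h.Pc_const (hn := hn) h2 p (Pi.single l (1 : k)))
  obtain ⟨c, hc'⟩ := line_H0 (k := k) (φ (h.Pc h2 F (cv F (Pi.single l (1 : k))))) (fun p => by
    have h3 := hc p
    rcases p with _ | a
    · rw [k2_none, mS_not not_half_none, X.per_unmarked X.not_marked_none, X.tht_none] at h3
      simpa [w2] using h3
    have hw : w2 (some a) = 0 := by simp [w2]
    rw [hw, zero_add] at h3
    by_cases hm : X.Marked (some a)
    · obtain ⟨s, hs⟩ := hm
      obtain rfl : a = X.z s := Option.some_injective _ hs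
      rw [← M_k2 hn s]
      refine Place.M_anti _ ?_ h3
      rw [X.tht_z]
      have : (0 : ℤ) ≤ X.n := Int.natCast_nonneg _
      linarith
    · have hh : ¬ Half X (some a) := fun hh => hm (half_marked hh)
      rw [k2_not hh, mS_not hh, X.kap_unmarked hm, X.per_unmarked hm, X.tht_unmarked hm] at h3
      simpa using h3)
  rw [← hc']
  obtain ⟨e1, e2⟩ := h.Pc_e (F := F) (hn := hn) h2 l
  by_cases hp : Half X (some (X.z (X.arm l)))
  · have h3 := H _ _ _ (e1 hp)
    rw [← hc', tht_half hp, k2_half hp] at h3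
    rw [const_zero (by omega) h3, map_zero]
  · have h3 := H _ _ _ (e2 hp)
    rw [← hc', X.tht_z, k2_not hp, X.kap_z] at h3
    rw [const_zero (by omega) h3, map_zero]

/-- `H¹`-type vanishing -/
theorem SpinN.hom1 (h : SpinN X c0 c1) (h2 : (2 : k) ≠ 0) (φ : Hy F c0 c1 →ₗ[F] F)
    (H : ∀ p i x, x ∈ ((N2 X F c0 c1 hn).ch p).L i →
      φ x ∈ (linePl k F p).M (mS X p) (i - k2 X F hn p)) : φ = 0 := by
  refine h.hom_ext2 h2 fun l => ?_
  have hc := fun p => H p _ _ (h.Pc_const (hn := hn) h2 p (Pi.single l (1 : k)))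
  apply reg_zero (k := k)
  · intro a
    have h3 := hc (some a)
    have hw : w2 (some a) = 0 := by simp [w2]
    rw [hw, zero_sub] at h3
    by_cases hm : X.Marked (some a)
    · obtain ⟨s, hs⟩ := hm
      obtain rfl : a = X.z s := Option.some_injective _ hs
      rwa [M_k2 hn s] at h3
    · have hh : ¬ Half X (some a) := fun hh => hm (half_marked hh)
      rw [k2_not hh, mS_not hh, X.kap_unmarked hm, X.per_unmarked hm] at h3
      simpa using h3
  · have h3 := hc none
    rw [k2_none, mS_not not_half_none, X.per_unmarked X.not_marked_none] at h3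
    have hw : w2 (none : Option k) = -1 := by simp [w2]
    rw [hw] at h3
    exact Place.M_anti _ (by norm_num) h3

/-- **N1 for the special bundle** -/
theorem SpinN.noNil2 (h : SpinN X c0 c1) (h2 : (2 : k) ≠ 0) (hdet : IsUnit X.Om'.det)
    (hV : VersS X c0 c1) {Θ : Hy F c0 c1 →ₗ[F] Hy F c0 c1}
    (hΘ : ∀ x y, b2 X F c0 c1 (Θ x) y = b2 X F c0 c1 x (Θ y))
    (hΘp : ∀ p, Θ ∈ (((N2 X F c0 c1 hn).hom (N2 X F c0 c1 hn)).ch p).L (-k2 X F hn p))
    (hnil : IsNilpotent Θ) : Θ = 0 := by
  have hθ := theta2 X F hn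
  have hf : {p | (-X.tht) p ≠ 0}.Finite := by
    refine X.tht_fin.subset fun p hp => ?_
    intro h0
    apply hp
    show -X.tht p = 0
    rw [h0, neg_zero]
  have ho := h.orth2 (F := F) (hn := hn) h2 hdet
  have hlev : ∀ (p : Option k) (a : ℤ) (x : Hy F c0 c1),
      x ∈ (((N2 X F c0 c1 hn).twist (-X.tht) hf).ch p).L a ↔
        x ∈ ((N2 X F c0 c1 hn).ch p).L (a + X.tht p) := by
    intro p a x
    show x ∈ ((N2 X F c0 c1 hn).ch p).L (a + -(-X.tht p)) ↔ _
    rw [neg_neg]
  refine no_nilpotentE (N := (N2 X F c0 c1 hn).twist (-X.tht) hf) (dual2 X F hn) hθ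
    (two_ne F h2) (inv_mul_cancel₀ h2) ?_ ho.symm ho.nd ((h.vers2 h2 hdet hV).twist hf)
    (fun φ H => h.hom0 (hn := hn) h2 φ fun p i x hx => ?_)
    (fun φ H => h.hom1 (hn := hn) h2 φ fun p i x hx => ?_) hΘ (fun p => ?_) hnil
  · intro p a x
    rw [hlev, ho.dual]
    constructor
    · intro H c y hy
      have := H _ y ((hlev p c y).1 hy)
      rwa [show a + X.tht p + (c + X.tht p) = a + c + 2 * X.tht p by ring] at this
    · intro H c y hy
      have := H (c - X.tht p) y ((hlev p _ y).2 (by rwa [sub_add_cancel]))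
      rwa [show a + (c - X.tht p) + 2 * X.tht p = a + X.tht p + c by ring] at this
  · have := H p (i - X.tht p) x ((hlev p _ x).2 (by rwa [sub_add_cancel]))
    rwa [show i - X.tht p + (2 * X.tht p - k2 X F hn p) = i + X.tht p - k2 X F hn p by ring]
      at this
  · have := H p (i - X.tht p) x ((hlev p _ x).2 (by rwa [sub_add_cancel]))
    rwa [show i - X.tht p + (X.tht p - k2 X F hn p) = i - k2 X F hn p by ring] at this
  · rw [mem_hom_twist]
    exact hΘp p

end Vale.Agent.P182.H588
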