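import Vale.Agent.P182.H532.SNBun

/-!
# The bundle of a special configuration is versal
-/

namespace Vale.Agent.P182.H588

open Polynomial Module LinearMap Vale.Agent.P182 Vale.Agent.P182.H430 Vale.Agent.P182.H668
  Vale.Agent.P182.H578 Vale.Agent.P182.H388 Vale.Agent.P182.H430.NData

variable {k : Type*} [Field k] {J : Type*} [Fintype J] [DecidableEq J] {X : NData k J}
variable {F : Type*} [Field F] [Algebra k[X] F] [IsFractionRing k[X] F]
  [Algebra k F] [IsScalarTower k k[X] F] {c0 c1 : J} {hn : 1 ≤ X.n}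

/-- the coordinatewise connection on the hyperplane -/
noncomputable def Dc2 (X : NData k J) (F : Type*) [Field F] [Algebra k[X] F]
    [IsFractionRing k[X] F] [Algebra k F] [IsScalarTower k k[X] F] (c0 c1 : J) (d : Ders X)
    (x : Hy F c0 c1) : Hy F c0 c1 :=
  ⟨X.Dc F d x, mem_Hy.2 (by
    show X.dF F d ((x : J → F) c0) = X.dF F d ((x : J → F) c1)
    rw [mem_Hy.1 x.2])⟩

theorem Dc2_conn (d : Ders X) : IsConn (X.dF F d) (Dc2 X F c0 c1 d) :=
  ⟨fun x y => Subtype.ext ((X.Dc_conn (F := F) d).1 (x : J → F) (y : J → F)),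
    fun f x => Subtype.ext ((X.Dc_conn (F := F) d).2 f (x : J → F))⟩

/-- the local connections on the special bundle -/
noncomputable def SpinN.D2 (h : SpinN X c0 c1) (h2 : (2 : k) ≠ 0) (F : Type*) [Field F]
    [Algebra k[X] F] [IsFractionRing k[X] F] [Algebra k F] [IsScalarTower k k[X] F]
    (d : Ders X) (p : Option k) (x : Hy F c0 c1) : Hy F c0 c1 := h.Pc h2 F (X.Dp F d p x)

theorem SpinN.D2_conn (h : SpinN X c0 c1) (h2 : (2 : k) ≠ 0) (d : Ders X) (p : Option k) :
    IsConn (X.dF F d) (h.D2 h2 F d p) := by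
  refine ⟨fun x y => ?_, fun f x => ?_⟩
  · show h.Pc h2 F (X.Dp F d p ((x : J → F) + y)) = _
    rw [(X.Dp_conn d p).1, map_add]
    rfl
  · show h.Pc h2 F (X.Dp F d p (f • (x : J → F))) = _
    rw [(X.Dp_conn d p).2, map_add, map_smul, map_smul, h.Pc_sub h2]
    rfl

/-- the local connections and the coordinatewise connection -/
theorem SpinN.D2_eq (h : SpinN X c0 c1) (h2 : (2 : k) ≠ 0) (d : Ders X) (p : Option k)
    (x : Hy F c0 c1) : h.D2 h2 F d p x = Dc2 X F c0 c1 d x - h.Pc h2 F (X.Yp F d p x) := by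
  have h3 : h.Pc h2 F (X.Dc F d x) = Dc2 X F c0 c1 d x := h.Pc_sub h2 (Dc2 X F c0 c1 d x)
  rw [← h3, ← map_sub]
  rfl

section closed

variable [IsAlgClosed k]

/-- the local connections preserve the levels -/
theorem SpinN.D2_lev (h : SpinN X c0 c1) (h2 : (2 : k) ≠ 0) (hdet : IsUnit X.Om'.det)
    (d : Ders X) {p : Option k} (hp : p = none ∨ X.Marked p) {i : ℤ} {x : Hy F c0 c1}
    (hx : x ∈ ((N2 X F c0 c1 hn).ch p).L i) :
    h.D2 h2 F d p x ∈ ((N2 X F c0 c1 hn).ch p).L i :=
  h.Pc_lev h2 p (X.Dp_pres hdet d hp hx)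

theorem SpinN.D2_lev0 (h : SpinN X c0 c1) (h2 : (2 : k) ≠ 0) (hdet : IsUnit X.Om'.det)
    (d : Ders X) (p : Option k) {x : Hy F c0 c1}
    (hx : x ∈ ((N2 X F c0 c1 hn).ch p).L 0) :
    h.D2 h2 F d p x ∈ ((N2 X F c0 c1 hn).ch p).L 0 := by
  by_cases hp : p = none ∨ X.Marked p
  · exact h.D2_lev h2 hdet d hp hx
  · have hh : ¬ Half X p := fun hh => hp (Or.inr (half_marked hh))
    refine h.Pc_lev h2 p ?_
    have h3 : (x : J → F) ∈ ((X.N' F).ch p).L 0 := by
      have := mem_N2.1 hx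
      rwa [phS_not hh] at this
    have h4 := (nlconn X hdet d p).mem (x : J → F) h3
    show X.Dp F d p x ∈ ((X.N' F).ch p).L (phS X p 0)
    rw [phS_not hh]
    exact h4

omit [IsAlgClosed k] in
theorem mS_unmarked {p : Option k} (hp : ¬ (p = none ∨ X.Marked p)) : mS X p = 1 := by
  push Not at hp
  rw [mS_not fun hh => hp.2 (half_marked hh), X.per_unmarked hp.2]

/-- the local connections are integral -/
theorem SpinN.lconn2 (h : SpinN X c0 c1) (h2 : (2 : k) ≠ 0) (hdet : IsUnit X.Om'.det)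
    (d : Ders X) (p : Option k) : LConn (N2 X F c0 c1 hn) (X.dF F d) p (h.D2 h2 F d p) where
  conn := h.D2_conn h2 d p
  mem _ hx := h.D2_lev0 h2 hdet d p hx
  mem' hper a x hx := by
    by_cases hp : p = none ∨ X.Marked p
    · exact h.D2_lev h2 hdet d hp hx
    · exact absurd (mS_unmarked hp) hper

/-- the commutators are integral -/
theorem SpinN.comm2 (h : SpinN X c0 c1) (h2 : (2 : k) ≠ 0) (hdet : IsUnit X.Om'.det)
    (d : Ders X) (p : Option k) (c : ℤ) (hc : c = 0 ∨ c = -k2 X F hn p)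
    (T : Hy F c0 c1 →ₗ[F] Hy F c0 c1)
    (hT : T ∈ (((N2 X F c0 c1 hn).hom (N2 X F c0 c1 hn)).ch p).L c) :
    commL (h.D2_conn h2 d p) T ∈ (((N2 X F c0 c1 hn).hom (N2 X F c0 c1 hn)).ch p).L c := by
  by_cases hp : p = none ∨ X.Marked p
  · intro a x hx
    exact Submodule.sub_mem _ (h.D2_lev h2 hdet d hp (hT a x hx))
      (hT a _ (h.D2_lev h2 hdet d hp hx))
  · have hc0 : c = 0 := by
      rcases hc with hc | hc
      · exact hc
      · push Not at hp
        obtain ⟨h1, hm⟩ := hp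
        rw [hc, k2_not fun hh => hm (half_marked hh)]
        rcases p with _ | q
        · exact absurd rfl h1
        · rw [X.kap_unmarked hm, neg_zero]
    subst hc0
    refine mem_hom_of_per_one (A := N2 X F c0 c1 hn) (B := N2 X F c0 c1 hn) (mS_unmarked hp)
      fun x hx => ?_
    have h3 : T x ∈ ((N2 X F c0 c1 hn).ch p).L 0 := by
      have := hT 0 x hx
      rwa [add_zero] at this
    have h4 : T (h.D2 h2 F d p x) ∈ ((N2 X F c0 c1 hn).ch p).L 0 := by
      have := hT 0 _ (h.D2_lev0 h2 hdet d p hx)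
      rwa [add_zero] at this
    exact Submodule.sub_mem _ (h.D2_lev0 h2 hdet d p h3) h4

/-- the extension of an operator by zero -/
noncomputable def SpinN.hat (h : SpinN X c0 c1) (h2 : (2 : k) ≠ 0)
    (Y : Hy F c0 c1 →ₗ[F] Hy F c0 c1) : (J → F) →ₗ[F] (J → F) :=
  (Hy F c0 c1).subtype ∘ₗ Y ∘ₗ h.Pc h2 F

omit [Algebra k[X] F] [IsFractionRing k[X] F] [IsScalarTower k k[X] F] [IsAlgClosed k] in
theorem SpinN.hat_apply (h : SpinN X c0 c1) (h2 : (2 : k) ≠ 0)
    (Y : Hy F c0 c1 →ₗ[F] Hy F c0 c1) (x : J → F) : h.hat h2 Y x = (Y (h.Pc h2 F x) : J → F) :=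
  rfl

theorem SpinN.b_hat (h : SpinN X c0 c1) (h2 : (2 : k) ≠ 0) (hdet : IsUnit X.Om'.det)
    (Y : Hy F c0 c1 →ₗ[F] Hy F c0 c1) (x y : J → F) :
    X.b F (h.hat h2 Y x) y = b2 X F c0 c1 (Y (h.Pc h2 F x)) (h.Pc h2 F y) := by
  rw [SpinN.hat_apply, b2_apply, SpinN.Pc_coe, h.b_Pj h2 hdet (Y (h.Pc h2 F x)).2]

/-- the constants of a Higgs field -/
theorem SpinN.psi2 (h : SpinN X c0 c1) (h2 : (2 : k) ≠ 0) (hdet : IsUnit X.Om'.det)
    {Y : Hy F c0 c1 →ₗ[F] Hy F c0 c1}
    (hY : ∀ p, Y ∈ (((N2 X F c0 c1 hn).hom (N2 X F c0 c1 hn)).ch p).L (-k2 X F hn p))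
    (v v' : J → k) : ∃ c : k, X.b F (h.hat h2 Y (cv F v)) (cv F v') = algebraMap k F c := by
  have h3 : ∀ p, X.b F (h.hat h2 Y (cv F v)) (cv F v') ∈ (linePl k F p).M 1 0 := by
    intro p
    rw [h.b_hat h2 hdet, ← M_k2' hn p]
    have h4 := hY p _ _ (h.Pc_const h2 p v)
    have h5 := ((h.orth2 h2 hdet).dual p _ _).1 h4 _ _ (h.Pc_const h2 p v')
    refine Place.M_anti _ (le_of_eq ?_) h5
    ring
  obtain ⟨c, hc⟩ := line_H0 (k := k) _ h3
  exact ⟨c, hc.symm⟩

/-- **THE VERSALITY OF THE SPECIAL BUNDLE**, core -/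
theorem SpinN.vers_core (h : SpinN X c0 c1) (h2 : (2 : k) ≠ 0) (hdet : IsUnit X.Om'.det)
    (hV : VersS X c0 c1) (Y : Hy F c0 c1 →ₗ[F] Hy F c0 c1) (hYa : Y ∈ adj (b2 X F c0 c1) (-1))
    (hY : ∀ p, Y ∈ (((N2 X F c0 c1 hn).hom (N2 X F c0 c1 hn)).ch p).L (-k2 X F hn p))
    (hD : ∀ d : Ders X, ∃ D0 : Hy F c0 c1 → Hy F c0 c1, ∃ h0 : IsConn (X.dF F d) D0,
      ∀ p, trace F (Hy F c0 c1) (Y * diffL (h.D2_conn h2 d p) h0) ∈
        (colS X F hn).curve.I (k2 X F hn) p) : Y = 0 := by
  set Z := h.hat h2 Y with hZ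
  have hYs : ∀ x y, X.b F (Z x) y = -X.b F x (Z y) := fun x y => by
    rw [hZ, h.b_hat h2 hdet, hYa, neg_one_mul, X.b_symm F x, h.b_hat h2 hdet,
      (h.orth2 (hn := hn) h2 hdet).symm]
  choose ψ hψ using fun l m : J => h.psi2 h2 hdet hY (Pi.single l (1 : k)) (Pi.single m (1 : k))
  have key : ∀ η : J → J → k, (∀ l m, η l m = -η m l) → (∀ l, η c0 l = η c1 l) →
      ∑ l, ∑ m, η l m * ψ l m = 0 := by
    intro η hη hη'
    obtain ⟨d, hd⟩ := hV η hη hη'
    obtain ⟨D0, h0, hI⟩ := hD d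
    set G : F := trace F (Hy F c0 c1) (Y * diffL (Dc2_conn d) h0) with hG
    have htr : ∀ p, trace F (Hy F c0 c1) (Y * (h.Pc h2 F ∘ₗ X.Yp F d p ∘ₗ
        (Hy F c0 c1).subtype)) = trace F (J → F) (Z * X.Yp F d p) := by
      intro p
      have e1 : Y * (h.Pc h2 F ∘ₗ X.Yp F d p ∘ₗ (Hy F c0 c1).subtype) =
        (Y ∘ₗ h.Pc h2 F) ∘ₗ (X.Yp F d p ∘ₗ (Hy F c0 c1).subtype) := rfl
      rw [e1, trace_comp_comm']
      have e2 : (X.Yp F d p ∘ₗ (Hy F c0 c1).subtype) ∘ₗ (Y ∘ₗ h.Pc h2 F) =
        X.Yp F d p * Z := rfl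
      rw [e2, trace_mul_comm]
    have hdiff : ∀ p, trace F (Hy F c0 c1) (Y * diffL (h.D2_conn h2 d p) h0) =
        G - trace F (J → F) (Z * X.Yp F d p) := by
      intro p
      rw [hG, ← htr, ← map_sub]
      congr 1
      apply LinearMap.ext
      intro x
      show Y (h.D2 h2 F d p x - D0 x) = Y (Dc2 X F c0 c1 d x - D0 x) -
        Y (h.Pc h2 F (X.Yp F d p x))
      rw [h.D2_eq h2, ← map_sub]
      congr 1
      abel
    have hI' : ∀ p, G - trace F (J → F) (Z * X.Yp F d p) ∈
        (linePl k F p).M (mS X p) (-k2 X F hn p) := fun p => by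
      rw [← hdiff]
      exact hI p
    have hψv : ∀ l, X.b F (cv F (Pi.single l (1 : k))) (Z (X.vv F d l)) =
        -algebraMap k F (∑ m, η l m * ψ l m) := by
      intro l
      have e1 := hYs (cv F (Pi.single l (1 : k))) (X.vv F d l)
      have e2 : X.vv F d l = ∑ m, algebraMap k F (η l m) • ev (k := k) F m := by
        unfold vv
        rw [cv_eq_sum]
        exact Finset.sum_congr rfl fun m _ => by rw [hd]
      have e3 : X.b F (Z (cv F (Pi.single l (1 : k)))) (X.vv F d l) =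
          algebraMap k F (∑ m, η l m * ψ l m) := by
        rw [e2, map_sum, map_sum]
        refine Finset.sum_congr rfl fun m _ => ?_
        rw [map_smul, smul_eq_mul, map_mul, ← hψ]
        rfl
      rw [e3] at e1
      rw [e1, neg_neg]
    have h3 := X.res_sum (F := F) (fun s => ∑ l, if X.arm l = s then
        ∑ m, η l m * ψ l m else 0) G ?_ ?_ ?_
    · rw [Finset.sum_comm] at h3
      have h4 : ∀ l, ∑ s, (if X.arm l = s then ∑ m, η l m * ψ l m else 0) =
          ∑ m, η l m * ψ l m := by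
        intro l
        rw [Finset.sum_ite_eq]
        simp
      simpa only [h4] using h3
    · intro a ha
      have := hI' (some a)
      have hh : ¬ Half X (some a) := fun hh => ha (half_marked hh)
      rw [Yp_unmarked X d ha, mul_zero, map_zero, sub_zero, k2_not hh, mS_not hh,
        kap_unmarked X ha, per_unmarked X ha, neg_zero] at this
      exact this
    · have := hI' none
      rw [Yp_unmarked X d X.not_marked_none, mul_zero, map_zero, sub_zero, k2_none,
        mS_not not_half_none, per_unmarked X X.not_marked_none, neg_neg] at this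
      exact this
    · intro s
      have := hI' (some (X.z s))
      rw [Yp_z, M_k2 hn, trace_Ys] at this
      convert this using 1
      rw [sub_eq_add_neg]
      congr 1
      rw [map_sum, Finset.sum_mul, ← Finset.sum_neg_distrib]
      refine Finset.sum_congr rfl fun l _ => ?_
      by_cases hl : X.arm l = s
      · rw [if_pos hl, if_pos hl, hψv]
        ring
      · rw [if_neg hl, if_neg hl]
        simp
  have hinj : Function.Injective (algebraMap k F) := (algebraMap k F).injective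
  have hskew : ∀ l m, ψ l m = -ψ m l := by
    intro l m
    apply hinj
    rw [map_neg, ← hψ, ← hψ, hYs, b_symm]
  -- the kernel
  have hker : ∀ m, ∑ l, uv X c0 c1 l * ψ l m = 0 := by
    intro m
    apply hinj
    have e1 : Z (cv F (uv X c0 c1)) = 0 := by
      rw [hZ, SpinN.hat_apply]
      have : h.Pc h2 F (cv F (uv X c0 c1)) = 0 := Subtype.ext (h.Pj_uv h2)
      rw [this, map_zero]
      rfl
    have e2 : X.b F (Z (cv F (uv X c0 c1))) (cv F (Pi.single m (1 : k))) = 0 := by
      rw [e1, map_zero, LinearMap.zero_apply]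
    rw [cv_eq_sum (uv X c0 c1), map_sum, map_sum, LinearMap.sum_apply] at e2
    rw [map_zero, ← e2, map_sum]
    refine Finset.sum_congr rfl fun l _ => ?_
    rw [map_smul, map_smul, LinearMap.smul_apply, smul_eq_mul, map_mul, ← hψ]
    rfl
  have hdiag : ∀ l, ψ l l = 0 := by
    intro l
    have h3 : (2 : k) * ψ l l = 0 := by linear_combination hskew l l
    exact (mul_eq_zero.1 h3).resolve_left h2
  have hne := h.ne01
  -- entries away from the two columns
  have z1 : ∀ a b, a ≠ c0 → a ≠ c1 → b ≠ c0 → b ≠ c1 → ψ a b = 0 := by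
    intro a b ha ha' hb hb'
    by_cases hab : a = b
    · rw [hab]; exact hdiag b
    have h3 := key (fun l m => if l = a ∧ m = b then 1 else if l = b ∧ m = a then -1 else 0)
      (fun l m => eta_skew hab l m) (fun l => by
        rw [if_neg (fun h => ha h.1.symm), if_neg (fun h => hb h.1.symm),
          if_neg (fun h => ha' h.1.symm), if_neg (fun h => hb' h.1.symm)])
    rw [sum_eta hab, hskew b a] at h3
    have h4 : (2 : k) * ψ a b = 0 := by linear_combination h3
    exact (mul_eq_zero.1 h4).resolve_left h2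
  -- entries against the two columns
  have z2 : ∀ b, b ≠ c0 → b ≠ c1 → ψ c0 b + ψ c1 b = 0 := by
    intro b hb hb'
    have h3 := key (fun l m => (if l = c0 ∧ m = b then 1 else if l = b ∧ m = c0 then -1 else 0) +
        (if l = c1 ∧ m = b then 1 else if l = b ∧ m = c1 then -1 else 0))
      (fun l m => by
        show _ + _ = -(_ + _)
        rw [eta_skew (R := k) (Ne.symm hb) l m, eta_skew (R := k) (Ne.symm hb') l m]
        ring)
      (fun l => by
        simp only [hne, hne.symm, Ne.symm hb, Ne.symm hb', hb, hb', false_and, true_and, if_false,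
          and_false, add_zero, zero_add])
    simp only [add_mul, Finset.sum_add_distrib] at h3
    rw [sum_eta (Ne.symm hb), sum_eta (Ne.symm hb'), hskew b c0, hskew b c1] at h3
    have h4 : (2 : k) * (ψ c0 b + ψ c1 b) = 0 := by linear_combination h3
    exact (mul_eq_zero.1 h4).resolve_left h2
  have hsum : ∀ f : J → k, (∀ l, l ≠ c0 → l ≠ c1 → f l = 0) → ∑ l, f l = f c0 + f c1 := by
    intro f hf
    exact Finset.sum_eq_add c0 c1 hne (fun l _ hl => hf l hl.1 hl.2)
      (fun h => absurd (Finset.mem_univ _) h) (fun h => absurd (Finset.mem_univ _) h)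
  have z3 : ∀ b, b ≠ c0 → b ≠ c1 → ψ c0 b = 0 ∧ ψ c1 b = 0 := by
    intro b hb hb'
    have h3 := hker b
    rw [hsum _ fun l hl hl' => by rw [z1 l b hl hl' hb hb', mul_zero], h.uv_c0, h.uv_c1] at h3
    have h4 := z2 b hb hb'
    have h5 : (2 * X.Ω c0 c1) * ψ c1 b = 0 := by
      linear_combination h3 + X.Ω c0 c1 * h4
    have h6 := (mul_eq_zero.1 h5).resolve_left (mul_ne_zero h2 h.ne)
    refine ⟨?_, h6⟩
    rw [h6, add_zero] at h4
    exact h4
  have z4 : ψ c1 c0 = 0 := by
    have h3 := hker c0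
    rw [hsum _ fun l hl hl' => by rw [hskew l c0, (z3 l hl hl').1, neg_zero, mul_zero], h.uv_c0,
      h.uv_c1, hdiag, mul_zero, zero_add] at h3
    exact (mul_eq_zero.1 h3).resolve_left h.ne
  have hz : ∀ a b, ψ a b = 0 := by
    intro a b
    by_cases ha : a = c0
    · subst ha
      by_cases hb : b = a
      · rw [hb]; exact hdiag a
      by_cases hb' : b = c1
      · rw [hb', hskew, z4, neg_zero]
      · exact (z3 b hb hb').1
    by_cases ha' : a = c1
    · subst ha'
      by_cases hb : b = c0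
      · rw [hb, z4]
      by_cases hb' : b = a
      · rw [hb']; exact hdiag a
      · exact (z3 b hb hb').2
    by_cases hb : b = c0
    · rw [hb, hskew, (z3 a ha ha').1, neg_zero]
    by_cases hb' : b = c1
    · rw [hb', hskew, (z3 a ha ha').2, neg_zero]
    exact z1 a b ha ha' hb hb'
  -- conclusion
  have hZ0 : ∀ x, Z x = 0 := by
    intro x
    apply X.b_nondeg hdet
    intro y
    have e1 : Z x = ∑ l, x l • Z (ev (k := k) F l) := by
      conv_lhs => rw [sum_ev (k := k) x, map_sum]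
      exact Finset.sum_congr rfl fun l _ => by rw [map_smul]
    have e2 : y = ∑ m, y m • ev (k := k) F m := sum_ev (k := k) y
    rw [e1, e2, map_sum]
    refine Finset.sum_eq_zero fun m _ => ?_
    rw [map_sum, LinearMap.sum_apply]
    refine Finset.sum_eq_zero fun l _ => ?_
    rw [map_smul, map_smul, LinearMap.smul_apply]
    have h5 : X.b F (Z (ev (k := k) F l)) (ev (k := k) F m) = 0 := by
      have h6 := hψ l m
      rw [hz, map_zero] at h6
      exact h6
    rw [h5, smul_zero, smul_zero]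
  apply LinearMap.ext
  intro x
  apply Subtype.ext
  have h3 := hZ0 x
  rw [hZ, SpinN.hat_apply, h.Pc_sub h2] at h3
  exact h3

/-- **the special bundle is versal** -/
noncomputable def SpinN.vers2 (h : SpinN X c0 c1) (h2 : (2 : k) ≠ 0) (hdet : IsUnit X.Om'.det)
    (hV : VersS X c0 c1) :
    Vers (N2 X F c0 c1 hn) (b2 X F c0 c1) (k2 X F hn) (Ders X) where
  δ := X.dF F
  D := h.D2 h2 F
  conn := h.D2_conn h2
  comm := h.comm2 h2 hdet
  vers Y hYa hY hD := h.vers_core h2 hdet hV Y hYa hY fun d => by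
    obtain ⟨D0, h0, -, hI⟩ := hD d
    exact ⟨D0, h0, hI⟩

end closed

end Vale.Agent.P182.H588
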