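import Vale.Agent.P182.H532.SData

/-!
# T-SPIN: the radical of `E^♯(S^⊥)`
-/

namespace Vale.Agent.P182.H588.SP

open Module Matrix TensorProduct Vale.Agent.P182.H533 Vale.Agent.P182.B1 Vale.Agent.P182.H62
open Vale.Agent.P182.H96 (ofCfg toCfg pp pp_eq om Rd)
open Vale.Agent.P182.H338 (SpinC SpinC1 SVersal uz uzM ExtZeroS UStrictS)
open Vale.Agent.P182.H258 (ofCfg_K)

universe u w

variable {L : Type u} {V : Type u} {J : Type w} [Field L] [AddCommGroup V] [Module L V]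
  {𝒟 : Cfg L V J} {S : Submodule L V} [Fintype J] {c0 c1 : J} [FiniteDimensional L V]

/-- the sum `∑ u z` of an element of the radical -/
theorem UM_of_rad [DecidableEq J] {a : H96.Cf L V J (Fin 3)} (hs : Spc a c0 c1) (g : a.Good)
    (h2 : (2 : L) ≠ 0) {z : J → V} (hz : ∀ l, z l ∈ a.C l)
    (h : ∀ w ∈ Esh a c0 c1 (pp a.q S), a.M w z = 0) :
    UM a c0 c1 z ∈ S ⊔ (a.C c0 ⊓ a.C c1) := by
  have h1 : UM a c0 c1 z ∈ perp a.q ((a.C c0 ⊔ a.C c1) ⊓ perp a.q S) := by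
    rintro v ⟨hv, hvS⟩
    obtain ⟨v0, h0, v1, h1, rfl⟩ := Submodule.mem_sup.mp hv
    have h3 := h (Pi.single c0 v0 + Pi.single c1 v1) ⟨fun l => ?_, fun l a0 a1 => ?_, ?_⟩
    · rw [map_add, LinearMap.add_apply, M_single, M_single, om_c0 hs g h2, om_c1 hs g h2,
        map_add, map_sub] at h3
      have e0 : a.q v0 (z c0) = 0 := by
        rw [g.form.symm]; exact g.iso c0 h0 _ (hz c0)
      have e1 : a.q v1 (z c1) = 0 := by
        rw [g.form.symm]; exact g.iso c1 h1 _ (hz c1)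
      rw [e0, e1, add_zero, sub_zero, ← LinearMap.add_apply, ← map_add] at h3
      rw [g.form.symm]
      exact h3
    · rw [Pi.add_apply]
      by_cases a0 : l = c0
      · subst a0
        rw [Pi.single_eq_same, Pi.single_eq_of_ne hs.ne, add_zero]
        exact h0
      · by_cases a1 : l = c1
        · subst a1
          rw [Pi.single_eq_same, Pi.single_eq_of_ne a0, zero_add]
          exact h1
        · rw [Pi.single_eq_of_ne a0, Pi.single_eq_of_ne a1, add_zero]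
          exact zero_mem _
    · rw [Pi.add_apply, Pi.single_eq_of_ne a0, Pi.single_eq_of_ne a1, add_zero]
      exact zero_mem _
    · rw [Pi.add_apply, Pi.add_apply, Pi.single_eq_same, Pi.single_eq_of_ne hs.ne,
        Pi.single_eq_of_ne hs.ne.symm, Pi.single_eq_same, add_zero, zero_add,
        pp_eq g.form]
      exact hvS
  rw [H887.perp_inf g.form, H887.perp_perp g.form, H887.perp_sup g.form, ← pp_eq g.form,
    ← pp_eq g.form, hs.lag0, hs.lag1, sup_comm] at h1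
  exact h1

/-- the column conditions of an element orthogonal to `E^♯(S^⊥)` -/
theorem om_of_rad [DecidableEq J] {a : H96.Cf L V J (Fin 3)} (g : a.Good)
    {z : J → V} (h : ∀ w ∈ Esh a c0 c1 (pp a.q S), a.M w z = 0) {l : J} (a0 : l ≠ c0)
    (a1 : l ≠ c1) : om a.Ω z l ∈ perp a.q (a.C l) ⊔ S := by
  have h1 : om a.Ω z l ∈ perp a.q (a.C l ⊓ perp a.q S) := by
    rintro v ⟨hv, hvS⟩
    have h3 := h (Pi.single l v) ⟨fun k => ?_, fun k b0 b1 => ?_, ?_⟩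
    · rw [M_single] at h3
      rw [g.form.symm]
      exact h3
    · by_cases hk : k = l
      · subst hk; rw [Pi.single_eq_same]; exact hv
      · rw [Pi.single_eq_of_ne hk]; exact zero_mem _
    · by_cases hk : k = l
      · subst hk; rw [Pi.single_eq_same, pp_eq g.form]; exact hvS
      · rw [Pi.single_eq_of_ne hk]; exact zero_mem _
    · rw [Pi.single_eq_of_ne a0.symm, Pi.single_eq_of_ne a1.symm, add_zero]
      exact zero_mem _
  rw [H887.perp_inf g.form, H887.perp_perp g.form] at h1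
  exact h1

/-- the radical with reduced sum in `S` -/
def RadS (a : H96.Cf L V J (Fin 3)) (c0 c1 : J) (S : Submodule L V) : Submodule L (J → V) :=
  (Esh a c0 c1 (pp a.q S) ⊓ a.perp (Esh a c0 c1 (pp a.q S))) ⊓ S.comap (UM a c0 c1)

theorem rad_le_sup [DecidableEq J] {a : H96.Cf L V J (Fin 3)} (hs : Spc a c0 c1) (g : a.Good)
    (h2 : (2 : L) ≠ 0) : Esh a c0 c1 (pp a.q S) ⊓ a.perp (Esh a c0 c1 (pp a.q S)) ≤
      RadS a c0 c1 S ⊔ KS a c0 c1 := by
  rintro z ⟨hz1, hz2⟩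
  obtain ⟨s, hsS, v, hv, hU⟩ := Submodule.mem_sup.mp
    (UM_of_rad (S := S) hs g h2 hz1.1 (H96.Cf.mem_perp.mp hz2).2)
  have hv' : (2 : L)⁻¹ • v ∈ a.C c0 ⊓ a.C c1 := Submodule.smul_mem _ _ hv
  have hkap := kap_mem_Esh hs hv'.1 hv'.2 (pp a.q S)
  have hkapK : kap (L := L) c0 c1 ((2 : L)⁻¹ • v) ∈ a.K := kap_mem_K hs g h2 hv'.1 hv'.2
  have e : z = (z + kap (L := L) c0 c1 ((2 : L)⁻¹ • v)) +
      kap (L := L) c0 c1 (-((2 : L)⁻¹ • v)) := by
    rw [map_neg, add_neg_cancel_right]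
  rw [e]
  refine Submodule.add_mem_sup ⟨⟨add_mem hz1 hkap, add_mem hz2 ?_⟩, ?_⟩
    ⟨_, neg_mem hv', rfl⟩
  · refine H96.Cf.mem_perp.mpr ⟨hkap.1, fun w hw => ?_⟩
    rw [g.M_skew, neg_eq_zero]
    have h3 := (H96.Cf.mem_perp.mp (show kap (L := L) c0 c1 ((2 : L)⁻¹ • v) ∈
      a.perp (a.E ⊤) from hkapK)).2 w (Esh_le _ hw)
    rw [g.M_skew, neg_eq_zero] at h3
    exact h3
  · show UM a c0 c1 (z + kap (L := L) c0 c1 ((2 : L)⁻¹ • v)) ∈ S
    rw [map_add, UM_kap hs g, smul_smul, neg_mul, mul_inv_cancel₀ h2, neg_smul, one_smul, ← hU,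
      add_neg_cancel_right]
    exact hsS

theorem E_le_RadS [DecidableEq J] {a : H96.Cf L V J (Fin 3)} (hs : Spc a c0 c1) (g : a.Good)
    (h2 : (2 : L) ≠ 0) (hS : S ≤ pp a.q S) : a.E S ≤ RadS a c0 c1 S := fun t ht =>
  ⟨⟨E_le_Esh _ (H96.Cf.E_mono hS ht), E_le_perp_s hs g h2 ht⟩,
    S.sum_mem fun l _ => S.smul_mem _ (H96.Cf.mem_E.mp ht l).2⟩

/-- **the radical of `E^♯(S^⊥)`** -/
theorem rad_le_s [DecidableEq J] (g : 𝒟.Good) (h2 : (2 : L) ≠ 0) (hs : SpinC1 𝒟 c0 c1)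
    (hS : 𝒟.Iso S) {m : ℕ} (hK : finrank L (H338.Ks (sq 𝒟 g S) c0 c1) ≤ m) :
    finrank L (Esh (ofCfg 𝒟) c0 c1 (pp (ofCfg 𝒟).q S) ⊓
      (ofCfg 𝒟).perp (Esh (ofCfg 𝒟) c0 c1 (pp (ofCfg 𝒟).q S)) : Submodule L (J → V)) ≤
      m + finrank L ((ofCfg 𝒟).E S ⊔ KS (ofCfg 𝒟) c0 c1 : Submodule L (J → V)) := by
  have hs' := spc_ofCfg g hs
  have g' := H96.good_ofCfg g
  have hS' : S ≤ pp (ofCfg 𝒟).q S := by
    show S ≤ pp 𝒟.q S
    rw [pp_eq g.form]; exact hS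
  set B := RadS (ofCfg 𝒟) c0 c1 S with hB
  -- the values
  have hval : ∀ z ∈ B, ∀ l, z l ∈ perp 𝒟.q S := by
    intro z hz l
    have h3 := Esh_to_E hs' g' h2 hz.1.1 (hS' hz.2)
    rw [← pp_eq g.form]
    exact (H96.Cf.mem_E.mp h3 l).2
  let f : B →ₗ[L] (J → SQ 𝒟.q S) :=
    { toFun := fun z l => SQmk S ⟨z.1 l, hval z.1 z.2 l⟩
      map_add' := fun x y => by funext l; exact map_add (SQmk S) ⟨x.1 l, _⟩ ⟨y.1 l, _⟩
      map_smul' := fun c x => by funext l; exact map_smul (SQmk S) c ⟨x.1 l, _⟩ }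
  have hf : ∀ (z : B) l, f z l = SQmk S ⟨z.1 l, hval z.1 z.2 l⟩ := fun z l => rfl
  have hsum : ∀ (z : B) (e : J → L), ∑ k, e k • f z k =
      SQmk S (∑ k, e k • ⟨z.1 k, hval z.1 z.2 k⟩) := by
    intro z e
    rw [map_sum]
    refine Finset.sum_congr rfl fun k _ => ?_
    rw [map_smul]
    rfl
  have hfK : ∀ z, f z ∈ H338.Ks (sq 𝒟 g S) c0 c1 := by
    intro z
    have hC : ∀ l, z.1 l ∈ 𝒟.C l := z.2.1.1.1
    rw [H338.mem_Ks, Cfg.mem_K]
    refine ⟨⟨fun l => SQmk_mem_SQim S (hC l), fun l => ?_⟩, ?_⟩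
    · rw [perp_sq_C g hS, Cfg.om]
      have h3 : ∑ k, (sq 𝒟 g S).Ω l k • f z k = ∑ k, 𝒟.Ω l k • f z k := rfl
      rw [h3, hsum z fun k => 𝒟.Ω l k]
      -- the value
      have hval' : ∀ x : ↥(perp 𝒟.q S), (x : V) ∈ perp 𝒟.q (𝒟.C l) ⊔ S →
          SQmk S x ∈ SQim S (perp 𝒟.q (𝒟.C l)) := by
        intro x hx
        obtain ⟨p, hp, s, hs1, hps⟩ := Submodule.mem_sup.mp hx
        have hp' : p ∈ perp 𝒟.q S := by
          have e1 : p = x - s := by rw [← hps, add_sub_cancel_right]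
          rw [e1]
          exact sub_mem x.2 (hS hs1)
        have e2 : SQmk S x = SQmk S ⟨p, hp'⟩ := by
          rw [← sub_eq_zero, ← map_sub, SQmk_eq_zero]
          show (x : V) - p ∈ S
          rw [← hps, add_sub_cancel_left]
          exact hs1
        rw [e2]
        exact SQmk_mem_SQim S hp
      refine hval' _ ?_
      rw [Submodule.coe_sum]
      have e1 : ∑ i, ((𝒟.Ω l i • (⟨z.1 i, hval z.1 z.2 i⟩ : ↥(perp 𝒟.q S)) :
        ↥(perp 𝒟.q S)) : V) = om 𝒟.Ω z.1 l := rfl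
      rw [e1]
      by_cases a0 : l = c0
      · subst a0
        have h4 : om 𝒟.Ω z.1 l = UM (ofCfg 𝒟) l c1 z.1 + z.1 l := om_c0 hs' g' h2 z.1
        rw [h4, add_comm]
        refine Submodule.add_mem_sup ?_ z.2.2
        rw [hs.lag0]; exact hC l
      · by_cases a1 : l = c1
        · subst a1
          have h4 : om 𝒟.Ω z.1 l = UM (ofCfg 𝒟) c0 l z.1 - z.1 l := om_c1 hs' g' h2 z.1
          rw [h4, sub_eq_add_neg, add_comm]
          refine Submodule.add_mem_sup ?_ z.2.2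
          rw [hs.lag1]; exact neg_mem (hC l)
        · exact om_of_rad (a := ofCfg 𝒟) g' (H96.Cf.mem_perp.mp z.2.1.2).2 a0 a1
    · have h3 : ∑ k, uz (sq 𝒟 g S) c0 c1 k • f z k = ∑ k, uz 𝒟 c0 c1 k • f z k := rfl
      rw [h3, hsum, SQmk_eq_zero, Submodule.coe_sum]
      exact z.2.2
  -- the kernel
  have hker : finrank L (LinearMap.ker f) ≤ finrank L ((ofCfg 𝒟).E S) := by
    have h3 : (LinearMap.ker f).map B.subtype ≤ (ofCfg 𝒟).E S := by
      rintro _ ⟨z, hz, rfl⟩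
      refine H96.Cf.mem_E.mpr fun l => ⟨z.2.1.1.1 l, ?_⟩
      have h4 := congrFun (LinearMap.mem_ker.mp hz) l
      rw [hf, Pi.zero_apply] at h4
      exact (SQmk_eq_zero S).mp h4
    have h4 := Submodule.finrank_mono h3
    rwa [Submodule.finrank_map_subtype_eq] at h4
  have hran : finrank L (LinearMap.range f) ≤ m := by
    refine le_trans (Submodule.finrank_mono ?_) hK
    rintro _ ⟨z, rfl⟩
    exact hfK z
  have hBd := LinearMap.finrank_range_add_finrank_ker f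
  -- the sum with the families `κ`
  have hEB : (ofCfg 𝒟).E S ≤ B := E_le_RadS hs' g' h2 hS'
  have h5 := Submodule.finrank_mono (rad_le_sup (S := S) hs' g' h2)
  have h6 := Submodule.finrank_sup_add_finrank_inf_eq B ((ofCfg 𝒟).E S ⊔ KS (ofCfg 𝒟) c0 c1)
  have h7 : B ⊔ ((ofCfg 𝒟).E S ⊔ KS (ofCfg 𝒟) c0 c1) = B ⊔ KS (ofCfg 𝒟) c0 c1 := by
    rw [← sup_assoc, sup_eq_left.mpr hEB]
  have h8 : (ofCfg 𝒟).E S ≤ B ⊓ ((ofCfg 𝒟).E S ⊔ KS (ofCfg 𝒟) c0 c1) :=
    le_inf hEB le_sup_left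
  have h9 := Submodule.finrank_mono h8
  rw [h7] at h6
  rw [← hB] at h5
  omega

end Vale.Agent.P182.H588.SP
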