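import Vale.Agent.P182.H532.SCfg

/-!
# First order relations and realisation for special configurations
-/

namespace Vale.Agent.P182.SPIN

open Module Matrix Vale.Agent.P182.H533 Vale.Agent.P182.B1 Vale.Agent.P182.H922
  Vale.Agent.P182.H578

variable {L V J : Type*} [Field L] [AddCommGroup V] [Module L V] [Fintype J]
  {𝒟 : Cfg L V J} {a b : J}

omit [Fintype J] in
theorem spM_zero (a b : J) : SpM (L := L) a b 0 := ⟨by simp, fun _ => rfl⟩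

/-- **The first order relation**, special matrices. -/
theorem first_orderS (hG : 𝒟.Good) (hV : H338.SVersal 𝒟 a b) {x y : J → V} (hx : x ∈ 𝒟.K)
    (hy : y ∈ 𝒟.K) {Y : Fin 3 → End L V} (hY : ∀ s, IsSk 𝒟.q (Y s)) {η : Matrix J J L}
    (hη : SpM a b η) :
    ∑ l, ∑ k, η l k * 𝒟.q (x l) (y k) +
      ∑ l, (𝒟.q (Y (𝒟.arm l) (x l)) (𝒟.om y l) + 𝒟.q (Y (𝒟.arm l) (𝒟.om x l)) (y l)) = 0 := by
  obtain ⟨n, hn, hd⟩ := hV Y hY η hη.1 hη.2
  have hn' : ∀ l, ∀ v ∈ 𝒟.C l, n.δ v - Y (𝒟.arm l) v ∈ 𝒟.C l := fun l => hn _ _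
  -- `M (x, y) = 0`
  have h0 : ∑ l, 𝒟.q (x l) (𝒟.om y l) = 0 := Finset.sum_eq_zero fun l _ => by
    rw [hG.form.symm]; exact hy.2 l _ (hx.1 l)
  have h1 := congrArg n.d h0
  rw [map_zero, map_sum] at h1
  have h2 : ∀ l, n.d (𝒟.q (x l) (𝒟.om y l)) =
      𝒟.q (Y (𝒟.arm l) (x l)) (𝒟.om y l) + (∑ k, η l k * 𝒟.q (x l) (y k) +
        𝒟.q (x l) (𝒟.om (fun k => n.δ (y k)) l)) := by
    intro l
    rw [n.metric]
    congr 1
    · have h3 := hy.2 l _ (hn' l _ (hx.1 l))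
      rw [hG.form.symm, map_sub, LinearMap.sub_apply, sub_eq_zero] at h3
      exact h3
    · rw [conn_om, map_add, map_sum]
      congr 1
      refine Finset.sum_congr rfl fun k _ => ?_
      rw [map_smul, smul_eq_mul, hd]
  rw [Finset.sum_congr rfl fun l _ => h2 l, Finset.sum_add_distrib, Finset.sum_add_distrib,
    pair_om hG x] at h1
  have h3 : ∀ l, 𝒟.q (n.δ (y l)) (𝒟.om x l) = - 𝒟.q (Y (𝒟.arm l) (𝒟.om x l)) (y l) := by
    intro l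
    have h4 := hx.2 l _ (hn' l _ (hy.1 l))
    rw [map_sub, sub_eq_zero] at h4
    rw [hG.form.symm, h4, hY, neg_neg]
  rw [Finset.sum_congr rfl fun l _ => h3 l, Finset.sum_neg_distrib, neg_neg] at h1
  rw [Finset.sum_add_distrib, ← h1]
  ring

variable [DecidableEq J]

/-- the Gram matrix of two families killed by `u₀` is symmetric -/
theorem gram_sym (h2 : (2 : L) ≠ 0) (hG : 𝒟.Good) (h : Sp 𝒟 a b) {x y : J → V}
    (hx : ∑ l, u0 𝒟 a b l • x l = 0) (hy : ∑ l, u0 𝒟 a b l • y l = 0)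
    (hη : ∀ η : Matrix J J L, SpM a b η → ∑ l, ∑ k, η l k * 𝒟.q (x l) (y k) = 0)
    (l k : J) : 𝒟.q (x l) (y k) = 𝒟.q (x k) (y l) := by
  refine sym_of_special h2 (M := Matrix.of fun l k => 𝒟.q (x l) (y k)) h.ne (h.u0_a hG) h.u0_b
    hη (fun l => ?_) (fun k => ?_) l k
  · have := congrArg (𝒟.q (x l)) hy
    rw [map_sum, map_zero] at this
    rw [← this]
    refine Finset.sum_congr rfl fun k _ => ?_
    rw [map_smul, smul_eq_mul, mul_comm]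
    rfl
  · have := congrArg (fun v => 𝒟.q v (y k)) hx
    simp only [map_sum, map_zero, LinearMap.zero_apply, LinearMap.sum_apply, map_smul,
      LinearMap.smul_apply, smul_eq_mul] at this
    rw [← this]
    exact Finset.sum_congr rfl fun l _ => mul_comm _ _

/-- **F1** for the special kernel -/
theorem F1S (h2 : (2 : L) ≠ 0) (hG : 𝒟.Good) (h : Sp 𝒟 a b) (hV : H338.SVersal 𝒟 a b) {x y : J → V}
    (hx : x ∈ H338.Ks 𝒟 a b) (hy : y ∈ H338.Ks 𝒟 a b) (l k : J) :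
    𝒟.q (x l) (y k) = 𝒟.q (y l) (x k) := by
  rw [hG.form.symm (y l)]
  refine gram_sym h2 hG h hx.2 hy.2 (fun η hη => ?_) l k
  have h1 := first_orderS hG hV hx.1 hy.1 (Y := fun _ => 0) (fun s u v => by simp) hη
  simpa using h1

/-- **F2** for the kernel -/
theorem F2S (hG : 𝒟.Good) (hV : H338.SVersal 𝒟 a b) {r r' : J → V} (hr : r ∈ 𝒟.K) (hr' : r' ∈ 𝒟.K)
    (s : Fin 3) : IsSA 𝒟.q (opr 𝒟.q (Tt L r) (Gm 𝒟.arm 𝒟.Ω s) (Tt L r')) := by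
  intro v w
  let X : End L V := (𝒟.q v).smulRight w - (𝒟.q w).smulRight v
  have hX : ∀ a, X a = 𝒟.q v a • w - 𝒟.q w a • v := fun a => rfl
  have hXs : IsSk 𝒟.q X := by
    intro a b
    rw [hX, hX]
    simp only [map_sub, map_smul, LinearMap.sub_apply, LinearMap.smul_apply, smul_eq_mul]
    rw [hG.form.symm a w, hG.form.symm a v]
    ring
  have h := first_orderS hG hV hr hr' (Y := fun s' => if s' = s then X else 0) (fun s' => by
      split_ifs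
      · exact hXs
      · intro a b; simp) (η := 0) (spM_zero _ _)
  have h1 : ∀ l, 𝒟.q ((if 𝒟.arm l = s then X else 0 : End L V) (r l)) (𝒟.om r' l) +
      𝒟.q ((if 𝒟.arm l = s then X else 0 : End L V) (𝒟.om r l)) (r' l) =
      if 𝒟.arm l = s then 𝒟.q (X (r l)) (𝒟.om r' l) + 𝒟.q (X (𝒟.om r l)) (r' l) else 0 := by
    intro l
    split_ifs
    · rfl
    · simp
  rw [Finset.sum_congr rfl fun l _ => h1 l] at h
  simp only [Matrix.zero_apply, zero_mul, Finset.sum_const_zero, zero_add] at h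
  rw [← Finset.sum_filter] at h
  rw [opr_Tt 𝒟 hG.skew, opr_Tt 𝒟 hG.skew, map_sum, LinearMap.sum_apply, map_sum, ← sub_eq_zero,
    ← Finset.sum_sub_distrib, ← neg_eq_zero, ← Finset.sum_neg_distrib, ← h]
  refine Finset.sum_congr rfl fun l _ => ?_
  rw [hX, hX]
  simp only [map_add, map_sub, map_smul, LinearMap.sub_apply, LinearMap.smul_apply,
    LinearMap.add_apply, smul_eq_mul]
  rw [hG.form.symm (𝒟.om r' l) v, hG.form.symm (𝒟.om r l) w, hG.form.symm (r' l) v,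
    hG.form.symm (r l) w, hG.form.symm (r' l) w, hG.form.symm (𝒟.om r' l) w]
  ring

/-- the relations for the special kernel -/
theorem kRelS (h2 : (2 : L) ≠ 0) (hG : 𝒟.Good) (h : Sp 𝒟 a b) (hV : H338.SVersal 𝒟 a b) :
    KRel 𝒟.arm 𝒟.q 𝒟.Ω (Tt L '' (H338.Ks 𝒟 a b : Set (J → V))) where
  F1 := by
    rintro _ ⟨r, hr, rfl⟩ _ ⟨r', hr', rfl⟩ x y
    rw [Tt_apply, Tt_apply, Tt_apply, Tt_apply]
    simp only [map_sum, map_smul, LinearMap.sum_apply, LinearMap.smul_apply, smul_eq_mul]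
    refine Finset.sum_congr rfl fun k _ => ?_
    congr 1
    refine Finset.sum_congr rfl fun l _ => ?_
    rw [F1S h2 hG h hV hr hr']
  F2 := by
    rintro _ ⟨r, hr, rfl⟩ _ ⟨r', hr', rfl⟩ s
    exact F2S hG hV hr.1 hr'.1 s

/-- the derivative of the dual vectors, in general -/
theorem conn_om' (n : H533.Conn 𝒟.q) {η : Matrix J J L} (hd : ∀ l k, n.d (𝒟.Ω l k) = η l k)
    (X : Fin 3 → End L V) (t : J → V) (l : J) :
    n.δ (𝒟.om t l) - X (𝒟.arm l) (𝒟.om t l) =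
      𝒟.om (fun k => n.δ (t k) - X (𝒟.arm k) (t k)) l -
        (X (𝒟.arm l) (𝒟.om t l) - 𝒟.om (fun k => X (𝒟.arm k) (t k)) l - ∑ k, η l k • t k) := by
  rw [conn_om]
  have h2 : 𝒟.om (fun k => n.δ (t k) - X (𝒟.arm k) (t k)) l =
      𝒟.om (fun k => n.δ (t k)) l - 𝒟.om (fun k => X (𝒟.arm k) (t k)) l := by
    simp only [Cfg.om, smul_sub, Finset.sum_sub_distrib]
  simp only [hd]
  rw [h2]
  abel

/-- the equation of a deformation in coordinates -/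
theorem hT_coord (hG : 𝒟.Good) {t : J → V} (X : Fin 3 → End L V) {η : Matrix J J L}
    (hη : ηᵀ = -η)
    (hT : ∀ x, Tt L t (η *ᵥ x) + ∑ s, X s (Tt L t (Gm 𝒟.arm 𝒟.Ω s *ᵥ x)) = 0) (k : J) :
    X (𝒟.arm k) (𝒟.om t k) - 𝒟.om (fun l => X (𝒟.arm l) (t l)) k - ∑ l, η k l • t l = 0 := by
  have hη' : ∀ l l', η l l' = - η l' l := fun l l' => by
    have := congrFun (congrFun hη l') l
    rwa [Matrix.transpose_apply, Matrix.neg_apply] at this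
  have h1 := hT (Pi.single k 1)
  have h2 : Tt L t (η *ᵥ Pi.single k 1) = - ∑ l, η k l • t l := by
    rw [Tt_apply, ← Finset.sum_neg_distrib]
    refine Finset.sum_congr rfl fun l _ => ?_
    rw [Matrix.mulVec_single_one, Matrix.col_apply, hη' l k, neg_smul]
  have h3 : ∀ s, X s (Tt L t (Gm 𝒟.arm 𝒟.Ω s *ᵥ Pi.single k 1)) =
      ∑ l, ((if 𝒟.arm k = s then 𝒟.Ω k l • X s (t l) else 0) -
        (if 𝒟.arm l = s then 𝒟.Ω k l • X s (t l) else 0)) := by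
    intro s
    rw [Tt_apply, map_sum]
    refine Finset.sum_congr rfl fun l _ => ?_
    rw [Matrix.mulVec_single_one, Matrix.col_apply, Gm_apply, skewΩ hG l k, map_smul]
    split_ifs <;> simp
  have h4 : ∑ s, X s (Tt L t (Gm 𝒟.arm 𝒟.Ω s *ᵥ Pi.single k 1)) =
      X (𝒟.arm k) (𝒟.om t k) - 𝒟.om (fun l => X (𝒟.arm l) (t l)) k := by
    rw [Finset.sum_congr rfl fun s _ => h3 s, Finset.sum_comm]
    simp only [Finset.sum_sub_distrib, Finset.sum_ite_eq, Finset.mem_univ, if_true]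
    rw [Cfg.om, Cfg.om, map_sum]
    simp only [map_smul]
  rw [h2, h4] at h1
  rw [← h1]
  abel

/-- **Realisation, general form.** For a family `t` killed by `u₀` satisfying the flag conditions
and any deformation data `(X, η)` with the linear equation up to `u₀ ⊗ v`, with `η` special. -/
theorem realS' [FiniteDimensional L V] (h2 : (2 : L) ≠ 0) (hG : 𝒟.Good) (h : Sp 𝒟 a b)
    {t : J → V} (ht : t ∈ H338.Ks 𝒟 a b) (n : H533.Conn 𝒟.q) {X : Fin 3 → End L V}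
    (hX : ∀ s, IsSk 𝒟.q (X s)) {η : Matrix J J L}
    (hn : ∀ s i, ∀ v ∈ 𝒟.F s i, n.δ v - X s v ∈ 𝒟.F s i) (hd : ∀ l k, n.d (𝒟.Ω l k) = η l k)
    {v : V} (hv : ∀ l, X (𝒟.arm l) (𝒟.om t l) - 𝒟.om (fun k => X (𝒟.arm k) (t k)) l -
      ∑ k, η l k • t k = - (u0 𝒟 a b l • v)) :
    ∃ R ∈ H338.Ks 𝒟 a b, ∃ va ∈ 𝒟.C a, ∃ vb ∈ 𝒟.C b,
      (∀ l, n.δ (t l) = X (𝒟.arm l) (t l) + R l + Zf a b va vb l) ∧
        ∀ l, n.δ (𝒟.om t l) = X (𝒟.arm l) (𝒟.om t l) + 𝒟.om R l - yy 𝒟 a b va vb l := by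
  have h1 : ∀ l, n.δ (t l) - X (𝒟.arm l) (t l) ∈ 𝒟.C l := fun l => hn _ _ _ (ht.1.1 l)
  have h3 : ∀ l, n.δ (𝒟.om t l) - X (𝒟.arm l) (𝒟.om t l) ∈ perp 𝒟.q (𝒟.C l) := fun l =>
    conn_perp n (hX _) (hn _ _) _ (ht.1.2 l)
  have h4 : ∀ l, n.δ (𝒟.om t l) - X (𝒟.arm l) (𝒟.om t l) =
      𝒟.om (fun k => n.δ (t k) - X (𝒟.arm k) (t k)) l + u0 𝒟 a b l • v := by
    intro l
    rw [conn_om' n hd, hv]
    abel
  obtain ⟨R, hR, va, hva, vb, hvb, e1, e2⟩ := adjust h2 h hG (κ := fun k => n.δ (t k) -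
    X (𝒟.arm k) (t k)) (v := -v) h1 (fun l => by
      rw [smul_neg, sub_neg_eq_add, ← h4]
      exact h3 l)
  refine ⟨R, hR, va, hva, vb, hvb, fun l => ?_, fun l => ?_⟩
  · have := congrFun e1 l
    rw [Pi.add_apply] at this
    rw [add_assoc, ← this]
    abel
  · have e3 := h4 l
    rw [e2] at e3
    rw [sub_eq_iff_eq_add] at e3
    rw [e3, smul_neg]
    abel

/-- **Realisation for special configurations.** -/
theorem realS [FiniteDimensional L V] (h2 : (2 : L) ≠ 0) (hG : 𝒟.Good) (h : Sp 𝒟 a b)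
    (hV : H338.SVersal 𝒟 a b) {t : J → V} (ht : t ∈ H338.Ks 𝒟 a b) (X : Fin 3 → End L V)
    (η : Matrix J J L) (hX : ∀ s, IsSk 𝒟.q (X s)) (hη : ηᵀ = -η)
    (hT : ∀ x, Tt L t (η *ᵥ x) + ∑ s, X s (Tt L t (Gm 𝒟.arm 𝒟.Ω s *ᵥ x)) = 0) :
    ∃ n : H533.Conn 𝒟.q, ∃ p : J → L, ∃ R ∈ H338.Ks 𝒟 a b, ∃ va ∈ 𝒟.C a, ∃ vb ∈ 𝒟.C b,
      (∀ s i, ∀ v ∈ 𝒟.F s i, n.δ v - X s v ∈ 𝒟.F s i) ∧
      (∀ l k, n.d (𝒟.Ω l k) = η l k - (p l * u0 𝒟 a b k - u0 𝒟 a b l * p k)) ∧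
      (∀ l, n.δ (t l) = X (𝒟.arm l) (t l) + R l + Zf a b va vb l) ∧
        ∀ l, n.δ (𝒟.om t l) = X (𝒟.arm l) (𝒟.om t l) + 𝒟.om R l - yy 𝒟 a b va vb l := by
  obtain ⟨p, hp⟩ := exists_special h2 h.ne (h.u0_a hG) h.u0_b hη
  obtain ⟨n, hn, hd⟩ := hV X hX _ hp.1 hp.2
  obtain ⟨R, hR, va, hva, vb, hvb, e1, e2⟩ := realS' h2 hG h ht n hX hn hd
    (v := ∑ k, p k • t k) (fun l => by
      have h1 := hT_coord hG X hη hT l
      have h3 : ∑ k, (η - Matrix.of fun l k => p l * u0 𝒟 a b k - u0 𝒟 a b l * p k) l k • t k =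
          ∑ k, η l k • t k + u0 𝒟 a b l • ∑ k, p k • t k := by
        simp only [Matrix.sub_apply, Matrix.of_apply, sub_smul, Finset.sum_sub_distrib, mul_smul]
        rw [← Finset.smul_sum, ← Finset.smul_sum, (mem_Ks.mp ht).2, smul_zero]
        abel
      rw [h3, ← sub_sub, h1, zero_sub])
  exact ⟨n, p, R, hR, va, hva, vb, hvb, hn, fun l k => by rw [hd]; rfl, e1, e2⟩

/-- **The derivative of the residues.** -/
theorem delta_Res (hG : 𝒟.Good) (h : Sp 𝒟 a b) {t : J → V} (ht : ∑ l, u0 𝒟 a b l • t l = 0)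
    (n : H533.Conn 𝒟.q) {X : Fin 3 → End L V} (hX : ∀ s, IsSk 𝒟.q (X s)) {R : J → V} {va vb : V}
    (h1 : ∀ l, n.δ (t l) = X (𝒟.arm l) (t l) + R l + Zf a b va vb l)
    (h2 : ∀ l, n.δ (𝒟.om t l) = X (𝒟.arm l) (𝒟.om t l) + 𝒟.om R l - yy 𝒟 a b va vb l)
    (s : Fin 3) (v : V) :
    n.δ (Res 𝒟 t s v) = Res 𝒟 t s (n.δ v) + (X s (Res 𝒟 t s v) - Res 𝒟 t s (X s v)) +
      (opr 𝒟.q (Tt L R) (Gm 𝒟.arm 𝒟.Ω s) (Tt L t) v +
        opr 𝒟.q (Tt L t) (Gm 𝒟.arm 𝒟.Ω s) (Tt L R) v) := by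
  have c1 := sum_arm_zero h ht (𝒟.q.flip v |>.smulRight (LinearMap.id : V →ₗ[L] V)) va vb s
  have c2 := sum_arm_zero h ht ((LinearMap.toSpanSingleton L (V →ₗ[L] V) LinearMap.id).flip
    |>.compl₂ (LinearMap.id) |> fun _ => (LinearMap.mk₂ L (fun z u => 𝒟.q u v • z)
      (fun z z' u => smul_add _ _ _) (fun c z u => smul_comm _ _ _)
      (fun z u u' => by rw [map_add, LinearMap.add_apply, add_smul])
      (fun c z u => by rw [map_smul, LinearMap.smul_apply, smul_eq_mul, mul_smul]) :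
        V →ₗ[L] V →ₗ[L] V)) va vb s
  rw [Res_apply 𝒟 hG.skew, Res_apply 𝒟 hG.skew, Res_apply 𝒟 hG.skew, opr_Tt 𝒟 hG.skew,
    opr_Tt 𝒟 hG.skew, map_sum, map_sum]
  rw [← sub_eq_zero]
  have e : ∀ l, 𝒟.arm l = s → n.δ (𝒟.q (𝒟.om t l) v • t l + 𝒟.q (t l) v • 𝒟.om t l) =
      (𝒟.q (𝒟.om t l) (n.δ v) • t l + 𝒟.q (t l) (n.δ v) • 𝒟.om t l) +
      (X s (𝒟.q (𝒟.om t l) v • t l + 𝒟.q (t l) v • 𝒟.om t l) -
        (𝒟.q (𝒟.om t l) (X s v) • t l + 𝒟.q (t l) (X s v) • 𝒟.om t l)) +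
      ((𝒟.q (𝒟.om t l) v • R l + 𝒟.q (t l) v • 𝒟.om R l) +
        (𝒟.q (𝒟.om R l) v • t l + 𝒟.q (R l) v • 𝒟.om t l)) +
      ((𝒟.q (Zf a b va vb l) v • 𝒟.om t l - 𝒟.q (yy 𝒟 a b va vb l) v • t l) +
        (𝒟.q (𝒟.om t l) v • Zf a b va vb l - 𝒟.q (t l) v • yy 𝒟 a b va vb l)) := by
    intro l hl
    rw [map_add, n.smul, n.smul, n.metric, n.metric, h1, h2, hl]
    simp only [map_add, map_sub, LinearMap.add_apply, LinearMap.sub_apply, hX s _ v, map_smul]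
    module
  rw [Finset.sum_congr rfl fun l hl => e l (Finset.mem_filter.mp hl).2]
  simp only [Finset.sum_add_distrib, Finset.sum_sub_distrib] at c1 c2 ⊢
  have c1' : (∑ l with 𝒟.arm l = s, 𝒟.q (Zf a b va vb l) v • 𝒟.om t l) -
      ∑ l with 𝒟.arm l = s, 𝒟.q (yy 𝒟 a b va vb l) v • t l = 0 := c1
  have c2' : (∑ l with 𝒟.arm l = s, 𝒟.q (𝒟.om t l) v • Zf a b va vb l) -
      ∑ l with 𝒟.arm l = s, 𝒟.q (t l) v • yy 𝒟 a b va vb l = 0 := c2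
  rw [c1', c2']
  abel

end Vale.Agent.P182.SPIN
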