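import Vale.Agent.P182.H532.SDicho

/-!
# Surjectivity for special configurations
-/

namespace Vale.Agent.P182.SPIN

open Module Matrix Vale.Agent.P182.H533 Vale.Agent.P182.B1 Vale.Agent.P182.H922
  Vale.Agent.P182.H578

section

variable {L V J : Type*} [Field L] [AddCommGroup V] [Module L V] [FiniteDimensional L V]
  [Fintype J] [DecidableEq J] {𝒟 : Cfg L V J} {a b : J}

/-- the special skew matrices as a subspace -/
def spM (L : Type*) [Field L] {J : Type*} (a b : J) :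
    Submodule L (Matrix J J L) where
  carrier := {η | SpM a b η}
  zero_mem' := ⟨by simp, fun _ => rfl⟩
  add_mem' := fun {x y} hx hy => ⟨by rw [Matrix.transpose_add, hx.1, hy.1, neg_add], fun l => by
    rw [Matrix.add_apply, Matrix.add_apply, hx.2 l, hy.2 l]⟩
  smul_mem' := fun c x hx => ⟨by rw [Matrix.transpose_smul, hx.1, smul_neg], fun l => by
    rw [Matrix.smul_apply, Matrix.smul_apply, hx.2 l]⟩

/-- the linear system -/
def LamS (𝒟 : Cfg L V J) (a b : J) (t : J → V) :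
    ((Fin 3 → adj 𝒟.q (-1)) × spM L a b × Cpi 𝒟 × Ppi 𝒟 × V) →ₗ[L] (J → V) where
  toFun y l := (y.1 (𝒟.arm l) : End L V) (𝒟.om t l) -
    𝒟.om (fun k => (y.1 (𝒟.arm k) : End L V) (t k)) l - ∑ k, (y.2.1 : Matrix J J L) l k • t k +
      ((y.2.2.2.1 : J → V) l - 𝒟.om (y.2.2.1 : J → V) l) + u0 𝒟 a b l • y.2.2.2.2
  map_add' x y := by
    funext l
    simp only [Cfg.om, Prod.fst_add, Prod.snd_add, Pi.add_apply, Submodule.coe_add,
      LinearMap.add_apply, Matrix.add_apply, smul_add, add_smul, Finset.sum_add_distrib]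
    abel
  map_smul' c x := by
    funext l
    simp only [Cfg.om, Prod.smul_fst, Prod.smul_snd, Pi.smul_apply, Submodule.coe_smul,
      LinearMap.smul_apply, Matrix.smul_apply, smul_add, smul_sub, smul_eq_mul,
      Finset.smul_sum, RingHom.id_apply, smul_smul]
    simp only [mul_comm c]

/-- the right hand side -/
def RhsS (𝒟 : Cfg L V J) (a b : J) (z z' : J → V) :
    ((Fin 3 → adj 𝒟.q (-1)) × spM L a b × Cpi 𝒟 × Ppi 𝒟 × V) →ₗ[L] L where
  toFun y := ∑ l, (𝒟.q ((y.2.2.2.1 : J → V) l) (z l) + 𝒟.q ((y.2.2.1 : J → V) l) (z' l))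
  map_add' x y := by
    simp only [Prod.snd_add, Prod.fst_add, Submodule.coe_add, Pi.add_apply, map_add,
      LinearMap.add_apply, Finset.sum_add_distrib]
    abel
  map_smul' c x := by
    simp only [Prod.smul_snd, Prod.smul_fst, Submodule.coe_smul, Pi.smul_apply, map_smul,
      LinearMap.smul_apply, smul_eq_mul, RingHom.id_apply, Finset.mul_sum, mul_add]

/-- **Surjectivity for special configurations.** -/
theorem surj_genS (h2 : (2 : L) ≠ 0) (hG : 𝒟.Good) (h : Sp 𝒟 a b) (hV : H338.SVersal 𝒟 a b)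
    {t : J → V} (ht : t ∈ H338.Ks 𝒟 a b)
    {β : Fin 3 → End L V} (hβ : ∀ s, IsSA 𝒟.q (β s))
    (hβS : ∀ s, β s * Res 𝒟 t s = Res 𝒟 t s * β s)
    (htr : ∀ t' ∈ H338.Ks 𝒟 a b, ∑ s, LinearMap.trace L V
      (β s * opr 𝒟.q (Tt L t) (Gm 𝒟.arm 𝒟.Ω s) (Tt L t')) = 0) :
    ∃ r : J → V, ∑ l, u0 𝒟 a b l • r l = 0 ∧ (∀ l k, 𝒟.q (t l) (r k) = 𝒟.q (r l) (t k)) ∧
      (∀ s, IsSA 𝒟.q (opr 𝒟.q (Tt L t) (Gm 𝒟.arm 𝒟.Ω s) (Tt L r))) ∧
      ∀ l, β (𝒟.arm l) (t l) - r l ∈ 𝒟.C l ∧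
        β (𝒟.arm l) (𝒟.om t l) - 𝒟.om r l ∈ perp 𝒟.q (𝒟.C l) := by
  have fib : ∀ f : Fin 3 → J → L, ∑ s, ∑ l with 𝒟.arm l = s, f s l = ∑ l, f (𝒟.arm l) l := by
    intro f
    rw [← Finset.sum_fiberwise (s := Finset.univ) (g := 𝒟.arm)]
    refine Finset.sum_congr rfl fun s _ => Finset.sum_congr rfl fun l hl => ?_
    rw [(Finset.mem_filter.1 hl).2]
  -- the compatibility
  have hcomp : ∀ y, ((famPair 𝒟) ∘ₗ LamS 𝒟 a b t) y = 0 →
      RhsS 𝒟 a b (fun l => β (𝒟.arm l) (t l)) (fun l => β (𝒟.arm l) (𝒟.om t l)) y = 0 := by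
    rintro ⟨Y, ⟨η, hη⟩, ⟨w, hw⟩, ⟨w', hw'⟩, v⟩ hy
    have h0 := famPair_inj hG hy
    have h1 : ∀ l, (Y (𝒟.arm l) : End L V) (𝒟.om t l) -
        𝒟.om (fun k => (Y (𝒟.arm k) : End L V) (t k)) l - ∑ k, η l k • t k +
          (w' l - 𝒟.om w l) + u0 𝒟 a b l • v = 0 := fun l => congrFun h0 l
    show ∑ l, (𝒟.q (w' l) (β (𝒟.arm l) (t l)) + 𝒟.q (w l) (β (𝒟.arm l) (𝒟.om t l))) = 0
    rw [mem_Cpi] at hw
    rw [mem_Ppi] at hw'
    have hYs : ∀ s, IsSk 𝒟.q (Y s : End L V) := fun s u v => by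
      rw [(Y s).2 u v]; ring
    obtain ⟨n, hn, hd⟩ := hV (fun s => (Y s : End L V)) hYs η hη.1 hη.2
    -- the solution given by the connection
    let z : J → V := fun l => n.δ (t l) - (Y (𝒟.arm l) : End L V) (t l)
    have hz : ∀ l, z l ∈ 𝒟.C l := fun l => hn _ _ _ (ht.1.1 l)
    have hz' : ∀ l, n.δ (𝒟.om t l) - (Y (𝒟.arm l) : End L V) (𝒟.om t l) ∈ perp 𝒟.q (𝒟.C l) :=
      fun l => conn_perp n (hYs _) (fun v hv => hn _ _ v hv) _ (ht.1.2 l)
    have hom : ∀ l, 𝒟.om (w - z) l =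
        w' l - (n.δ (𝒟.om t l) - (Y (𝒟.arm l) : End L V) (𝒟.om t l)) + u0 𝒟 a b l • v := by
      intro l
      have h3 : 𝒟.om (w - z) l = 𝒟.om w l - 𝒟.om z l := by
        simp only [Cfg.om, Pi.sub_apply, smul_sub, Finset.sum_sub_distrib]
      rw [h3, conn_om' n hd (fun s => (Y s : End L V)) t l]
      have h4 := h1 l
      have h5 : w' l = 𝒟.om w l - ((Y (𝒟.arm l) : End L V) (𝒟.om t l) -
        𝒟.om (fun k => (Y (𝒟.arm k) : End L V) (t k)) l - ∑ k, η l k • t k) -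
          u0 𝒟 a b l • v := by
        rw [← sub_eq_zero, ← h4]; abel
      rw [h5]
      abel
    obtain ⟨R, hR, va, hva, vb, hvb, e1, e2⟩ := adjust h2 h hG (κ := w - z) (v := v)
      (fun l => sub_mem (hw l) (hz l)) (fun l => by
        rw [hom, add_sub_cancel_right]
        exact sub_mem (hw' l) (hz' l))
    -- the contributions
    have c1 := htr _ hR
    simp only [trace_opr hG.skew] at c1
    have c2 := Finset.sum_eq_zero (s := Finset.univ) fun s _ =>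
      nabla_pair h2 hG ht.1 n s (hβ s) (hβS s)
    have c3 := Finset.sum_eq_zero (s := Finset.univ) fun s _ =>
      skew_pair h2 hG t s (hβ s) (hβS s) (hYs s)
    have c5 := Finset.sum_eq_zero (s := Finset.univ) fun s (_ : s ∈ Finset.univ) =>
      sum_arm_zero h ht.2 (𝒟.q.compl₂ (β s)) va vb s
    rw [fib (fun s l => 𝒟.q (𝒟.om R l) (β s (t l)) + 𝒟.q (R l) (β s (𝒟.om t l)))] at c1
    rw [fib (fun s l => 𝒟.q (n.δ (𝒟.om t l)) (β s (t l)) + 𝒟.q (n.δ (t l)) (β s (𝒟.om t l)))] at c2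
    rw [fib (fun s l => 𝒟.q ((Y s : End L V) (𝒟.om t l)) (β s (t l)) +
      𝒟.q ((Y s : End L V) (t l)) (β s (𝒟.om t l)))] at c3
    rw [fib (fun s l => (𝒟.q.compl₂ (β s)) (Zf a b va vb l) (𝒟.om t l) -
      (𝒟.q.compl₂ (β s)) (yy 𝒟 a b va vb l) (t l))] at c5
    have ew : ∀ l, w l = R l + Zf a b va vb l + (n.δ (t l) - (Y (𝒟.arm l) : End L V) (t l)) := by
      intro l
      have := congrFun e1 l
      rw [Pi.sub_apply, Pi.add_apply, sub_eq_iff_eq_add] at this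
      exact this
    have ew' : ∀ l, w' l = 𝒟.om R l - yy 𝒟 a b va vb l +
        (n.δ (𝒟.om t l) - (Y (𝒟.arm l) : End L V) (𝒟.om t l)) := by
      intro l
      have h5 := hom l
      rw [e2] at h5
      have h6 : w' l = (𝒟.om R l + (u0 𝒟 a b l • v - yy 𝒟 a b va vb l)) - u0 𝒟 a b l • v +
          (n.δ (𝒟.om t l) - (Y (𝒟.arm l) : End L V) (𝒟.om t l)) := by
        rw [h5]; abel
      rw [h6]
      abel
    have c4 : ∑ l, (𝒟.q (w' l) (β (𝒟.arm l) (t l)) + 𝒟.q (w l) (β (𝒟.arm l) (𝒟.om t l))) =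
        ∑ l, (𝒟.q (𝒟.om R l) (β (𝒟.arm l) (t l)) +
          𝒟.q (R l) (β (𝒟.arm l) (𝒟.om t l))) +
        (∑ l, (𝒟.q (n.δ (𝒟.om t l)) (β (𝒟.arm l) (t l)) +
          𝒟.q (n.δ (t l)) (β (𝒟.arm l) (𝒟.om t l))) -
        ∑ l, (𝒟.q ((Y (𝒟.arm l) : End L V) (𝒟.om t l)) (β (𝒟.arm l) (t l)) +
          𝒟.q ((Y (𝒟.arm l) : End L V) (t l)) (β (𝒟.arm l) (𝒟.om t l)))) +
        ∑ l, ((𝒟.q.compl₂ (β (𝒟.arm l))) (Zf a b va vb l) (𝒟.om t l) -
          (𝒟.q.compl₂ (β (𝒟.arm l))) (yy 𝒟 a b va vb l) (t l)) := by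
      rw [← Finset.sum_sub_distrib, ← Finset.sum_add_distrib, ← Finset.sum_add_distrib]
      refine Finset.sum_congr rfl fun l _ => ?_
      rw [ew, ew']
      simp only [map_add, map_sub, LinearMap.sub_apply, LinearMap.add_apply,
        LinearMap.compl₂_apply]
      ring
    rw [c4, c1, c2, c3, c5]
    ring
  obtain ⟨r, hr⟩ := lin_sys ((famPair 𝒟) ∘ₗ LamS 𝒟 a b t) _ hcomp
  have hr' : ∀ (Y : Fin 3 → adj 𝒟.q (-1)) (η : spM L a b) (w : Cpi 𝒟) (w' : Ppi 𝒟) (v : V),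
      ∑ l, 𝒟.q ((Y (𝒟.arm l) : End L V) (𝒟.om t l)) (r l) +
        ∑ l, 𝒟.q ((Y (𝒟.arm l) : End L V) (t l)) (𝒟.om r l) -
        ∑ l, ∑ k, (η : Matrix J J L) l k * 𝒟.q (t k) (r l) +
        (∑ l, 𝒟.q ((w' : J → V) l) (r l) + ∑ l, 𝒟.q ((w : J → V) l) (𝒟.om r l)) +
        𝒟.q v (∑ l, u0 𝒟 a b l • r l) =
      ∑ l, (𝒟.q ((w' : J → V) l) (β (𝒟.arm l) (t l)) +
        𝒟.q ((w : J → V) l) (β (𝒟.arm l) (𝒟.om t l))) := by
    intro Y η w w' v
    have h1 := hr (Y, η, w, w', v)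
    rw [LinearMap.comp_apply, famPair_apply] at h1
    refine Eq.trans ?_ h1
    have hLam : ∀ l, LamS 𝒟 a b t (Y, η, w, w', v) l = (Y (𝒟.arm l) : End L V) (𝒟.om t l) -
      𝒟.om (fun k => (Y (𝒟.arm k) : End L V) (t k)) l - ∑ k, (η : Matrix J J L) l k • t k +
      ((w' : J → V) l - 𝒟.om (w : J → V) l) + u0 𝒟 a b l • v := fun l => rfl
    simp only [hLam, map_add, map_sub, LinearMap.add_apply, LinearMap.sub_apply,
      Finset.sum_add_distrib, Finset.sum_sub_distrib]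
    have p1 : ∀ a : J → V, ∑ l, 𝒟.q (𝒟.om a l) (r l) = - ∑ l, 𝒟.q (a l) (𝒟.om r l) := by
      intro a
      rw [pair_om hG, neg_neg]
      exact Finset.sum_congr rfl fun l _ => hG.form.symm _ _
    rw [p1, p1]
    simp only [map_sum, LinearMap.sum_apply, map_smul, LinearMap.smul_apply, smul_eq_mul]
    ring
  have hru : ∑ l, u0 𝒟 a b l • r l = 0 := by
    apply hG.form.nondeg
    intro v
    have h3 := hr' 0 0 0 0 v
    rw [hG.form.symm]
    simpa using h3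
  refine ⟨r, hru, ?_, ?_, ?_⟩
  · -- F1
    intro l k
    have h3 : ∀ η : Matrix J J L, SpM a b η →
        ∑ l, ∑ k, η l k * 𝒟.q (r l) (t k) = 0 := by
      intro η hη
      have h4 := hr' 0 ⟨η, hη⟩ 0 0 0
      have h5 : ∑ l, ∑ k, η l k * 𝒟.q (t k) (r l) = 0 := by simpa using h4
      rw [← h5]
      exact Finset.sum_congr rfl fun l _ => Finset.sum_congr rfl fun k _ => by
        rw [hG.form.symm (r l)]
    rw [gram_sym h2 hG h hru ht.2 h3 l k, hG.form.symm]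
  · -- F2
    intro s
    set T := opr 𝒟.q (Tt L t) (Gm 𝒟.arm 𝒟.Ω s) (Tt L r) with hT
    intro v w
    let X : End L V := (𝒟.q v).smulRight w - (𝒟.q w).smulRight v
    have hX : ∀ a, X a = 𝒟.q v a • w - 𝒟.q w a • v := fun a => rfl
    have hXs : X ∈ adj 𝒟.q (-1) := by
      intro a b
      rw [hX, hX]
      simp only [map_sub, map_smul, LinearMap.sub_apply, LinearMap.smul_apply, smul_eq_mul]
      rw [hG.form.symm a w, hG.form.symm a v]
      ring
    have h3 := hr' (fun s' => if s' = s then ⟨X, hXs⟩ else 0) 0 0 0 0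
    have h4 : LinearMap.trace L V (X * T) = 0 := by
      rw [hT, trace_opr hG.skew, ← neg_eq_zero, ← Finset.sum_neg_distrib, Finset.sum_filter]
      have h5 : ∀ l, (if 𝒟.arm l = s then
          -(𝒟.q (𝒟.om r l) (X (t l)) + 𝒟.q (r l) (X (𝒟.om t l))) else 0) =
          -(𝒟.q (((if 𝒟.arm l = s then ⟨X, hXs⟩ else 0 : adj 𝒟.q (-1)) : End L V) (𝒟.om t l))
              (r l) +
            𝒟.q (((if 𝒟.arm l = s then ⟨X, hXs⟩ else 0 : adj 𝒟.q (-1)) : End L V) (t l))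
              (𝒟.om r l)) := by
        intro l
        split_ifs
        · rw [hG.form.symm (𝒟.om r l), hG.form.symm (r l)]; ring
        · simp
      rw [Finset.sum_congr rfl fun l _ => h5 l, Finset.sum_neg_distrib, Finset.sum_add_distrib,
        neg_eq_zero]
      simpa using h3
    have h6 : X * T = (𝒟.q v ∘ₗ T).smulRight w - (𝒟.q w ∘ₗ T).smulRight v := by
      apply LinearMap.ext
      intro a
      rfl
    rw [h6, map_sub, LinearMap.trace_smulRight, LinearMap.trace_smulRight, sub_eq_zero] at h4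
    rw [hG.form.symm]
    exact h4.symm
  · intro l
    constructor
    · apply perp_perp_le hG.form
      intro c hc
      have h3 := hr' 0 0 0 ⟨Pi.single l c, by
        rw [mem_Ppi]
        intro k
        by_cases hk : k = l
        · subst hk; rwa [Pi.single_eq_same]
        · rw [Pi.single_eq_of_ne hk]; exact zero_mem _⟩ 0
      have h4 : 𝒟.q c (r l) = 𝒟.q c (β (𝒟.arm l) (t l)) := by
        have e1 : ∀ f : J → V, ∑ k, 𝒟.q ((Pi.single l c : J → V) k) (f k) = 𝒟.q c (f l) := by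
          intro f
          rw [Finset.sum_eq_single l]
          · rw [Pi.single_eq_same]
          · intro k _ hk
            rw [Pi.single_eq_of_ne hk, map_zero, LinearMap.zero_apply]
          · intro h; exact absurd (Finset.mem_univ _) h
        simp only [Finset.sum_add_distrib] at h3
        rw [e1, e1 (fun k => β (𝒟.arm k) (t k))] at h3
        simpa using h3
      rw [hG.form.symm, map_sub, h4, sub_self]
    · intro c hc
      have h3 := hr' 0 0 ⟨Pi.single l c, by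
        rw [mem_Cpi]
        intro k
        by_cases hk : k = l
        · subst hk; rwa [Pi.single_eq_same]
        · rw [Pi.single_eq_of_ne hk]; exact zero_mem _⟩ 0 0
      have h4 : 𝒟.q c (𝒟.om r l) = 𝒟.q c (β (𝒟.arm l) (𝒟.om t l)) := by
        have e1 : ∀ f : J → V, ∑ k, 𝒟.q ((Pi.single l c : J → V) k) (f k) = 𝒟.q c (f l) := by
          intro f
          rw [Finset.sum_eq_single l]
          · rw [Pi.single_eq_same]
          · intro k _ hk
            rw [Pi.single_eq_of_ne hk, map_zero, LinearMap.zero_apply]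
          · intro h; exact absurd (Finset.mem_univ _) h
        simp only [Finset.sum_add_distrib] at h3
        rw [e1 (fun k => 𝒟.om r k), e1 (fun k => β (𝒟.arm k) (𝒟.om t k))] at h3
        simpa using h3
      rw [hG.form.symm, map_sub, h4, sub_self]

/-- elements of the special kernel satisfy the first order relations -/
theorem Ks_rel (h2 : (2 : L) ≠ 0) (hG : 𝒟.Good) (h : Sp 𝒟 a b) (hV : H338.SVersal 𝒟 a b)
    {t t' : J → V} (ht : t ∈ H338.Ks 𝒟 a b) (ht' : t' ∈ H338.Ks 𝒟 a b) :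
    (∀ l k, 𝒟.q (t l) (t' k) = 𝒟.q (t' l) (t k)) ∧
      ∀ s, IsSA 𝒟.q (opr 𝒟.q (Tt L t) (Gm 𝒟.arm 𝒟.Ω s) (Tt L t')) :=
  ⟨F1S h2 hG h hV ht ht', F2S hG hV ht.1 ht'.1⟩

end

end Vale.Agent.P182.SPIN
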